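import Vale.Agent.P168.H45.Good

/-! The induction over the levels, for nonnegative functions. -/

set_option autoImplicit false
set_option linter.unusedSectionVars false

open MeasureTheory ProbabilityTheory Filter
open scoped NNReal Topology

namespace Vale.Agent.P168.PN

open Vale.Agent.P168.PT

variable {K : ℕ} {𝔹 : Type} [MeasurableSpace 𝔹]

section Down

variable {X : Type} [MeasurableSpace X] {bb : 𝔹 → ℝ} {β : Measure 𝔹} {PX : Measure X}
  [IsProbabilityMeasure β] [IsFiniteMeasure PX] {s D : ℝ} {N : 𝔹 × (Fin K → X) → ℝ}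

theorem vGood (hD : 0 < D) (h1 : ∀ z, (1 - s) * D ≤ N z) (hs1 : s < 1)
    {e0 : ℝ} (hG : Good bb β PX fun z => D ^ e0 - N z ^ e0) :
    Good bb β PX fun z => 1 - (N z / D) ^ e0 := by
  have h := hG.smul (c := (D ^ e0)⁻¹) (inv_nonneg.2 (Real.rpow_nonneg hD.le _))
  have e : (fun z => (D ^ e0)⁻¹ * (D ^ e0 - N z ^ e0)) = fun z => 1 - (N z / D) ^ e0 := by
    funext z
    have hp : 0 < D ^ e0 := Real.rpow_pos_of_pos hD _
    have hN : 0 ≤ N z := le_trans (mul_nonneg (by linarith) hD.le) (h1 z)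
    rw [Real.div_rpow hN hD.le]
    field_simp
  rwa [e] at h

theorem down (hb : Measurable bb) (hb1 : ∀ b, |bb b| ≤ 1) (hs0 : 0 ≤ s) (hs1 : s < 1)
    (hD : 0 < D) (h1 : ∀ z, (1 - s) * D ≤ N z) (h2 : ∀ z, N z ≤ (1 + s) * D)
    {e0 e : ℝ} (he : 0 < e) (hee : e ≤ e0) (he0 : e0 ≤ 1)
    (hG : Good bb β PX fun z => D ^ e0 - N z ^ e0) : Good bb β PX fun z => D ^ e - N z ^ e := by
  have he00 : 0 < e0 := he.trans_le hee
  have hv := vGood hD h1 hs1 hG
  have hvb : ∀ z, |1 - (N z / D) ^ e0| ≤ s := fun z =>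
    one_sub_rpow_le hs0 hs1 (div_bounds hD h1 h2 z).1 (div_bounds hD h1 h2 z).2 he00 he0
  have h := (hv.one_sub_rpow hb hb1 hs0 hs1 hvb (a := e / e0) (by positivity)
    ((div_le_one he00).2 hee)).smul (c := D ^ e) (Real.rpow_nonneg hD.le _)
  have ee : (fun z => D ^ e * (1 - (1 - (1 - (N z / D) ^ e0)) ^ (e / e0))) =
      fun z => D ^ e - N z ^ e := by
    funext z
    have hN : 0 ≤ N z := le_trans (mul_nonneg (by linarith) hD.le) (h1 z)
    have hp : 0 < D ^ e := Real.rpow_pos_of_pos hD _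
    rw [sub_sub_cancel, ← Real.rpow_mul (div_nonneg hN hD.le), mul_div_cancel₀ _ he00.ne',
      Real.div_rpow hN hD.le]
    (clear * - hD; field_simp)
  rwa [ee] at h

theorem logGood (hb : Measurable bb) (hb1 : ∀ b, |bb b| ≤ 1) (hs0 : 0 ≤ s) (hs1 : s < 1)
    (hD : 0 < D) (h1 : ∀ z, (1 - s) * D ≤ N z) (h2 : ∀ z, N z ≤ (1 + s) * D)
    {e0 : ℝ} (he00 : 0 < e0) (he0 : e0 ≤ 1)
    (hG : Good bb β PX fun z => D ^ e0 - N z ^ e0) :
    Good bb β PX fun z => Real.log D - Real.log (N z) := by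
  have hv := vGood hD h1 hs1 hG
  have hvb : ∀ z, |1 - (N z / D) ^ e0| ≤ s := fun z =>
    one_sub_rpow_le hs0 hs1 (div_bounds hD h1 h2 z).1 (div_bounds hD h1 h2 z).2 he00 he0
  have h := (hv.neg_log hb hb1 hs0 hs1 hvb).smul (c := 1 / e0) (by positivity)
  have ee : (fun z => 1 / e0 * -Real.log (1 - (1 - (N z / D) ^ e0))) =
      fun z => Real.log D - Real.log (N z) := by
    funext z
    have hN : 0 < N z := lt_of_lt_of_le (mul_pos (by linarith) hD) (h1 z)
    rw [sub_sub_cancel, Real.log_rpow (div_pos hN hD), Real.log_div hN.ne' hD.ne']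
    field_simp
    ring
  rwa [ee] at h

end Down

variable {S : Type} [Fintype S] {W Y : Type} [MeasurableSpace W] [MeasurableSpace Y]

theorem Good.param_coord {X : Type} [MeasurableSpace X] {bb : 𝔹 → ℝ} {β : Measure 𝔹}
    [IsProbabilityMeasure β] {PX : Measure X} [IsFiniteMeasure PX] {PY : Measure Y}
    [IsProbabilityMeasure PY] (hb : Measurable bb) (hb1 : ∀ b, |bb b| ≤ 1)
    {U : Type} [MeasurableSpace U] {PU : Measure U} [IsFiniteMeasure PU]
    {F : U → 𝔹 × (Fin K → X × Y) → ℝ}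
    (hF : Bdm fun x : U × (𝔹 × (Fin K → X × Y)) => F x.1 x.2)
    (hG : ∀ u, Good bb β (PX.prod PY) (F u)) :
    Good bb β PX fun z => ∫ u, (∫ y, F u (zipp (z, y)) ∂(Measure.pi fun _ => PY)) ∂PU := by
  refine Good.param (F := fun u z => ∫ y, F u (zipp (z, y)) ∂(Measure.pi fun _ => PY)) ?_
    fun u => (hG u).coord hb hb1
  obtain ⟨hFm, C, hC⟩ := hF
  refine ⟨?_, C, fun x => ?_⟩
  · refine (StronglyMeasurable.integral_prod_right
      (f := fun (x : U × (𝔹 × (Fin K → X))) y => F x.1 (zipp (x.2, y)))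
      (Measurable.stronglyMeasurable ?_)).measurable
    exact hFm.comp ((measurable_fst.comp measurable_fst).prodMk
      (measurable_zipp.comp ((measurable_snd.comp measurable_fst).prodMk measurable_snd)))
  · have := norm_integral_le_of_norm_le_const (μ := Measure.pi fun _ : Fin K => PY)
      (f := fun y => F x.1 (zipp (x.2, y))) (C := C)
      (Eventually.of_forall fun u => hC (x.1, _))
    simpa only [ge_iff_le, Real.norm_eq_abs, probReal_univ, mul_one] using this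

section Step

variable {X : Type} [MeasurableSpace X] {P : Measure W} {PY : Measure Y} [IsProbabilityMeasure P]
  [IsProbabilityMeasure PY] [Nonempty S] {r : ℕ} {m : Fin (r + 1) → ℝ}
  {Z : (Fin (r + 1) → W) → S → ℝ}
  {g : X → (Fin (r + 1) → Y) → S → ℝ} {z0 z1 s : ℝ} {bb : 𝔹 → ℝ}

theorem step_good {β : Measure 𝔹} [IsProbabilityMeasure β] {PX : Measure X} [IsFiniteMeasure PX]
    (hz : 0 < z0) (hZ : ∀ σ, Bd z0 z1 fun v => Z v σ)
    (hg : ∀ σ, Measurable fun z : X × (Fin (r + 1) → Y) => g z.1 z.2 σ)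
    (hg1 : ∀ x v σ, |g x v σ| ≤ 1) (hm : ∀ p, 0 < m p)
    (hb : Measurable bb) (hb1 : ∀ b, |bb b| ≤ 1) (hsb : ∀ b, |s * bb b| ≤ s) (hs0 : 0 ≤ s)
    (hs1 : s < 1)
    (hF : ∀ u, Good (K := K) bb β (PX.prod PY) fun z' =>
      (nest P r (Fin.tail m) fun v => ∑ σ, Z (Fin.cons u v) σ) ^ m 0 -
        num P PY r (Fin.tail m) (fun v => Z (Fin.cons u v)) (shg g) s bb z' ^ m 0) :
    Good (K := K) bb β PX fun z =>
      (nest P (r + 1) m fun v => ∑ σ, Z v σ) ^ m 0 - num P PY (r + 1) m Z g s bb z ^ m 0 := by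
  have hc : (0 : ℝ) < Fintype.card S := by exact_mod_cast Fintype.card_pos
  have h1s : 0 < 1 - s := by linarith
  have hNb' := (num_cons_bd (K := K) (P := P) (PY := PY) hz hZ hg hg1 hm hb hsb hs0 hs1).rpow
    (by positivity) (hm 0)
  have hDb' := (cons_den_bd (P := P) hz hZ hm).rpow (by positivity) (hm 0)
  have hFb : Bdm fun x : W × (𝔹 × (Fin K → X × Y)) =>
      (nest P r (Fin.tail m) fun v => ∑ σ, Z (Fin.cons x.1 v) σ) ^ m 0 -
        num P PY r (Fin.tail m) (fun v => Z (Fin.cons x.1 v)) (shg g) s bb x.2 ^ m 0 :=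
    (hDb'.bdm.comp measurable_fst).sub hNb'.bdm
  have hGood := Good.param_coord (K := K) (PU := P) (PY := PY) (PX := PX) hb hb1 hFb hF
  have ee := funext fun z => step_eq (K := K) (P := P) (PY := PY) hz hZ hg hg1 hm hb hsb hs0 hs1 z
  rw [ee] at hGood
  exact hGood

end Step

theorem core {β : Measure 𝔹} [IsProbabilityMeasure β] {bb : 𝔹 → ℝ} (hb : Measurable bb)
    (hb1 : ∀ b, |bb b| ≤ 1) {P : Measure W} {PY : Measure Y} [IsProbabilityMeasure P]
    [IsProbabilityMeasure PY] [Nonempty S] {z0 z1 s : ℝ} (hz : 0 < z0) (hs0 : 0 ≤ s)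
    (hs1 : s < 1) (r : ℕ) :
    ∀ (m : Fin r → ℝ) (_ : ∀ p, 0 < m p) (_ : ∀ p, m p ≤ 1) (_ : Monotone m)
      {X : Type} [MeasurableSpace X] (PX : Measure X) [IsFiniteMeasure PX]
      (Z : (Fin r → W) → S → ℝ) (_ : ∀ σ, Bd z0 z1 fun v => Z v σ)
      (g : X → (Fin r → Y) → S → ℝ)
      (_ : ∀ σ, Measurable fun z : X × (Fin r → Y) => g z.1 z.2 σ) (_ : ∀ x v σ, |g x v σ| ≤ 1)
      (_ : ∀ x v σ, 0 ≤ g x v σ)
      (e : ℝ) (_ : 0 < e) (_ : e ≤ 1) (_ : ∀ p, e ≤ m p),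
      Good (K := K) bb β PX fun z =>
        (nest P r m fun v => ∑ σ, Z v σ) ^ e - num P PY r m Z g s bb z ^ e := by
  have hsb : ∀ b, |s * bb b| ≤ s := fun b => by
    rw [abs_mul, abs_of_nonneg hs0]
    exact mul_le_of_le_one_right hs0 (hb1 b)
  have hc : (0 : ℝ) < Fintype.card S := by exact_mod_cast Fintype.card_pos
  induction r with
  | zero =>
    intro m hm hm1 hmono X _ PX _ Z hZ g hg hg1 hg0 e he he1 hee
    have hD : 0 < nest P 0 m fun v => ∑ σ, Z v σ :=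
      lt_of_lt_of_le (by positivity) (nest_mem (by positivity) 0 m hm _ (sum_bd hZ)).1
    refine down hb hb1 hs0 hs1 hD
      (fun z => (num_bounds (K := K) (PY := PY) hz hZ hg hg1 hm hs0 hs1 (hsb z.1) z.2).1)
      (fun z => (num_bounds (K := K) (PY := PY) hz hZ hg hg1 hm hs0 hs1 (hsb z.1) z.2).2)
      he he1 le_rfl ?_
    have h1 : ∀ σ ∈ (Finset.univ : Finset S), Good (K := K) bb β PX fun z =>
        (Z Fin.elim0 σ * s) * gen bb 1 (fun x => g x Fin.elim0 σ) z := by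
      intro σ _
      refine (Good.of_gen hb hb1 1 ?_ (fun x => hg1 _ _ _) fun x => hg0 _ _ _).smul
        (mul_nonneg (hz.le.trans ((hZ σ).lo _)) hs0)
      exact (hg σ).comp (measurable_id.prodMk measurable_const)
    have h2 := Good.finsum (K := K) Finset.univ h1
    have ee : (fun z : 𝔹 × (Fin K → X) => ∑ σ, (Z Fin.elim0 σ * s) *
        gen bb 1 (fun x => g x Fin.elim0 σ) z) = fun z =>
        (nest P 0 m fun v => ∑ σ, Z v σ) ^ (1 : ℝ) - num P PY 0 m Z g s bb z ^ (1 : ℝ) := by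
      funext z
      unfold num numY
      rw [Real.rpow_one, Real.rpow_one, nest_zero, nest_zero, ← Finset.sum_sub_distrib]
      refine Finset.sum_congr rfl fun σ _ => ?_
      have e1 : (fun p : Fin 0 => ((Fin.elim0 : Fin 0 → W × (Fin K → Y)) p).1) =
          (Fin.elim0 : Fin 0 → W) := Subsingleton.elim _ _
      have e2 : ∀ j : Fin K, (fun p : Fin 0 => ((Fin.elim0 : Fin 0 → W × (Fin K → Y)) p).2 j) =
          (Fin.elim0 : Fin 0 → Y) := fun j => Subsingleton.elim _ _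
      simp only [e1, e2, gen]
      ring
    rwa [ee] at h2
  | succ r ih =>
    intro m hm hm1 hmono X _ PX _ Z hZ g hg hg1 hg0 e he he1 hee
    have hD : 0 < nest P (r + 1) m fun v => ∑ σ, Z v σ :=
      lt_of_lt_of_le (by positivity) (nest_mem (by positivity) (r + 1) m hm _ (sum_bd hZ)).1
    refine down hb hb1 hs0 hs1 hD
      (fun z => (num_bounds (K := K) (PY := PY) hz hZ hg hg1 hm hs0 hs1 (hsb z.1) z.2).1)
      (fun z => (num_bounds (K := K) (PY := PY) hz hZ hg hg1 hm hs0 hs1 (hsb z.1) z.2).2)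
      he (hee 0) (hm1 0) ?_
    exact step_good hz hZ hg hg1 hm hb hb1 hsb hs0 hs1 fun u =>
      ih (Fin.tail m) (fun p => hm _) (fun p => hm1 _)
        (fun i j hij => hmono (Fin.succ_le_succ_iff.2 hij)) (PX.prod PY) _
        (fun σ => (hZ σ).comp (measurable_consr u)) (shg g) (shg_meas hg)
        (fun x v σ => hg1 _ _ _) (fun x v σ => hg0 _ _ _) (m 0) (hm 0) (hm1 0)
        (fun p => hmono (Fin.zero_le _))

theorem core_log {β : Measure 𝔹} [IsProbabilityMeasure β] {bb : 𝔹 → ℝ} (hb : Measurable bb)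
    (hb1 : ∀ b, |bb b| ≤ 1) {P : Measure W} {PY : Measure Y} [IsProbabilityMeasure P]
    [IsProbabilityMeasure PY] [Nonempty S] {z0 z1 s : ℝ} (hz : 0 < z0) (hs0 : 0 ≤ s)
    (hs1 : s < 1) (r : ℕ) (m : Fin r → ℝ) (hm : ∀ p, 0 < m p) (hm1 : ∀ p, m p ≤ 1)
    (hmono : Monotone m) {X : Type} [MeasurableSpace X] (PX : Measure X) [IsFiniteMeasure PX]
    (Z : (Fin r → W) → S → ℝ) (hZ : ∀ σ, Bd z0 z1 fun v => Z v σ)
    (g : X → (Fin r → Y) → S → ℝ)
    (hg : ∀ σ, Measurable fun z : X × (Fin r → Y) => g z.1 z.2 σ) (hg1 : ∀ x v σ, |g x v σ| ≤ 1)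
    (hg0 : ∀ x v σ, 0 ≤ g x v σ) :
    Good (K := K) bb β PX fun z =>
      Real.log (nest P r m fun v => ∑ σ, Z v σ) - Real.log (num P PY r m Z g s bb z) := by
  have hsb : ∀ b, |s * bb b| ≤ s := fun b => by
    rw [abs_mul, abs_of_nonneg hs0]
    exact mul_le_of_le_one_right hs0 (hb1 b)
  have hc : (0 : ℝ) < Fintype.card S := by exact_mod_cast Fintype.card_pos
  have hD : 0 < nest P r m fun v => ∑ σ, Z v σ :=
    lt_of_lt_of_le (by positivity) (nest_mem (by positivity) r m hm _ (sum_bd hZ)).1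
  obtain ⟨e, he, he1, hee⟩ : ∃ e : ℝ, 0 < e ∧ e ≤ 1 ∧ ∀ p, e ≤ m p := by
    cases r with
    | zero => exact ⟨1, one_pos, le_rfl, fun p => p.elim0⟩
    | succ r => exact ⟨m 0, hm 0, hm1 0, fun p => hmono (Fin.zero_le _)⟩
  exact logGood hb hb1 hs0 hs1 hD
    (fun z => (num_bounds (K := K) (PY := PY) hz hZ hg hg1 hm hs0 hs1 (hsb z.1) z.2).1)
    (fun z => (num_bounds (K := K) (PY := PY) hz hZ hg hg1 hm hs0 hs1 (hsb z.1) z.2).2)
    he he1 (core hb hb1 hz hs0 hs1 r m hm hm1 hmono PX Z hZ g hg hg1 hg0 e he he1 hee)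


end Vale.Agent.P168.PN

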