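import Vale.Agent.P168.H45.CutCount
import Mathlib.Analysis.SpecialFunctions.Log.Basic

/-! Averages over simple graphs are bounded by averages over sequences of pairs. -/

set_option autoImplicit false

open Finset Filter
open scoped NNReal Topology

namespace Vale.Agent.P168.Cut

variable {N M : ℕ}

/-- The average over all sequences of `M` ordered pairs of vertices. -/
noncomputable def avg (F : (Fin M → Fin 2 → Fin N) → ℝ) : ℝ :=
  (∑ ω, F ω) / Fintype.card (Fin M → Fin 2 → Fin N)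

theorem card_W : (Fintype.card (Fin M → Fin 2 → Fin N) : ℝ) = ((N : ℝ) ^ 2) ^ M := by
  simp

open Classical in
theorem graph_le (hN : 1 ≤ N) {κ : ℝ} (hκ : 0 < κ)
    (hr : κ * ((N : ℝ) ^ 2) ^ M ≤ 2 ^ M * ((N.choose 2).descFactorial M : ℝ))
    {F : SimpleGraph (Fin N) → ℝ} {Ft : (Fin M → Fin 2 → Fin N) → ℝ} (h0 : ∀ ω, 0 ≤ Ft ω)
    (hF : ∀ ω, Good (pr ω) → F (gr (pr ω)) ≤ Ft ω) :
    graphAverage N M F ≤ κ⁻¹ * avg Ft := by
  have hNp : (0 : ℝ) < N := by exact_mod_cast hN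
  have hW : 0 < ((N : ℝ) ^ 2) ^ M := by positivity
  set c : ℝ := 2 ^ M * M.factorial with hc
  have hcp : 0 < c := by positivity
  have h1 : ∀ H : SimpleGraph (Fin N) → ℝ, ∑ ω : Fin M → Fin 2 → Fin N with Good (pr ω),
      H (gr (pr ω)) = c * ∑ G with G.edgeSet.ncard = M, H G := by
    intro H
    rw [sum_pr (fun f => H (gr f)), sum_gr, hc, mul_assoc]
  have h2 : c * ∑ G with G.edgeSet.ncard = M, F G ≤ ∑ ω, Ft ω := by
    rw [← h1]
    refine (sum_le_sum fun ω hω => hF ω (mem_filter.1 hω).2).trans ?_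
    exact sum_le_sum_of_subset_of_nonneg (filter_subset _ _) fun ω _ _ => h0 ω
  have h3 : c * (#{G : SimpleGraph (Fin N) | G.edgeSet.ncard = M} : ℝ) =
      2 ^ M * ((N.choose 2).descFactorial M : ℝ) := by
    have e1 := h1 fun _ => 1
    have e2 := sum_pr (N := N) (M := M) fun _ => 1
    rw [e1] at e2
    simp only [sum_const, nsmul_eq_mul, mul_one] at e2
    rw [e2, card_good]
  set n : ℝ := (#{G : SimpleGraph (Fin N) | G.edgeSet.ncard = M} : ℝ) with hn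
  have h4 : 0 < c * n := by
    rw [h3]
    exact lt_of_lt_of_le (mul_pos hκ hW) hr
  have hnp : 0 < n := by
    by_contra hcon
    push Not at hcon
    nlinarith
  have h5 : graphAverage N M F = (c * ∑ G with G.edgeSet.ncard = M, F G) / (c * n) := by
    unfold graphAverage
    rw [mul_div_mul_left _ _ hcp.ne']
  have h6 : avg Ft = (∑ ω, Ft ω) / ((N : ℝ) ^ 2) ^ M := by
    unfold avg
    rw [card_W]
  have h7 : 0 ≤ ∑ ω, Ft ω := sum_nonneg fun ω _ => h0 ω
  rw [h5, h6]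
  calc (c * ∑ G with G.edgeSet.ncard = M, F G) / (c * n) ≤ (∑ ω, Ft ω) / (c * n) :=
        div_le_div_of_nonneg_right h2 h4.le
    _ ≤ (∑ ω, Ft ω) / (κ * ((N : ℝ) ^ 2) ^ M) := by
        refine div_le_div_of_nonneg_left h7 (mul_pos hκ hW) ?_
        rw [h3]
        exact hr
    _ = κ⁻¹ * ((∑ ω, Ft ω) / ((N : ℝ) ^ 2) ^ M) := by
        field_simp

theorem exp_le {x : ℝ} (h0 : 0 ≤ x) (h1 : x ≤ 1 / 2) : Real.exp (-(2 * x)) ≤ 1 - x := by
  have hp : 0 < 1 - x := by linarith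
  have h2 := Real.one_sub_inv_le_log_of_pos hp
  have h3 : -(2 * x) ≤ 1 - (1 - x)⁻¹ := by
    have : (1 - x)⁻¹ ≤ 1 + 2 * x := by
      rw [inv_le_iff_one_le_mul₀ hp]
      nlinarith
    linarith
  have h4 := Real.exp_le_exp.2 (h3.trans h2)
  rwa [Real.exp_log hp] at h4

/-- The proportion of sequences of pairs which give simple graphs is bounded below. -/
theorem ratio {lam : ℝ≥0} {M : ℕ → ℕ}
    (hM : Tendsto (fun N => (M N : ℝ) / N) atTop (𝓝 (lam : ℝ))) :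
    ∃ κ : ℝ, 0 < κ ∧ ∀ᶠ N : ℕ in atTop, κ * ((N : ℝ) ^ 2) ^ (M N) ≤
      2 ^ (M N) * ((N.choose 2).descFactorial (M N) : ℝ) := by
  set C : ℝ := lam + 1 with hC
  have hC0 : 0 < C := by positivity
  refine ⟨Real.exp (-(2 * ((1 + 2 * C) * C))), Real.exp_pos _, ?_⟩
  filter_upwards [hM.eventually (gt_mem_nhds (show (lam : ℝ) < C by rw [hC]; linarith)),
    eventually_ge_atTop 1, eventually_ge_atTop ⌈2 * (1 + 2 * C)⌉₊] with N h1 h2 h3
  have hNp : (0 : ℝ) < N := by exact_mod_cast h2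
  have h4 : 2 * (1 + 2 * C) ≤ N := (Nat.le_ceil _).trans (by exact_mod_cast h3)
  have h5 : (M N : ℝ) ≤ C * N := by
    rw [div_lt_iff₀ hNp] at h1
    exact h1.le
  set x : ℝ := (1 + 2 * C) / N with hx
  have hx0 : 0 ≤ x := by positivity
  have hx1 : x ≤ 1 / 2 := by
    rw [hx, div_le_iff₀ hNp]
    linarith
  have h6 : Real.exp (-(2 * ((1 + 2 * C) * C))) ≤ (1 - x) ^ (M N) := by
    have h7 : Real.exp (-(2 * x)) ^ (M N) ≤ (1 - x) ^ (M N) :=
      pow_le_pow_left₀ (Real.exp_pos _).le (exp_le hx0 hx1) _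
    refine le_trans ?_ h7
    rw [← Real.exp_nat_mul]
    refine Real.exp_le_exp.2 ?_
    have h8 : x * N = 1 + 2 * C := by
      rw [hx]; field_simp
    have h9 : (M N : ℝ) * x ≤ C * (1 + 2 * C) := by
      rw [← h8]
      nlinarith
    nlinarith
  have h7 : ((N : ℝ) ^ 2) * (1 - x) ≤ 2 * ((N.choose 2 + 1 - M N : ℕ) : ℝ) := by
    have h8 : ((N.choose 2 : ℕ) : ℝ) + 1 - M N ≤ ((N.choose 2 + 1 - M N : ℕ) : ℝ) := by
      have : N.choose 2 + 1 ≤ (N.choose 2 + 1 - M N) + M N := by omega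
      have h9 : ((N.choose 2 + 1 : ℕ) : ℝ) ≤ (((N.choose 2 + 1 - M N) + M N : ℕ) : ℝ) := by
        exact_mod_cast this
      push_cast at h9
      linarith
    rw [Nat.cast_choose_two] at h8
    have h9 : x * N = 1 + 2 * C := by
      rw [hx]; field_simp
    have h10 : ((N : ℝ) ^ 2) * (1 - x) = N ^ 2 - N * (1 + 2 * C) := by
      rw [← h9]; ring
    rw [h10]
    nlinarith
  have h8 : (0 : ℝ) ≤ (N : ℝ) ^ 2 * (1 - x) := by
    have : 0 ≤ 1 - x := by linarith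
    positivity
  calc Real.exp (-(2 * ((1 + 2 * C) * C))) * ((N : ℝ) ^ 2) ^ (M N)
      ≤ (1 - x) ^ (M N) * ((N : ℝ) ^ 2) ^ (M N) :=
        mul_le_mul_of_nonneg_right h6 (by positivity)
    _ = ((N : ℝ) ^ 2 * (1 - x)) ^ (M N) := by rw [mul_pow]; ring
    _ ≤ (2 * ((N.choose 2 + 1 - M N : ℕ) : ℝ)) ^ (M N) := pow_le_pow_left₀ h8 h7 _
    _ = 2 ^ (M N) * (((N.choose 2 + 1 - M N) ^ (M N) : ℕ) : ℝ) := by rw [mul_pow]; push_cast; ring
    _ ≤ 2 ^ (M N) * ((N.choose 2).descFactorial (M N) : ℝ) := by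
        refine mul_le_mul_of_nonneg_left ?_ (by positivity)
        exact_mod_cast Nat.pow_sub_le_descFactorial _ _

end Vale.Agent.P168.Cut
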