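import Vale.Agent.P168.H45.CutDefs
import Mathlib.Data.Sym.Card
import Mathlib.Tactic

/-! From uniform sequences of pairs of vertices to uniform simple graphs. -/

set_option autoImplicit false

open Finset

namespace Vale.Agent.P168.Cut

variable {N M : ℕ}

/-- The unordered pairs of a sequence of ordered pairs. -/
def pr (ω : Fin M → Fin 2 → Fin N) : Fin M → Sym2 (Fin N) := fun k => s(ω k 0, ω k 1)

/-- Distinct edges, no loops. -/
def Good (f : Fin M → Sym2 (Fin N)) : Prop := Function.Injective f ∧ ∀ k, ¬ (f k).IsDiag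

/-- The graph with the edges `f k`. -/
def gr (f : Fin M → Sym2 (Fin N)) : SimpleGraph (Fin N) := SimpleGraph.fromEdgeSet (Set.range f)

theorem edge_gr {f : Fin M → Sym2 (Fin N)} (h : Good f) : (gr f).edgeSet = Set.range f := by
  unfold gr
  rw [SimpleGraph.edgeSet_fromEdgeSet]
  ext z
  simp only [Set.mem_diff, Set.mem_range, Set.mem_setOf_eq]
  constructor
  · exact fun h => h.1
  · rintro ⟨k, rfl⟩
    exact ⟨⟨k, rfl⟩, h.2 k⟩

theorem ncard_gr {f : Fin M → Sym2 (Fin N)} (h : Good f) : (gr f).edgeSet.ncard = M := by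
  rw [edge_gr h, ← Set.image_univ, Set.ncard_image_of_injective _ h.1, Set.ncard_univ]
  simp

theorem card_two {z : Sym2 (Fin N)} (hz : ¬ z.IsDiag) :
    #{x : Fin 2 → Fin N | s(x 0, x 1) = z} = 2 := by
  induction z with
  | _ a b =>
    have hab : a ≠ b := hz
    have e : ({x : Fin 2 → Fin N | s(x 0, x 1) = s(a, b)} : Finset (Fin 2 → Fin N)) =
        {![a, b], ![b, a]} := by
      ext x
      simp only [mem_filter, mem_univ, true_and, mem_insert, mem_singleton, Sym2.eq_iff]
      constructor
      · rintro (⟨h1, h2⟩ | ⟨h1, h2⟩)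
        · left; funext i; fin_cases i <;> simp [h1, h2]
        · right; funext i; fin_cases i <;> simp [h1, h2]
      · rintro (rfl | rfl)
        · left; simp
        · right; simp
    rw [e, card_pair]
    intro h
    exact hab (by simpa using congrFun h 0)

theorem card_fiber {f : Fin M → Sym2 (Fin N)} (h : Good f) :
    #{ω : Fin M → Fin 2 → Fin N | pr ω = f} = 2 ^ M := by
  have e : ({ω : Fin M → Fin 2 → Fin N | pr ω = f} : Finset (Fin M → Fin 2 → Fin N)) =
      Fintype.piFinset fun k => ({x : Fin 2 → Fin N | s(x 0, x 1) = f k} :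
        Finset (Fin 2 → Fin N)) := by
    ext ω
    simp only [mem_filter, mem_univ, true_and, Fintype.mem_piFinset]
    constructor
    · intro h k
      rw [← h]; rfl
    · intro h
      funext k
      exact h k
  rw [e, Fintype.card_piFinset]
  simp [card_two (h.2 _)]

open Classical in
theorem sum_pr (F : (Fin M → Sym2 (Fin N)) → ℝ) :
    ∑ ω : Fin M → Fin 2 → Fin N with Good (pr ω), F (pr ω) = 2 ^ M * ∑ f with Good f, F f := by
  rw [← sum_fiberwise (s := {ω : Fin M → Fin 2 → Fin N | Good (pr ω)}) (g := pr)
    (f := fun ω => F (pr ω)), mul_sum, sum_filter]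
  refine sum_congr rfl fun f _ => ?_
  split_ifs with h
  · have e : ({ω ∈ ({ω : Fin M → Fin 2 → Fin N | Good (pr ω)} : Finset _) | pr ω = f} :
        Finset (Fin M → Fin 2 → Fin N)) = ({ω | pr ω = f} : Finset (Fin M → Fin 2 → Fin N)) := by
      ext ω
      simp only [mem_filter, mem_univ, true_and, and_iff_right_iff_imp]
      rintro rfl
      exact h
    rw [e, sum_congr rfl (g := fun _ => F f), sum_const, card_fiber h, nsmul_eq_mul]
    · push_cast; ring
    · intro ω hω
      rw [(mem_filter.1 hω).2]
  · refine sum_eq_zero fun ω hω => ?_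
    exfalso
    simp only [mem_filter, mem_univ, true_and] at hω
    exact h (hω.2 ▸ hω.1)

open Classical in
theorem card_list (G : SimpleGraph (Fin N)) (hG : G.edgeSet.ncard = M) :
    #{f : Fin M → Sym2 (Fin N) | Good f ∧ gr f = G} = M.factorial := by
  have hc : Nat.card G.edgeSet = M := by rw [← hG]; rfl
  let e0 : Fin M ≃ G.edgeSet := (Finite.equivFinOfCardEq hc).symm
  have e1 : {f : Fin M → Sym2 (Fin N) // Good f ∧ gr f = G} ≃ (Fin M ≃ G.edgeSet) :=
    { toFun := fun f => (Equiv.ofInjective f.1 f.2.1.1).trans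
        (Equiv.setCongr (by rw [← edge_gr f.2.1, f.2.2]))
      invFun := fun e => ⟨fun k => (e k : Sym2 (Fin N)), by
        have hg : Good fun k => (e k : Sym2 (Fin N)) :=
          ⟨fun a b h => e.injective (Subtype.ext h), fun k => G.not_isDiag_of_mem_edgeSet (e k).2⟩
        refine ⟨hg, ?_⟩
        rw [← SimpleGraph.edgeSet_inj, edge_gr hg]
        ext z
        constructor
        · rintro ⟨k, rfl⟩; exact (e k).2
        · intro hz
          exact ⟨e.symm ⟨z, hz⟩, by simp⟩⟩
      left_inv := fun f => by
        apply Subtype.ext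
        funext k
        rfl
      right_inv := fun e => by
        ext k
        rfl }
  rw [← Fintype.card_subtype, Fintype.card_congr e1, Fintype.card_equiv e0, Fintype.card_fin]

open Classical in
theorem sum_gr (F : SimpleGraph (Fin N) → ℝ) :
    ∑ f : Fin M → Sym2 (Fin N) with Good f, F (gr f) =
      M.factorial * ∑ G with G.edgeSet.ncard = M, F G := by
  rw [← sum_fiberwise (s := {f : Fin M → Sym2 (Fin N) | Good f}) (g := gr)
    (f := fun f => F (gr f)), mul_sum, sum_filter]
  refine sum_congr rfl fun G _ => ?_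
  split_ifs with h
  · rw [filter_filter, sum_congr rfl (g := fun _ => F G), sum_const, card_list G h, nsmul_eq_mul]
    intro f hf
    rw [(mem_filter.1 hf).2.2]
  · refine sum_eq_zero fun f hf => ?_
    exfalso
    simp only [mem_filter, mem_univ, true_and] at hf
    exact h (hf.2 ▸ ncard_gr hf.1)

open Classical in
theorem card_good : #{f : Fin M → Sym2 (Fin N) | Good f} = (N.choose 2).descFactorial M := by
  have e1 : {f : Fin M → Sym2 (Fin N) // Good f} ≃ (Fin M ↪ {z : Sym2 (Fin N) // ¬ z.IsDiag}) :=
    { toFun := fun f => ⟨fun k => ⟨f.1 k, f.2.2 k⟩, fun a b h => f.2.1 (congrArg Subtype.val h)⟩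
      invFun := fun g => ⟨fun k => (g k : Sym2 (Fin N)),
        fun a b h => g.injective (Subtype.ext h), fun k => (g k).2⟩
      left_inv := fun f => rfl
      right_inv := fun g => rfl }
  rw [← Fintype.card_subtype, Fintype.card_congr e1, Fintype.card_embedding_eq,
    Sym2.card_subtype_not_diag, Fintype.card_fin, Fintype.card_fin]

end Vale.Agent.P168.Cut
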