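import Vale.Agent.P168.Defs
import Mathlib.Combinatorics.SimpleGraph.Finite

/-! Cuts of graphs, and the antiferromagnetic interaction at inverse temperature `β`. -/

open MeasureTheory ProbabilityTheory
open scoped NNReal

namespace Vale.Agent.P168

/-- The law of the deterministic interaction `θ(σ_1, σ_2) = β` if `σ_1 ≠ σ_2`, `0` if not, in the
form of the problem: `a = (1 + e^β) / 2`, `b = -tanh (β / 2)` and `f_j(s) = s`. -/
noncomputable def cutLaw (β : ℝ) : Measure (Clause 2) :=
  Measure.dirac ((1 + Real.exp β) / 2, -Real.tanh (β / 2), fun _ s => spin s)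

/-- The number of edges of `G` whose two ends have different values of `σ`. -/
noncomputable def cutSize {N : ℕ} (G : SimpleGraph (Fin N)) (σ : Fin N → Bool) : ℕ :=
  {e : Sym2 (Fin N) | e ∈ G.edgeSet ∧ ∃ u v, e = s(u, v) ∧ σ u ≠ σ v}.ncard

/-- The maximal number of edges between a set of vertices and its complement. -/
noncomputable def maxCut {N : ℕ} (G : SimpleGraph (Fin N)) : ℕ := ⨆ σ, cutSize G σ

open Classical in
/-- The average over all simple graphs with vertices `0, …, N - 1` and `M` edges. -/
noncomputable def graphAverage (N M : ℕ) (F : SimpleGraph (Fin N) → ℝ) : ℝ :=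
  (∑ G with G.edgeSet.ncard = M, F G) / Finset.card {G : SimpleGraph (Fin N) | G.edgeSet.ncard = M}

end Vale.Agent.P168
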