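import Vale.Agent.P168.Defs

/-! The law of the disorder with a given number of interactions. -/

open MeasureTheory ProbabilityTheory
open scoped NNReal

namespace Vale.Agent.P168

/-- The disorder of the system with `N` sites and `M` interactions: the data and the sites of the
interactions, and the external fields. -/
abbrev Disorder (K N M : ℕ) : Type := (Fin M → Clause K × (Fin K → Fin N)) × (Fin N → ℝ)

/-- The law of the disorder: `M` i.i.d. interactions of law `ρ` with i.i.d. uniform sites, and
`N` i.i.d. fields of law `ν`, all independent. -/
noncomputable def disorder {K : ℕ} (ρ : Measure (Clause K)) (ν : Measure ℝ) (N M : ℕ) :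
    Measure (Disorder K N M) :=
  (Measure.pi fun _ => ρ.prod (Measure.pi fun _ => unif N)).prod (Measure.pi fun _ => ν)

/-- The random pressure `(1/N) log ∑_σ exp H_N(σ)`. -/
noncomputable def randomPressure {K N M : ℕ} (ω : Disorder K N M) : ℝ :=
  1 / (N : ℝ) * Real.log (partitionFn ω.1 ω.2)

end Vale.Agent.P168
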