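import Vale.Agent.P168.H45.Glass
import Vale.Agent.P168.H791.Bridge
import Vale.Agent.P168.H45.CutBound

/-! The antiferromagnetic interaction: it belongs to the class; the disorder is a uniform sequence
of pairs of vertices. -/

set_option autoImplicit false

open MeasureTheory ProbabilityTheory Filter
open scoped NNReal Topology

namespace Vale.Agent.P168.Cut

variable {N M : ℕ}

/-- The interaction. -/
noncomputable def cc (β : ℝ) : Clause 2 :=
  ((1 + Real.exp β) / 2, -Real.tanh (β / 2), fun _ s => spin s)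

theorem cutLaw_eq (β : ℝ) : cutLaw β = Measure.dirac (cc β) := rfl

theorem spin_mul (s t : Bool) : spin s * spin t = if s = t then 1 else -1 := by
  cases s <;> cases t <;> simp [spin]

theorem theta_cc (β : ℝ) (σ : Fin 2 → Bool) :
    theta (cc β) σ = if σ 0 = σ 1 then 0 else β := by
  have h1 : (1 + Real.exp β) / 2 = Real.exp (β / 2) * Real.cosh (β / 2) := by
    rw [Real.cosh_eq, mul_div_assoc', mul_add, ← Real.exp_add, ← Real.exp_add]
    rw [show β / 2 + β / 2 = β by ring, show β / 2 + -(β / 2) = 0 by ring, Real.exp_zero]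
    ring
  have hc : Real.cosh (β / 2) * Real.tanh (β / 2) = Real.sinh (β / 2) := by
    rw [Real.tanh_eq_sinh_div_cosh]
    field_simp [(Real.cosh_pos (β / 2)).ne']
  change Real.log ((1 + Real.exp β) / 2 * (1 + -Real.tanh (β / 2) * ∏ j : Fin 2, spin (σ j))) = _
  rw [Fin.prod_univ_two, spin_mul, h1]
  split_ifs with h
  · have e : Real.exp (β / 2) * Real.cosh (β / 2) * (1 + -Real.tanh (β / 2) * 1) =
        Real.exp (β / 2) * (Real.cosh (β / 2) - Real.cosh (β / 2) * Real.tanh (β / 2)) := by ring
    rw [e, hc, Real.cosh_sub_sinh, ← Real.exp_add, add_neg_cancel, Real.exp_zero, Real.log_one]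
  · have e : Real.exp (β / 2) * Real.cosh (β / 2) * (1 + -Real.tanh (β / 2) * -1) =
        Real.exp (β / 2) * (Real.cosh (β / 2) + Real.cosh (β / 2) * Real.tanh (β / 2)) := by ring
    rw [e, hc, Real.cosh_add_sinh, ← Real.exp_add, Real.log_exp]
    ring

theorem ae_cutLaw {β : ℝ} {p : Clause 2 → Prop} (hp : p (cc β)) : ∀ᵐ c ∂(cutLaw β), p c := by
  have := Sat.sing_clause 2
  rw [cutLaw_eq, ae_dirac_eq]
  exact hp

instance cutLaw_prob (β : ℝ) : IsProbabilityMeasure (cutLaw β) := by
  rw [cutLaw_eq]; infer_instance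

theorem inClass {β : ℝ} (hβ : 0 ≤ β) : InClass 2 (cutLaw β) (Measure.dirac 0) where
  two_le := le_rfl
  even := even_two
  prob_clause := inferInstance
  prob_field := inferInstance
  a_pos := ae_cutLaw (by
    change 0 < (1 + Real.exp β) / 2
    positivity)
  b_mem := ae_cutLaw (by
    change -Real.tanh (β / 2) ∈ Set.Ioo (-1 : ℝ) 1
    have h1 := Real.tanh_lt_one (β / 2)
    have h2 := Real.neg_one_lt_tanh (β / 2)
    constructor <;> linarith)
  f_mem := ae_cutLaw fun j s => abs_le.1 (Gl.abs_spin s).le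
  indep := by
    refine ⟨Measure.dirac (-Real.tanh (β / 2)), Measure.dirac fun s => spin s, inferInstance,
      inferInstance, ?_⟩
    rw [Gl.pi_dirac', Measure.dirac_prod_dirac, cutLaw_eq, Measure.map_dirac' measurable_snd]
    rfl
  positivity n _ := by
    have := Sat.sing_clause 2
    rw [cutLaw_eq, integral_dirac]
    change 0 ≤ (- -Real.tanh (β / 2)) ^ n
    rw [neg_neg]
    exact pow_nonneg (Gl.tanh_nonneg' (by linarith)) n
  theta_int σ := by
    have := Sat.sing_clause 2
    rw [cutLaw_eq]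
    exact integrable_dirac (by simp)
  field_int := integrable_dirac (by simp)

/-- The number of pairs with different values of `σ`. -/
def mcut (ω : Fin M → Fin 2 → Fin N) (σ : Fin N → Bool) : ℕ :=
  (Finset.univ.filter fun k => σ (ω k 0) ≠ σ (ω k 1)).card

/-- The pressure of a sequence of pairs. -/
noncomputable def mfe (β : ℝ) (ω : Fin M → Fin 2 → Fin N) : ℝ :=
  1 / (N : ℝ) * Real.log (∑ σ, Real.exp (β * mcut ω σ))

/-- The disorder of a sequence of pairs. -/
noncomputable def disW (β : ℝ) (ω : Fin M → Fin 2 → Fin N) : Disorder 2 N M :=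
  (fun k => (cc β, ω k), 0)

theorem rp_disW (β : ℝ) (ω : Fin M → Fin 2 → Fin N) : randomPressure (disW β ω) = mfe β ω := by
  unfold randomPressure mfe partitionFn disW
  congr 2
  refine Finset.sum_congr rfl fun σ _ => ?_
  congr 1
  simp only [theta_cc, Pi.zero_apply, zero_mul, Finset.sum_const_zero, add_zero]
  unfold mcut
  rw [Finset.card_filter, Nat.cast_sum, Finset.mul_sum]
  refine Finset.sum_congr rfl fun k _ => ?_
  by_cases h : σ (ω k 0) = σ (ω k 1)
  · simp [h]
  · simp [h]

/-- The uniform law on sequences of pairs. -/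
noncomputable def muW (N M : ℕ) : Measure (Fin M → Fin 2 → Fin N) :=
  Measure.pi fun _ => Measure.pi fun _ => unif N

theorem disorder_cut (β : ℝ) (hN : 1 ≤ N) :
    disorder (cutLaw β) (Measure.dirac 0) N M = (muW N M).map (disW β) := by
  have := Sat.unif_prob N hN
  have h1 : MeasurePreserving (Prod.mk (cc β)) (Measure.pi fun _ : Fin 2 => unif N)
      ((cutLaw β).prod (Measure.pi fun _ : Fin 2 => unif N)) :=
    ⟨measurable_prodMk_left, by rw [cutLaw_eq, Measure.dirac_prod]⟩
  have h2 := measurePreserving_pi (fun _ : Fin M => Measure.pi fun _ : Fin 2 => unif N)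
    (fun _ : Fin M => (cutLaw β).prod (Measure.pi fun _ : Fin 2 => unif N))
    (f := fun _ => Prod.mk (cc β)) fun _ => h1
  have h3 : (Measure.pi fun _ : Fin N => Measure.dirac (0 : ℝ)) = Measure.dirac (0 : Fin N → ℝ) :=
    Gl.pi_dirac' _
  unfold disorder muW
  rw [h3, Measure.prod_dirac, ← h2.map_eq, Measure.map_map measurable_prodMk_right h2.measurable]
  rfl

theorem muW_singleton (hN : 1 ≤ N) (φ ψ : Fin M → Fin 2 → Fin N) :
    muW N M {φ} = muW N M {ψ} := by
  have := Sat.unif_prob N hN
  have h : ∀ x : Fin M → Fin 2 → Fin N, muW N M {x} =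
      ∏ _k : Fin M, ∏ _j : Fin 2, (1 / (Fintype.card (Fin N) : ENNReal)) := by
    intro x
    unfold muW
    rw [← Set.univ_pi_singleton, Measure.pi_pi]
    refine Finset.prod_congr rfl fun k _ => ?_
    rw [← Set.univ_pi_singleton, Measure.pi_pi]
    exact Finset.prod_congr rfl fun j _ => Sat.uniformOn_singleton _
  rw [h, h]

theorem integral_muW (hN : 1 ≤ N) (F : (Fin M → Fin 2 → Fin N) → ℝ) :
    ∫ φ, F φ ∂(muW N M) = avg F := by
  have := Sat.unif_prob N hN
  have : IsProbabilityMeasure (muW N M) := by unfold muW; infer_instance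
  have hN0 : NeZero N := ⟨by omega⟩
  set φ0 : Fin M → Fin 2 → Fin N := fun _ _ => 0
  set c := (muW N M).real {φ0} with hc
  have h1 : ∀ φ, (muW N M).real {φ} = c := fun φ => by
    unfold Measure.real at hc ⊢
    rw [hc, muW_singleton hN φ φ0]
  have h2 : ∀ G : (Fin M → Fin 2 → Fin N) → ℝ, ∫ φ, G φ ∂(muW N M) = c * ∑ φ, G φ := by
    intro G
    rw [integral_fintype Integrable.of_finite, Finset.mul_sum]
    exact Finset.sum_congr rfl fun φ _ => by rw [h1, smul_eq_mul]
  have h3 := h2 fun _ => 1
  rw [integral_const, probReal_univ, one_smul, Finset.sum_const, Finset.card_univ,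
    nsmul_eq_mul, mul_one] at h3
  have hne : (Fintype.card (Fin M → Fin 2 → Fin N) : ℝ) ≠ 0 := by
    intro h
    rw [h, mul_zero] at h3
    exact one_ne_zero h3
  rw [h2, avg, eq_div_iff hne, mul_assoc, mul_comm (∑ φ, F φ), ← mul_assoc, ← h3, one_mul]

theorem bridge (β : ℝ) (hN : 1 ≤ N) (g : ℝ → ℝ) :
    ∫ w, g (randomPressure w) ∂(disorder (cutLaw β) (Measure.dirac 0) N M) =
      avg fun ω : Fin M → Fin 2 → Fin N => g (mfe β ω) := by
  have := Sat.sing_clause 2
  rw [disorder_cut β hN, Sat.integral_map_finite, integral_muW hN]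
  congr 1
  funext φ
  rw [rp_disW]

end Vale.Agent.P168.Cut
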