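import Vale.Agent.P168.H45.CutLaw

/-! Maximal cuts of sparse random graphs. -/

set_option autoImplicit false

open MeasureTheory ProbabilityTheory Filter
open scoped NNReal Topology

namespace Vale.Agent.P168.Cut

variable {N M : ℕ}

/-- Bounds for `log ∑ exp (β u)`, `u` a function with natural values. -/
theorem lse_bounds [NeZero N] {β : ℝ} (hβ : 0 < β) (u : (Fin N → Bool) → ℕ) :
    β * (((⨆ σ, u σ : ℕ) : ℝ) / N) ≤ 1 / (N : ℝ) * Real.log (∑ σ, Real.exp (β * u σ)) ∧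
      1 / (N : ℝ) * Real.log (∑ σ, Real.exp (β * u σ)) ≤
        β * (((⨆ σ, u σ : ℕ) : ℝ) / N) + Real.log 2 := by
  have hN : (0 : ℝ) < N := by exact_mod_cast NeZero.pos N
  obtain ⟨σ₀, h0⟩ : ∃ σ, u σ = ⨆ σ, u σ := exists_eq_ciSup_of_finite
  set m : ℕ := ⨆ σ, u σ with hm
  have hle : ∀ σ, u σ ≤ m := fun σ => le_ciSup (f := u) (Set.finite_range _).bddAbove σ
  have h1 : Real.exp (β * m) ≤ ∑ σ, Real.exp (β * u σ) := by
    rw [← h0]
    exact Finset.single_le_sum (f := fun σ => Real.exp (β * u σ))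
      (fun σ _ => (Real.exp_pos _).le) (Finset.mem_univ σ₀)
  have h2 : ∑ σ, Real.exp (β * u σ) ≤ 2 ^ N * Real.exp (β * m) := by
    calc ∑ σ, Real.exp (β * u σ) ≤ ∑ _σ : Fin N → Bool, Real.exp (β * m) := by
          refine Finset.sum_le_sum fun σ _ => Real.exp_le_exp.2 ?_
          exact mul_le_mul_of_nonneg_left (by exact_mod_cast hle σ) hβ.le
      _ = 2 ^ N * Real.exp (β * m) := by simp
  have hp : 0 < ∑ σ, Real.exp (β * u σ) := (Real.exp_pos _).trans_le h1
  have l1 := Real.log_le_log (Real.exp_pos _) h1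
  have l2 := Real.log_le_log hp h2
  rw [Real.log_exp] at l1
  rw [Real.log_mul (by positivity) (Real.exp_pos _).ne', Real.log_exp, Real.log_pow] at l2
  rw [one_div_mul_eq_div]
  constructor
  · rw [le_div_iff₀ hN]
    have e3 : β * ((m : ℝ) / N) * N = β * m := by field_simp
    rw [e3]; exact l1
  · rw [div_le_iff₀ hN]
    have e3 : (β * ((m : ℝ) / N) + Real.log 2) * N = N * Real.log 2 + β * m := by
      field_simp
      ring
    rw [e3]; exact l2

/-- The maximal number of pairs with different values, divided by `N`. -/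
noncomputable def mgs (ω : Fin M → Fin 2 → Fin N) : ℝ := ((⨆ σ, mcut ω σ : ℕ) : ℝ) / N

/-- The pressure of a graph. -/
noncomputable def gfe (β : ℝ) (G : SimpleGraph (Fin N)) : ℝ :=
  1 / (N : ℝ) * Real.log (∑ σ, Real.exp (β * cutSize G σ))

/-- The maximal cut divided by `N`. -/
noncomputable def ggs (G : SimpleGraph (Fin N)) : ℝ := (maxCut G : ℝ) / N

theorem bd_W (M : ℕ → ℕ) (N : ℕ) (hN : 1 ≤ N) (β : ℝ) (hβ : 0 < β)
    (ω : Fin (M N) → Fin 2 → Fin N) :
    β * mgs ω ≤ mfe β ω ∧ mfe β ω ≤ β * mgs ω + Real.log 2 := by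
  have : NeZero N := ⟨by omega⟩
  exact lse_bounds hβ (mcut ω)

theorem bd_G (N : ℕ) (hN : 1 ≤ N) (β : ℝ) (hβ : 0 < β) (G : SimpleGraph (Fin N)) :
    β * ggs G ≤ gfe β G ∧ gfe β G ≤ β * ggs G + Real.log 2 := by
  have : NeZero N := ⟨by omega⟩
  exact lse_bounds hβ (cutSize G)

theorem cutSize_gr {ω : Fin M → Fin 2 → Fin N} (h : Good (pr ω)) (σ : Fin N → Bool) :
    cutSize (gr (pr ω)) σ = mcut ω σ := by
  unfold cutSize mcut
  have e : {e : Sym2 (Fin N) | e ∈ (gr (pr ω)).edgeSet ∧ ∃ u v, e = s(u, v) ∧ σ u ≠ σ v} =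
      pr ω '' ((Finset.univ.filter fun k => σ (ω k 0) ≠ σ (ω k 1) : Finset (Fin M)) :
        Set (Fin M)) := by
    rw [edge_gr h]
    ext z
    constructor
    · rintro ⟨⟨k, rfl⟩, u, v, huv, hne⟩
      refine ⟨k, ?_, rfl⟩
      simp only [Finset.coe_filter, Finset.mem_univ, true_and, Set.mem_setOf_eq]
      have h1 : s(ω k 0, ω k 1) = s(u, v) := huv
      rw [Sym2.eq_iff] at h1
      rcases h1 with ⟨h1, h2⟩ | ⟨h1, h2⟩
      · rw [h1, h2]; exact hne
      · rw [h1, h2]; exact hne.symm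
    · rintro ⟨k, hk, rfl⟩
      simp only [Finset.coe_filter, Finset.mem_univ, true_and, Set.mem_setOf_eq] at hk
      exact ⟨⟨k, rfl⟩, ω k 0, ω k 1, rfl, hk⟩
  rw [e, Set.ncard_image_of_injective _ h.1, Set.ncard_coe_finset]

theorem gfe_gr {ω : Fin M → Fin 2 → Fin N} (h : Good (pr ω)) (β : ℝ) :
    gfe β (gr (pr ω)) = mfe β ω := by
  unfold gfe mfe
  simp only [cutSize_gr h]

section avg

theorem avg_nonneg {F : (Fin M → Fin 2 → Fin N) → ℝ} (h : ∀ ω, 0 ≤ F ω) : 0 ≤ avg F := by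
  unfold avg
  exact div_nonneg (Finset.sum_nonneg fun ω _ => h ω) (Nat.cast_nonneg _)

theorem avg_const (hN : 1 ≤ N) (c : ℝ) : avg (fun _ : Fin M → Fin 2 → Fin N => c) = c := by
  have hNp : (0 : ℝ) < N := by exact_mod_cast hN
  unfold avg
  rw [Finset.sum_const, Finset.card_univ, nsmul_eq_mul, mul_div_cancel_left₀]
  rw [card_W]
  positivity

theorem avg_le (hN : 1 ≤ N) {F G G' : (Fin M → Fin 2 → Fin N) → ℝ} {a b b' : ℝ}
    (h : ∀ ω, F ω ≤ a + b * G ω + b' * G' ω) : avg F ≤ a + b * avg G + b' * avg G' := by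
  have h1 : avg F ≤ avg fun ω => a + b * G ω + b' * G' ω := by
    unfold avg
    exact div_le_div_of_nonneg_right (Finset.sum_le_sum fun ω _ => h ω) (Nat.cast_nonneg _)
  refine h1.trans_eq ?_
  have h2 := avg_const (M := M) hN a
  unfold avg at h2 ⊢
  rw [Finset.sum_add_distrib, Finset.sum_add_distrib, ← Finset.mul_sum, ← Finset.mul_sum,
    add_div, add_div, h2, mul_div_assoc, mul_div_assoc]

open Classical in
theorem ga_nonneg {F : SimpleGraph (Fin N) → ℝ} (h : ∀ G, 0 ≤ F G) : 0 ≤ graphAverage N M F := by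
  unfold graphAverage
  exact div_nonneg (Finset.sum_nonneg fun G _ => h G) (Nat.cast_nonneg _)

open Classical in
theorem ga_le {F G G' : SimpleGraph (Fin N) → ℝ} {a b b' : ℝ} (ha : 0 ≤ a)
    (h : ∀ H, F H ≤ a + b * G H + b' * G' H) :
    graphAverage N M F ≤ a + b * graphAverage N M G + b' * graphAverage N M G' := by
  unfold graphAverage
  set s : Finset (SimpleGraph (Fin N)) := {G : SimpleGraph (Fin N) | G.edgeSet.ncard = M} with hs
  rcases Nat.eq_zero_or_pos s.card with h0 | h0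
  · rw [h0]
    simpa using ha
  · have hp : (0 : ℝ) < s.card := by exact_mod_cast h0
    have h1 : ∑ H ∈ s, F H ≤ ∑ H ∈ s, (a + b * G H + b' * G' H) :=
      Finset.sum_le_sum fun H _ => h H
    rw [Finset.sum_add_distrib, Finset.sum_add_distrib, ← Finset.mul_sum, ← Finset.mul_sum,
      Finset.sum_const, nsmul_eq_mul] at h1
    rw [div_le_iff₀ hp]
    refine h1.trans_eq ?_
    field_simp

end avg

section main

variable {lam : ℝ≥0} {P : ℝ → ℝ}
  (hP : ∀ β, 0 < β → Tendsto (fun N => pressure lam (cutLaw β) (Measure.dirac 0) N) atTop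
    (𝓝 (P β)))

include hP in
theorem mean_W {M : ℕ → ℕ} (hM : Tendsto (fun N => (M N : ℝ) / N) atTop (𝓝 (lam : ℝ))) :
    Gs.Mean (Ω := fun N => Fin (M N) → Fin 2 → Fin N) (fun _ F => avg F)
      (fun _ β ω => mfe β ω) P where
  nonneg N F hF := avg_nonneg hF
  le N hN F a b b' β β' _ _ _ _ _ _ hle := avg_le hN hle
  lim β hβ := by
    have h := inClass hβ.le
    have h1 := Cc.det_L1 (PT.maxTheta_int h) h.field_int (hP β hβ) hM
    refine h1.congr' ?_
    filter_upwards [eventually_ge_atTop 1] with N hN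
    exact bridge β hN fun x => |x - P β|

include hP in
theorem mean_G {M : ℕ → ℕ} (hM : Tendsto (fun N => (M N : ℝ) / N) atTop (𝓝 (lam : ℝ))) :
    Gs.Mean (Ω := fun N => SimpleGraph (Fin N)) (fun N F => graphAverage N (M N) F)
      (fun _ β G => gfe β G) P where
  nonneg N F hF := ga_nonneg hF
  le N hN F a b b' β β' _ ha _ _ _ _ hle := ga_le ha hle
  lim β hβ := by
    obtain ⟨κ, hκ, hr⟩ := ratio hM
    have h1 := ((mean_W hP hM).lim β hβ).const_mul κ⁻¹
    rw [mul_zero] at h1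
    refine squeeze_zero' (Eventually.of_forall fun N => ga_nonneg fun G => abs_nonneg _) ?_ h1
    filter_upwards [hr, eventually_ge_atTop 1] with N h2 hN
    refine graph_le hN hκ h2 (fun ω => abs_nonneg _) fun ω hω => ?_
    rw [gfe_gr hω]

end main

theorem exists_P (lam : ℝ≥0) :
    ∃ P : ℝ → ℝ, ∀ β, 0 < β → Tendsto (fun N : ℕ => pressure lam (cutLaw β)
      (Measure.dirac 0) N) atTop (𝓝 (P β)) ∧
        mezardParisi lam (cutLaw β) (Measure.dirac 0) = (P β : EReal) := by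
  have hf : ∀ β : ℝ, ∃ L : ℝ, 0 < β →
      (Tendsto (fun N : ℕ => pressure lam (cutLaw β) (Measure.dirac 0) N) atTop (𝓝 L) ∧
        mezardParisi lam (cutLaw β) (Measure.dirac 0) = (L : EReal)) := by
    intro β
    by_cases hβ : 0 < β
    · obtain ⟨L, hL⟩ := Fin45.formula (Fin45.wide_of_in (inClass hβ.le)) lam
      exact ⟨L, fun _ => hL⟩
    · exact ⟨0, fun h => absurd h hβ⟩
  choose P hP using hf
  exact ⟨P, fun β hβ => hP β hβ⟩

/-- **Maximal cuts of sparse random graphs.** -/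
theorem main (lam : ℝ≥0) : ∃ (P : ℝ → ℝ) (m : ℝ),
    (∀ β, 0 < β → InClass 2 (cutLaw β) (Measure.dirac 0) ∧
      mezardParisi lam (cutLaw β) (Measure.dirac 0) = (P β : EReal)) ∧
    Tendsto (fun β => P β / β) atTop (𝓝 m) ∧ (∀ β, 0 < β → m ≤ P β / β) ∧
    ∀ M : ℕ → ℕ, Tendsto (fun N => (M N : ℝ) / N) atTop (𝓝 (lam : ℝ)) →
      (∀ β, 0 < β → Tendsto (fun N => graphAverage N (M N) fun G => |gfe β G - P β|)
        atTop (𝓝 0)) ∧
      Tendsto (fun N => graphAverage N (M N) fun G => |ggs G - m|) atTop (𝓝 0) := by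
  obtain ⟨P, hP⟩ := exists_P lam
  have hP1 := fun β hβ => (hP β hβ).1
  set M0 : ℕ → ℕ := fun N => ⌊(lam : ℝ) * N⌋₊ with hMd
  have hM0 : Tendsto (fun N => (M0 N : ℝ) / N) atTop (𝓝 (lam : ℝ)) := by
    have h1 := tendsto_nat_floor_mul_div_atTop (R := ℝ) (a := (lam : ℝ)) lam.2
    exact h1.comp tendsto_natCast_atTop_atTop
  have h0 := mean_W hP1 hM0
  have h1 := Gs.exists_e h0 (fun N hN c => avg_const hN c) (Y := fun _ ω => mgs ω)
  obtain ⟨m, hm⟩ := h1 fun N hN β hβ ω => bd_W M0 N hN β hβ ω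
  refine ⟨P, m, fun β hβ => ⟨inClass hβ.le, (hP β hβ).2⟩, Gs.tendsto_e hm,
    fun β hβ => (hm β hβ).1, fun M hM => ?_⟩
  have h2 := mean_G hP1 hM
  have h3 := Gs.ground h2 (Y := fun _ G => ggs G) (e := m)
  exact ⟨h2.lim, h3 (fun N hN β hβ G => bd_G N hN β hβ G) hm⟩

end Vale.Agent.P168.Cut
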