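import Vale.Agent.P168.H45.Var
import Vale.Agent.P168.H45.DisDefs

/-! The `L¹` deviation of the log partition function from its mean. -/

set_option autoImplicit false
set_option linter.unusedSectionVars false

open MeasureTheory ProbabilityTheory Filter
open scoped NNReal Topology

namespace Vale.Agent.P168.Cc

open Vale.Agent.P168.PT (Bdm cons_mp)

variable {K N M : ℕ}

/-- The log partition function. -/
noncomputable def X (ω : Disorder K N M) : ℝ := Real.log (partitionFn ω.1 ω.2)

theorem X_eq (ω : Disorder K N M) : X ω = logZ (∑ k, clauseE (ω.1 k) + fieldE ω.2) :=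
  log_partitionFn _ _

theorem logZ_sub_le (H H' : Egy N) : |logZ H - logZ H'| ≤ ‖H - H'‖ := by
  have := logZ_lip.dist_le_mul H H'
  rwa [NNReal.coe_one, one_mul, Real.dist_eq, dist_eq_norm] at this

theorem logZ_zero : logZ (0 : Egy N) = N * Real.log 2 := by
  unfold logZ
  simp

theorem fieldE_sub_le (h h' : Fin N → ℝ) :
    ‖(fieldE h : Egy N) - fieldE h'‖ ≤ ∑ v, |h v - h' v| := by
  have e : (fieldE h : Egy N) - fieldE h' = fieldE fun v => h v - h' v := by
    funext σ
    unfold fieldE
    simp only [Pi.sub_apply, ← Finset.sum_sub_distrib, sub_mul]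
  rw [e]
  exact norm_fieldE_le _

/-- Truncated interaction. -/
noncomputable def trC (A : ℝ) (x : Clause K × (Fin K → Fin N)) : Egy N :=
  if maxTheta x.1 ≤ A then clauseE x else 0

/-- Truncated field. -/
noncomputable def trF (A t : ℝ) : ℝ := max (-A) (min A t)

/-- Tail of an interaction. -/
noncomputable def tlC (A : ℝ) (c : Clause K) : ℝ := if maxTheta c ≤ A then 0 else maxTheta c

/-- Tail of a field. -/
noncomputable def tlF (A t : ℝ) : ℝ := if |t| ≤ A then 0 else |t|

theorem trC_norm {A : ℝ} (hA : 0 ≤ A) (x : Clause K × (Fin K → Fin N)) : ‖trC A x‖ ≤ A := by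
  unfold trC
  split_ifs with h
  · exact (norm_clauseE_le x).trans h
  · simpa using hA

theorem trC_sub (A : ℝ) (x : Clause K × (Fin K → Fin N)) :
    ‖(clauseE x : Egy N) - trC A x‖ ≤ tlC A x.1 := by
  unfold trC tlC
  split_ifs with h
  · rw [sub_self, norm_zero]
  · rw [sub_zero]; exact norm_clauseE_le x

theorem trF_abs {A : ℝ} (hA : 0 ≤ A) (t : ℝ) : |trF A t| ≤ A := by
  unfold trF
  rw [abs_le]
  exact ⟨le_max_left _ _, max_le (by linarith) (min_le_left _ _)⟩

theorem trF_sub {A : ℝ} (hA : 0 ≤ A) (t : ℝ) : |t - trF A t| ≤ tlF A t := by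
  unfold trF tlF
  split_ifs with h
  · rw [abs_le] at h
    rw [min_eq_right h.2, max_eq_right h.1, sub_self, abs_zero]
  · rcases le_total 0 t with h0 | h0
    · rw [abs_of_nonneg h0] at h ⊢
      rw [min_eq_left (by linarith), max_eq_right (by linarith), abs_le]
      constructor <;> linarith
    · rw [abs_of_nonpos h0] at h ⊢
      rw [min_eq_right (by linarith), max_eq_left (by linarith), abs_le]
      constructor <;> linarith

/-- The truncated log partition function. -/
noncomputable def XA (A : ℝ) (ω : Disorder K N M) : ℝ :=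
  logZ (∑ k, trC A (ω.1 k) + fieldE fun v => trF A (ω.2 v))

theorem X_sub_XA {A : ℝ} (hA : 0 ≤ A) (ω : Disorder K N M) :
    |X ω - XA A ω| ≤ ∑ k, tlC A (ω.1 k).1 + ∑ v, tlF A (ω.2 v) := by
  rw [X_eq]
  unfold XA
  refine (logZ_sub_le _ _).trans ?_
  rw [add_sub_add_comm]
  refine (norm_add_le _ _).trans (add_le_add ?_ ?_)
  · rw [← Finset.sum_sub_distrib]
    exact (norm_sum_le _ _).trans (Finset.sum_le_sum fun k _ => trC_sub A _)
  · exact (fieldE_sub_le _ _).trans (Finset.sum_le_sum fun v _ => trF_sub hA _)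

theorem measurable_trC (A : ℝ) : Measurable (trC A : Clause K × (Fin K → Fin N) → Egy N) := by
  unfold trC
  exact Measurable.ite (measurableSet_le (measurable_maxTheta.comp measurable_fst)
    measurable_const) measurable_clauseE' measurable_const

theorem measurable_trF (A : ℝ) : Measurable (trF A) :=
  measurable_const.max (measurable_const.min measurable_id)

theorem measurable_logZ : Measurable (logZ : Egy N → ℝ) := logZ_lip.continuous.measurable

theorem measurable_X : Measurable (X : Disorder K N M → ℝ) := by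
  have e : (X : Disorder K N M → ℝ) =
      fun ω => logZ (∑ k, clauseE (ω.1 k) + fieldE ω.2) := funext X_eq
  rw [e]
  refine measurable_logZ.comp (Measurable.add (Finset.measurable_fun_sum _ fun k _ => ?_) ?_)
  · exact measurable_clauseE'.comp ((measurable_pi_apply k).comp measurable_fst)
  · exact measurable_fieldE.comp measurable_snd

theorem bdm_XA {A : ℝ} (hA : 0 ≤ A) : Bdm (XA A : Disorder K N M → ℝ) := by
  refine ⟨?_, N * Real.log 2 + (M * A + N * A), fun ω => ?_⟩
  · unfold XA
    refine measurable_logZ.comp (Measurable.add (Finset.measurable_fun_sum _ fun k _ => ?_) ?_)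
    · exact (measurable_trC A).comp ((measurable_pi_apply k).comp measurable_fst)
    · exact measurable_fieldE.comp (measurable_pi_lambda _ fun v =>
        (measurable_trF A).comp ((measurable_pi_apply v).comp measurable_snd))
  · unfold XA
    set H : Egy N := ∑ k, trC A (ω.1 k) + fieldE fun v => trF A (ω.2 v) with hH
    have h1 := logZ_sub_le H 0
    rw [sub_zero, logZ_zero] at h1
    have h2 : ‖H‖ ≤ M * A + N * A := by
      refine (norm_add_le _ _).trans (add_le_add ?_ ?_)
      · refine (norm_sum_le _ _).trans ((Finset.sum_le_sum fun k _ => trC_norm hA _).trans ?_)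
        simp
      · refine (norm_fieldE_le _).trans ((Finset.sum_le_sum fun v _ => trF_abs hA _).trans ?_)
        simp
    have h3 : 0 ≤ (N : ℝ) * Real.log 2 := mul_nonneg (Nat.cast_nonneg _) (Real.log_nonneg one_le_two)
    have h4 := abs_add_le (logZ H - N * Real.log 2) (N * Real.log 2)
    rw [sub_add_cancel, abs_of_nonneg h3] at h4
    linarith

theorem XA_diff_left {A : ℝ} (hA : 0 ≤ A) (ω : Fin M → Clause K × (Fin K → Fin N))
    (h : Fin N → ℝ) (k : Fin M) (x : Clause K × (Fin K → Fin N)) :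
    |XA A (Function.update ω k x, h) - XA A (ω, h)| ≤ 2 * A := by
  unfold XA
  refine (logZ_sub_le _ _).trans ?_
  dsimp only
  rw [add_sub_add_right_eq_sub, ← Finset.sum_sub_distrib]
  rw [Finset.sum_eq_single k]
  · rw [Function.update_self]
    refine (norm_sub_le _ _).trans ?_
    have h1 := trC_norm hA x
    have h2 := trC_norm hA (ω k)
    linarith
  · intro j _ hj
    rw [Function.update_of_ne hj, sub_self]
  · intro hk; exact absurd (Finset.mem_univ _) hk

theorem XA_diff_right {A : ℝ} (hA : 0 ≤ A) (ω : Fin M → Clause K × (Fin K → Fin N))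
    (h : Fin N → ℝ) (v : Fin N) (t : ℝ) :
    |XA A (ω, Function.update h v t) - XA A (ω, h)| ≤ 2 * A := by
  unfold XA
  refine (logZ_sub_le _ _).trans ?_
  dsimp only
  rw [add_sub_add_left_eq_sub]
  refine (fieldE_sub_le _ _).trans ?_
  rw [Finset.sum_eq_single v]
  · rw [Function.update_self]
    have h1 := abs_le.1 (trF_abs hA t)
    have h2 := abs_le.1 (trF_abs hA (h v))
    rw [abs_le]
    constructor <;> linarith [h1.1, h1.2, h2.1, h2.2]
  · intro j _ hj
    rw [Function.update_of_ne hj, sub_self, abs_zero]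
  · intro hk; exact absurd (Finset.mem_univ _) hk

section

variable (ρ : Measure (Clause K)) [IsProbabilityMeasure ρ] (ν : Measure ℝ)
  [IsProbabilityMeasure ν] [NeZero N]

instance disorder_prob : IsProbabilityMeasure (disorder ρ ν N M) := by
  unfold disorder; infer_instance

theorem V_XA_le {A : ℝ} (hA : 0 ≤ A) :
    V (disorder ρ ν N M) (XA A) ≤ M * (2 * A) ^ 2 + N * (2 * A) ^ 2 := by
  have hb := bdm_XA (K := K) (N := N) (M := M) hA
  unfold disorder
  refine V_prod_le hb (fun h => ?_) ?_
  · refine V_pi_le _ M _ (hb.comp measurable_prodMk_right) fun ω k x => ?_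
    exact XA_diff_left hA ω h k x
  · refine V_pi_le ν N _ (bdm_avg hb) fun h v t => ?_
    have e : (∫ ω, XA A (ω, Function.update h v t)
        ∂(Measure.pi fun _ : Fin M => ρ.prod (Measure.pi fun _ : Fin K => unif N))) -
        ∫ ω, XA A (ω, h)
        ∂(Measure.pi fun _ : Fin M => ρ.prod (Measure.pi fun _ : Fin K => unif N)) =
        ∫ ω, (XA A (ω, Function.update h v t) - XA A (ω, h))
        ∂(Measure.pi fun _ : Fin M => ρ.prod (Measure.pi fun _ : Fin K => unif N)) := by
      rw [integral_sub]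
      · exact (hb.comp measurable_prodMk_right).integrable _
      · exact (hb.comp measurable_prodMk_right).integrable _
    rw [e]
    have := norm_integral_le_of_norm_le_const
      (μ := Measure.pi fun _ : Fin M => ρ.prod (Measure.pi fun _ : Fin K => unif N))
      (f := fun ω => XA A (ω, Function.update h v t) - XA A (ω, h)) (C := 2 * A)
      (Eventually.of_forall fun ω => XA_diff_right hA ω h v t)
    simpa using this

/-- `d ≤ ε s + A²/ε` from `d² ≤ 4 A² s`. -/
theorem le_of_sq {d A s ε : ℝ} (hε : 0 < ε) (hs : 0 ≤ s) (h : d ^ 2 ≤ 4 * A ^ 2 * s) :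
    d ≤ ε * s + A ^ 2 / ε := by
  have h1 : 4 * A ^ 2 * s ≤ (ε * s + A ^ 2 / ε) ^ 2 := by
    have e : (ε * s + A ^ 2 / ε) ^ 2 - 4 * A ^ 2 * s = (ε * s - A ^ 2 / ε) ^ 2 := by
      field_simp
      ring
    nlinarith [sq_nonneg (ε * s - A ^ 2 / ε)]
  have h2 : 0 ≤ ε * s + A ^ 2 / ε := by positivity
  exact le_trans (le_abs_self d) (abs_le_of_sq_le_sq (h.trans h1) h2)

theorem mpC' (k : Fin M) : MeasurePreserving (fun ω : Disorder K N M => (ω.1 k).1)
    (disorder ρ ν N M) ρ :=
  (measurePreserving_fst (μ := ρ) (ν := Measure.pi fun _ : Fin K => unif N)).comp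
    ((measurePreserving_eval (fun _ : Fin M => ρ.prod (Measure.pi fun _ : Fin K => unif N)) k).comp
      measurePreserving_fst)

theorem mpF' (v : Fin N) : MeasurePreserving (fun ω : Disorder K N M => ω.2 v)
    (disorder ρ ν N M) ν :=
  (measurePreserving_eval (fun _ : Fin N => ν) v).comp measurePreserving_snd

variable {ρ} {ν}

theorem integral_sumC {g : Clause K → ℝ} (hg : Integrable g ρ) :
    ∫ ω : Disorder K N M, ∑ k, g (ω.1 k).1 ∂(disorder ρ ν N M) = M * ∫ c, g c ∂ρ := by
  have hi : ∀ k : Fin M, Integrable (fun ω : Disorder K N M => g (ω.1 k).1) (disorder ρ ν N M) :=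
    fun k => (mpC' ρ ν k).integrable_comp_of_integrable hg
  rw [integral_finsetSum _ fun k _ => hi k]
  have : ∀ k : Fin M, ∫ ω : Disorder K N M, g (ω.1 k).1 ∂(disorder ρ ν N M) = ∫ c, g c ∂ρ :=
    fun k => PT.mp_integral (mpC' ρ ν k) hg.aestronglyMeasurable
  simp [this]

theorem integral_sumF {g : ℝ → ℝ} (hg : Integrable g ν) :
    ∫ ω : Disorder K N M, ∑ v, g (ω.2 v) ∂(disorder ρ ν N M) = N * ∫ t, g t ∂ν := by
  have hi : ∀ v : Fin N, Integrable (fun ω : Disorder K N M => g (ω.2 v)) (disorder ρ ν N M) :=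
    fun v => (mpF' ρ ν v).integrable_comp_of_integrable hg
  rw [integral_finsetSum _ fun v _ => hi v]
  have : ∀ v : Fin N, ∫ ω : Disorder K N M, g (ω.2 v) ∂(disorder ρ ν N M) = ∫ t, g t ∂ν :=
    fun v => PT.mp_integral (mpF' ρ ν v) hg.aestronglyMeasurable
  simp [this]

theorem integrable_sumC {g : Clause K → ℝ} (hg : Integrable g ρ) :
    Integrable (fun ω : Disorder K N M => ∑ k, g (ω.1 k).1) (disorder ρ ν N M) :=
  integrable_finsetSum _ fun k _ => (mpC' ρ ν k).integrable_comp_of_integrable hg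

theorem integrable_sumF {g : ℝ → ℝ} (hg : Integrable g ν) :
    Integrable (fun ω : Disorder K N M => ∑ v, g (ω.2 v)) (disorder ρ ν N M) :=
  integrable_finsetSum _ fun k _ => (mpF' ρ ν k).integrable_comp_of_integrable hg

theorem measurable_tlC (A : ℝ) : Measurable (tlC A : Clause K → ℝ) := by
  unfold tlC
  exact Measurable.ite (measurableSet_le measurable_maxTheta measurable_const) measurable_const
    measurable_maxTheta

theorem measurable_tlF (A : ℝ) : Measurable (tlF A) := by
  unfold tlF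
  exact Measurable.ite (measurableSet_le measurable_id.abs measurable_const) measurable_const
    measurable_id.abs

theorem tlC_nonneg (A : ℝ) (c : Clause K) : 0 ≤ tlC A c := by
  unfold tlC; split_ifs
  · exact le_rfl
  · exact maxTheta_nonneg c

theorem tlC_le (A : ℝ) (c : Clause K) : tlC A c ≤ maxTheta c := by
  unfold tlC; split_ifs
  · exact maxTheta_nonneg c
  · exact le_rfl

theorem tlF_nonneg (A t : ℝ) : 0 ≤ tlF A t := by
  unfold tlF; split_ifs
  · exact le_rfl
  · exact abs_nonneg t

theorem tlF_le (A t : ℝ) : tlF A t ≤ |t| := by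
  unfold tlF; split_ifs
  · exact abs_nonneg t
  · exact le_rfl

theorem tlC_lim (hρ : Integrable (maxTheta : Clause K → ℝ) ρ) :
    Tendsto (fun n : ℕ => ∫ c, tlC (n : ℝ) c ∂ρ) atTop (𝓝 0) := by
  have h := tendsto_integral_of_dominated_convergence (μ := ρ)
    (F := fun (n : ℕ) c => tlC (n : ℝ) c) (f := fun _ => 0) maxTheta
    (fun n => (measurable_tlC _).aestronglyMeasurable) hρ
    (fun n => Eventually.of_forall fun c => by
      rw [Real.norm_eq_abs, abs_of_nonneg (tlC_nonneg _ _)]; exact tlC_le _ _)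
    (Eventually.of_forall fun c => ?_)
  · simpa using h
  · refine tendsto_const_nhds.congr' ?_
    filter_upwards [eventually_ge_atTop ⌈maxTheta c⌉₊] with n hn
    unfold tlC
    rw [if_pos ((Nat.le_ceil _).trans (by exact_mod_cast hn))]

theorem tlF_lim (hν : Integrable (fun h => h) ν) :
    Tendsto (fun n : ℕ => ∫ t, tlF (n : ℝ) t ∂ν) atTop (𝓝 0) := by
  have h := tendsto_integral_of_dominated_convergence (μ := ν)
    (F := fun (n : ℕ) t => tlF (n : ℝ) t) (f := fun _ => 0) (fun t => |t|)
    (fun n => (measurable_tlF _).aestronglyMeasurable) hν.abs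
    (fun n => Eventually.of_forall fun c => by
      rw [Real.norm_eq_abs, abs_of_nonneg (tlF_nonneg _ _)]; exact tlF_le _ _)
    (Eventually.of_forall fun c => ?_)
  · simpa using h
  · refine tendsto_const_nhds.congr' ?_
    filter_upwards [eventually_ge_atTop ⌈|c|⌉₊] with n hn
    unfold tlF
    rw [if_pos ((Nat.le_ceil _).trans (by exact_mod_cast hn))]

theorem integrable_X (hρ : Integrable (maxTheta : Clause K → ℝ) ρ)
    (hν : Integrable (fun h => h) ν) :
    Integrable (X : Disorder K N M → ℝ) (disorder ρ ν N M) := by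
  refine (((integrable_sumC (ν := ν) (N := N) (M := M) hρ).add
    (integrable_sumF (ρ := ρ) (K := K) (M := M) (N := N) hν.abs)).add
    (integrable_const (N * Real.log 2))).mono' measurable_X.aestronglyMeasurable
    (Eventually.of_forall fun ω => ?_)
  rw [Real.norm_eq_abs, X_eq]
  set H : Egy N := ∑ k, clauseE (ω.1 k) + fieldE ω.2 with hH
  have h1 := logZ_sub_le H 0
  rw [sub_zero, logZ_zero] at h1
  have h2 : ‖H‖ ≤ ∑ k, maxTheta (ω.1 k).1 + ∑ v, |ω.2 v| := by
    refine (norm_add_le _ _).trans (add_le_add ?_ (norm_fieldE_le _))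
    exact (norm_sum_le _ _).trans (Finset.sum_le_sum fun k _ => norm_clauseE_le _)
  have h3 : 0 ≤ (N : ℝ) * Real.log 2 := mul_nonneg (Nat.cast_nonneg _) (Real.log_nonneg one_le_two)
  have h4 := abs_add_le (logZ H - N * Real.log 2) (N * Real.log 2)
  rw [sub_add_cancel, abs_of_nonneg h3] at h4
  simp only [Pi.add_apply]
  linarith

end

/-- **`L¹` deviation of `log Z` from its mean.** -/
theorem dev {ρ : Measure (Clause K)} [IsProbabilityMeasure ρ] {ν : Measure ℝ}
    [IsProbabilityMeasure ν] (hρ : Integrable (maxTheta : Clause K → ℝ) ρ)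
    (hν : Integrable (fun h => h) ν) {ε : ℝ} (hε : 0 < ε) :
    ∃ B : ℝ, 0 ≤ B ∧ ∀ (N M : ℕ) (_ : NeZero N),
      ∫ ω, |X ω - ∫ ω', X ω' ∂(disorder ρ ν N M)| ∂(disorder ρ ν N M) ≤ ε * (M + N) + B := by
  have hε4 : 0 < ε / 4 := by positivity
  obtain ⟨n, hn1, hn2⟩ := (((tlC_lim hρ).eventually (gt_mem_nhds hε4)).and
    ((tlF_lim hν).eventually (gt_mem_nhds hε4))).exists
  set A : ℝ := (n : ℝ) with hAd
  have hA : 0 ≤ A := Nat.cast_nonneg n
  refine ⟨A ^ 2 / (ε / 2), by positivity, fun N M _ => ?_⟩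
  set D := disorder ρ ν N M with hD
  have hX : Integrable (X : Disorder K N M → ℝ) D := integrable_X hρ hν
  have hXA : Integrable (XA A : Disorder K N M → ℝ) D := (bdm_XA hA).integrable _
  have i1 : Integrable (tlC A : Clause K → ℝ) ρ := hρ.mono' (measurable_tlC A).aestronglyMeasurable
    (Eventually.of_forall fun c => by
      rw [Real.norm_eq_abs, abs_of_nonneg (tlC_nonneg _ _)]; exact tlC_le _ _)
  have i2 : Integrable (tlF A) ν := hν.abs.mono' (measurable_tlF A).aestronglyMeasurable
    (Eventually.of_forall fun c => by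
      rw [Real.norm_eq_abs, abs_of_nonneg (tlF_nonneg _ _)]; exact tlF_le _ _)
  have h1 : ∫ ω, |X ω - XA A ω| ∂D ≤ ε / 4 * (M + N) := by
    have h2 : ∫ ω, |X ω - XA A ω| ∂D ≤
        ∫ ω : Disorder K N M, (∑ k, tlC A (ω.1 k).1 + ∑ v, tlF A (ω.2 v)) ∂D :=
      integral_mono (hX.sub hXA).abs ((integrable_sumC i1).add (integrable_sumF i2))
        fun ω => X_sub_XA hA ω
    rw [integral_add (integrable_sumC i1) (integrable_sumF i2), integral_sumC i1,
      integral_sumF i2] at h2
    have h3 : (M : ℝ) * ∫ c, tlC A c ∂ρ ≤ M * (ε / 4) :=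
      mul_le_mul_of_nonneg_left hn1.le (Nat.cast_nonneg _)
    have h4 : (N : ℝ) * ∫ t, tlF A t ∂ν ≤ N * (ε / 4) :=
      mul_le_mul_of_nonneg_left hn2.le (Nat.cast_nonneg _)
    linarith
  have h5 : ∫ ω, |XA A ω - ∫ ω', XA A ω' ∂D| ∂D ≤ ε / 2 * (M + N) + A ^ 2 / (ε / 2) := by
    refine le_of_sq (by positivity) (by positivity) ?_
    refine (abs_dev_sq_le (bdm_XA hA)).trans ((V_XA_le ρ ν hA).trans_eq ?_)
    ring
  have h6 : |(∫ ω, XA A ω ∂D) - ∫ ω, X ω ∂D| ≤ ε / 4 * (M + N) := by
    rw [← integral_sub hXA hX]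
    refine abs_integral_le_integral_abs.trans (le_trans (le_of_eq ?_) h1)
    exact integral_congr_ae (Eventually.of_forall fun ω => abs_sub_comm _ _)
  have h7 : ∫ ω, |X ω - ∫ ω', X ω' ∂D| ∂D ≤
      ∫ ω, (|X ω - XA A ω| + |XA A ω - ∫ ω', XA A ω' ∂D| +
        |(∫ ω, XA A ω ∂D) - ∫ ω, X ω ∂D|) ∂D := by
    refine integral_mono (hX.sub (integrable_const _)).abs
      (((hX.sub hXA).abs.add (hXA.sub (integrable_const _)).abs).add (integrable_const _))
      fun ω => ?_
    have a1 := abs_sub_le (X ω) (XA A ω) (∫ ω', X ω' ∂D)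
    have a2 := abs_sub_le (XA A ω) (∫ ω', XA A ω' ∂D) (∫ ω', X ω' ∂D)
    dsimp only
    linarith
  have j1 : Integrable (fun ω : Disorder K N M => |X ω - XA A ω|) D := (hX.sub hXA).abs
  have j2 : Integrable (fun ω : Disorder K N M => |XA A ω - ∫ ω', XA A ω' ∂D|) D :=
    (hXA.sub (integrable_const _)).abs
  have j3 : Integrable (fun ω : Disorder K N M =>
      |X ω - XA A ω| + |XA A ω - ∫ ω', XA A ω' ∂D|) D := j1.add j2
  rw [integral_add j3 (integrable_const _), integral_add j1 j2, integral_const, probReal_univ,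
    one_smul] at h7
  have h8 : (0 : ℝ) ≤ M + N := by positivity
  linarith

end Vale.Agent.P168.Cc
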