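import Vale.Agent.P168.Defs

/-! The class of the problem, for every number of variables of an interaction. -/

open MeasureTheory ProbabilityTheory

namespace Vale.Agent.P168

/-- The class of the problem with the condition that `K ≥ 2` is even replaced by the weaker
condition that `K ≥ 1`, and `K` is even or the functions `f_j` are nonnegative. All the others are
those of `InClass`: `a > 0`, `b ∈ (-1, 1)`, `|f_j| ≤ 1`, the `f_j` are i.i.d. and independent of
`b`, `E (-b)^n ≥ 0` for `n ≥ 1`, `E max |θ| < ∞` and `E |h| < ∞`. -/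
structure WideClass (K : ℕ) (ρ : Measure (Clause K)) (ν : Measure ℝ) : Prop where
  one_le : 1 ≤ K
  parity : Even K ∨ ∀ᵐ c ∂ρ, ∀ j s, 0 ≤ c.2.2 j s
  prob_clause : IsProbabilityMeasure ρ
  prob_field : IsProbabilityMeasure ν
  a_pos : ∀ᵐ c ∂ρ, 0 < c.1
  b_mem : ∀ᵐ c ∂ρ, c.2.1 ∈ Set.Ioo (-1 : ℝ) 1
  f_mem : ∀ᵐ c ∂ρ, ∀ j s, c.2.2 j s ∈ Set.Icc (-1 : ℝ) 1
  indep : ∃ (β : Measure ℝ) (φ : Measure (Bool → ℝ)), IsProbabilityMeasure β ∧
    IsProbabilityMeasure φ ∧ ρ.map Prod.snd = β.prod (Measure.pi fun _ : Fin K => φ)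
  positivity : ∀ n : ℕ, 1 ≤ n → 0 ≤ ∫ c, (-c.2.1) ^ n ∂ρ
  theta_int : ∀ σ, Integrable (fun c => theta c σ) ρ
  field_int : Integrable (fun h => h) ν

end Vale.Agent.P168
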