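import Vale.Agent.P168.H45.Ground
import Vale.Agent.P168.H45.WideDefs

/-! Assembly. -/

set_option autoImplicit false

open MeasureTheory ProbabilityTheory Filter
open scoped NNReal Topology

namespace Vale.Agent.P168.Fin45

variable {K : ℕ} {ρ : Measure (Clause K)} {ν : Measure ℝ}

theorem cases_of (h : WideClass K ρ ν) : InClass K ρ ν ∨ PN.PosClass K ρ ν := by
  rcases h.parity with hp | hp
  · refine Or.inl ⟨?_, hp, h.prob_clause, h.prob_field, h.a_pos, h.b_mem, h.f_mem, h.indep,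
      h.positivity, h.theta_int, h.field_int⟩
    obtain ⟨k, hk⟩ := hp
    have := h.one_le
    omega
  · refine Or.inr ⟨h.one_le, h.prob_clause, h.prob_field, h.a_pos, h.b_mem, ?_, h.indep,
      h.positivity, h.theta_int, h.field_int⟩
    filter_upwards [hp, h.f_mem] with c h1 h2 j s
    exact ⟨h1 j s, (h2 j s).2⟩

theorem wide_of_in (h : InClass K ρ ν) : WideClass K ρ ν :=
  ⟨le_trans one_le_two h.two_le, Or.inl h.even, h.prob_clause, h.prob_field, h.a_pos, h.b_mem,
    h.f_mem, h.indep, h.positivity, h.theta_int, h.field_int⟩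

theorem wide_of_pos (h : PN.PosClass K ρ ν) : WideClass K ρ ν := by
  refine ⟨h.one_le, Or.inr ?_, h.prob_clause, h.prob_field, h.a_pos, h.b_mem, ?_, h.indep,
    h.positivity, h.theta_int, h.field_int⟩
  · filter_upwards [h.f_mem] with c h1 j s
    exact (h1 j s).1
  · filter_upwards [h.f_mem] with c h1 j s
    exact ⟨by linarith [(h1 j s).1], (h1 j s).2⟩

theorem formula (h : WideClass K ρ ν) (lam : ℝ≥0) :
    ∃ L : ℝ, Tendsto (fun N : ℕ => pressure lam ρ ν N) atTop (𝓝 L) ∧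
      mezardParisi lam ρ ν = (L : EReal) := by
  have := h.prob_clause
  have := h.prob_field
  have : NeZero K := ⟨by have := h.one_le; omega⟩
  rcases cases_of h with h | h
  · exact MP.limit_of_bounds (MP.lower_full ρ (PT.maxTheta_int h) ν h.field_int lam)
      fun N hN r m x hx => PT.pt_upper h hx lam hN
  · exact PN.formula h lam

theorem upper (h : WideClass K ρ ν) (lam : ℝ≥0) {L : ℝ} (hL : mezardParisi lam ρ ν = (L : EReal))
    {N : ℕ} (hN : 1 ≤ N) : pressure lam ρ ν N ≤ L := by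
  have h1 : ((pressure lam ρ ν N : ℝ) : EReal) ≤ mezardParisi lam ρ ν := by
    unfold mezardParisi phi
    refine le_iInf fun r => le_iInf fun m => le_iInf fun x => le_iInf fun hx => ?_
    refine EReal.coe_le_coe_iff.2 ?_
    rcases cases_of h with h | h
    · exact PT.pt_upper h hx lam hN
    · exact PN.pt_upper h hx lam hN
  rw [hL] at h1
  exact EReal.coe_le_coe_iff.1 h1

theorem theta_max (h : WideClass K ρ ν) : Integrable (maxTheta : Clause K → ℝ) ρ := by
  rcases cases_of h with h | h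
  · exact PT.maxTheta_int h
  · exact PN.maxTheta_int h

/-- Everything for one model. -/
theorem model (h : WideClass K ρ ν) (lam : ℝ≥0) :
    ∃ L : ℝ, mezardParisi lam ρ ν = (L : EReal) ∧
      Tendsto (fun N : ℕ => pressure lam ρ ν N) atTop (𝓝 L) ∧
      (∀ N : ℕ, 1 ≤ N → pressure lam ρ ν N ≤ L) ∧
      Tendsto (fun N : ℕ => ∫ n, (∫ ω, |randomPressure ω - L| ∂(disorder ρ ν N n))
        ∂(poissonMeasure (lam * N))) atTop (𝓝 0) ∧
      ∀ M : ℕ → ℕ, Tendsto (fun N => (M N : ℝ) / N) atTop (𝓝 (lam : ℝ)) →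
        Tendsto (fun N => ∫ ω, |randomPressure ω - L| ∂(disorder ρ ν N (M N))) atTop (𝓝 0) := by
  have := h.prob_clause
  have := h.prob_field
  obtain ⟨L, h1, h2⟩ := formula h lam
  exact ⟨L, h2, h1, fun N hN => upper h lam h2 hN, Cc.pois_L1 (theta_max h) h.field_int h1,
    fun M hM => Cc.det_L1 (theta_max h) h.field_int h1 hM⟩

/-- Random `K`-SAT. -/
theorem sat (hbr : Sat.Bridge) {K : ℕ} (hK : 1 ≤ K) (lam : ℝ≥0) :
    ∃ (P : ℝ → ℝ) (e : ℝ),
      (∀ β, 0 ≤ β → mezardParisi lam (satLaw K β) (Measure.dirac 0) = (P β : EReal)) ∧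
      Tendsto (fun β => -P β / β) atTop (𝓝 e) ∧
      ∀ M : ℕ → ℕ, Tendsto (fun N => (M N : ℝ) / N) atTop (𝓝 (lam : ℝ)) →
        (∀ β, 0 ≤ β → Tendsto (fun N => average fun φ : Formula K N (M N) =>
          |1 / (N : ℝ) * Real.log (∑ σ, Real.exp (-β * unsat φ σ)) - P β|) atTop (𝓝 0)) ∧
        Tendsto (fun N => average fun φ : Formula K N (M N) =>
          |((⨅ σ, unsat φ σ : ℕ) : ℝ) / N - e|) atTop (𝓝 0) := by
  have hf : ∀ β : ℝ, ∃ L : ℝ, 0 ≤ β →
      (Tendsto (fun N : ℕ => pressure lam (satLaw K β) (Measure.dirac 0) N) atTop (𝓝 L) ∧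
        mezardParisi lam (satLaw K β) (Measure.dirac 0) = (L : EReal)) := by
    intro β
    by_cases hβ : 0 ≤ β
    · obtain ⟨L, hL⟩ := PN.formula (Sat.posClass hK hβ) lam
      exact ⟨L, fun _ => hL⟩
    · exact ⟨0, fun h => absurd h hβ⟩
  choose P hP using hf
  have hP1 : ∀ β, 0 ≤ β → Tendsto (fun N => pressure lam (satLaw K β) (Measure.dirac 0) N) atTop
    (𝓝 (P β)) := fun β hβ => (hP β hβ).1
  obtain ⟨e, he, hg⟩ := Sat.ground hK lam hP1 hbr
  refine ⟨P, e, fun β hβ => (hP β hβ).2, he, fun M hM => ⟨fun β hβ => ?_, hg M hM⟩⟩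
  exact Sat.lz_L1 hK lam hP1 hbr hM hβ

end Vale.Agent.P168.Fin45
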