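import Vale.Agent.P168.Defs

/-! Diluted `K`-spin glasses: couplings, energy, the interaction at inverse temperature `β`. -/

open MeasureTheory ProbabilityTheory
open scoped NNReal

namespace Vale.Agent.P168

/-- The law of the interaction `θ(σ_1, …, σ_K) = β J σ_1 ⋯ σ_K`, `J` of law `γ`, in the form of the
problem: `a = cosh (β J)`, `b = tanh (β J)` and `f_j(s) = s`. -/
noncomputable def glassLaw (K : ℕ) (γ : Measure ℝ) (β : ℝ) : Measure (Clause K) :=
  γ.map fun J => (Real.cosh (β * J), Real.tanh (β * J), fun _ s => spin s)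

/-- `M` couplings with their sites, and the fields of the `N` sites. -/
abbrev Couplings (K N M : ℕ) : Type := (Fin M → ℝ × (Fin K → Fin N)) × (Fin N → ℝ)

/-- The law of `M` i.i.d. couplings of law `γ` with i.i.d. uniform sites, and of `N` i.i.d. fields
of law `ν`, all independent. -/
noncomputable def couplings (K : ℕ) (γ ν : Measure ℝ) (N M : ℕ) : Measure (Couplings K N M) :=
  (Measure.pi fun _ => γ.prod (Measure.pi fun _ => unif N)).prod (Measure.pi fun _ => ν)

/-- `H(σ) = ∑_k J_k σ_{i_{1,k}} ⋯ σ_{i_{K,k}} + ∑_v h_v σ_v`. -/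
noncomputable def energy {K N M : ℕ} (ω : Couplings K N M) (σ : Fin N → Bool) : ℝ :=
  ∑ k, (ω.1 k).1 * ∏ j, spin (σ ((ω.1 k).2 j)) + ∑ v, ω.2 v * spin (σ v)

end Vale.Agent.P168
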