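import Vale.Agent.P168.H45.Gs
import Vale.Agent.P168.H45.Final
import Vale.Agent.P168.H45.GlassDefs
import Mathlib.Analysis.SpecialFunctions.Trigonometric.DerivHyp

/-! Diluted `K`-spin glasses, `K` even: they belong to the class, and their ground state energy. -/

set_option autoImplicit false

open MeasureTheory ProbabilityTheory Filter
open scoped NNReal Topology

namespace Vale.Agent.P168.Gl

variable {K N M : ℕ}

/-- The interaction with coupling `J`. -/
noncomputable def glC (K : ℕ) (β J : ℝ) : Clause K :=
  (Real.cosh (β * J), Real.tanh (β * J), fun _ s => spin s)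

theorem measurable_tanh' : Measurable Real.tanh := by
  have : Real.tanh = fun x => Real.sinh x / Real.cosh x := by
    funext x; exact Real.tanh_eq_sinh_div_cosh x
  rw [this]
  exact Real.measurable_sinh.div Real.measurable_cosh

theorem measurable_glC (K : ℕ) (β : ℝ) : Measurable (glC K β) := by
  have h1 : Measurable fun J : ℝ => β * J := measurable_const_mul β
  exact (Real.measurable_cosh.comp h1).prodMk
    ((measurable_tanh'.comp h1).prodMk measurable_const)

theorem glassLaw_eq (K : ℕ) (γ : Measure ℝ) (β : ℝ) : glassLaw K γ β = γ.map (glC K β) := rfl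

theorem mp_glC (K : ℕ) (γ : Measure ℝ) (β : ℝ) :
    MeasurePreserving (glC K β) γ (glassLaw K γ β) := ⟨measurable_glC K β, rfl⟩

theorem abs_spin (s : Bool) : |spin s| = 1 := by
  unfold spin; split_ifs <;> simp

theorem prod_spin (σ : Fin K → Bool) : ∏ j, spin (σ j) = 1 ∨ ∏ j, spin (σ j) = -1 := by
  have h : |∏ j, spin (σ j)| = 1 := by
    rw [Finset.abs_prod]
    exact Finset.prod_eq_one fun j _ => abs_spin _
  rcases abs_choice (∏ j, spin (σ j)) with h1 | h1
  · left; rw [← h1, h]
  · right
    rw [h1] at h
    linarith

theorem theta_glC (β J : ℝ) (σ : Fin K → Bool) :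
    theta (glC K β J) σ = β * (J * ∏ j, spin (σ j)) := by
  have hc : Real.cosh (β * J) * Real.tanh (β * J) = Real.sinh (β * J) := by
    rw [Real.tanh_eq_sinh_div_cosh]
    field_simp [(Real.cosh_pos (β * J)).ne']
  change Real.log (Real.cosh (β * J) * (1 + Real.tanh (β * J) * ∏ j, spin (σ j))) = _
  rw [mul_add, mul_one, ← mul_assoc, hc]
  rcases prod_spin σ with h | h
  · rw [h, mul_one, mul_one, Real.cosh_add_sinh, Real.log_exp]
  · rw [h, mul_neg_one, mul_neg_one, ← sub_eq_add_neg, Real.cosh_sub_sinh, Real.log_exp]
    ring

theorem ae_glassLaw {γ : Measure ℝ} {β : ℝ} {p : Clause K → Prop} (hm : MeasurableSet {c | p c})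
    (hp : ∀ J, p (glC K β J)) : ∀ᵐ c ∂(glassLaw K γ β), p c := by
  rw [glassLaw_eq]
  exact (ae_map_iff (measurable_glC K β).aemeasurable hm).2 (Eventually.of_forall hp)

theorem pi_dirac' {ι A : Type} [Fintype ι] [MeasurableSpace A] (a : ι → A) :
    Measure.pi (fun i => Measure.dirac (a i)) = Measure.dirac a := by
  classical
  refine Measure.pi_eq fun s hs => ?_
  rw [Measure.dirac_apply' _ (MeasurableSet.univ_pi hs)]
  simp_rw [Measure.dirac_apply' _ (hs _)]
  by_cases h : ∀ i, a i ∈ s i
  · rw [Set.indicator_of_mem (by simpa [Set.mem_univ_pi] using h)]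
    exact (Finset.prod_eq_one fun i _ => by rw [Set.indicator_of_mem (h i)]; rfl).symm
  · have h' := h
    push Not at h
    obtain ⟨i, hi⟩ := h
    rw [Set.indicator_of_notMem (by simpa [Set.mem_univ_pi] using h')]
    exact (Finset.prod_eq_zero (Finset.mem_univ i) (Set.indicator_of_notMem hi _)).symm

variable {γ ν : Measure ℝ}

theorem tanh_nonneg' {x : ℝ} (hx : 0 ≤ x) : 0 ≤ Real.tanh x := by
  rw [Real.tanh_eq_sinh_div_cosh]
  exact div_nonneg ((by simpa using Real.sinh_le_sinh.2 hx)) (Real.cosh_pos x).le

theorem inClass [IsProbabilityMeasure γ] [IsProbabilityMeasure ν] (hK : 2 ≤ K) (hK2 : Even K)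
    (hγ : Integrable (fun x => x) γ) (hν : Integrable (fun x => x) ν)
    (hs : γ.map (fun x => -x) = γ ∨ ∀ᵐ x ∂γ, x ≤ 0) {β : ℝ} (hβ : 0 ≤ β) :
    InClass K (glassLaw K γ β) (ν.map fun x => β * x) where
  two_le := hK
  even := hK2
  prob_clause := Measure.isProbabilityMeasure_map (measurable_glC K β).aemeasurable
  prob_field := Measure.isProbabilityMeasure_map (measurable_const_mul β).aemeasurable
  a_pos := ae_glassLaw (measurableSet_lt measurable_const measurable_fst) fun J => Real.cosh_pos _
  b_mem := ae_glassLaw ((measurable_fst.comp measurable_snd) measurableSet_Ioo)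
    fun J => ⟨Real.neg_one_lt_tanh _, Real.tanh_lt_one _⟩
  f_mem := by
    refine ae_glassLaw ?_ fun J j s => ?_
    · have e : {c : Clause K | ∀ (j : Fin K) (s : Bool), c.2.2 j s ∈ Set.Icc (-1 : ℝ) 1} =
          ⋂ j : Fin K, ⋂ s : Bool, (fun c : Clause K => c.2.2 j s) ⁻¹' Set.Icc (-1 : ℝ) 1 := by
        ext c; simp
      rw [e]
      refine MeasurableSet.iInter fun j => MeasurableSet.iInter fun s => ?_
      exact (((measurable_pi_apply s).comp ((measurable_pi_apply j).comp
        (measurable_snd.comp measurable_snd)))) measurableSet_Icc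
    · have := abs_le.1 (abs_spin s).le
      exact this
  indep := by
    refine ⟨γ.map fun J => Real.tanh (β * J), Measure.dirac fun s => spin s,
      Measure.isProbabilityMeasure_map (measurable_tanh'.comp
        (measurable_const_mul β)).aemeasurable, inferInstance, ?_⟩
    have ht : Measurable fun J : ℝ => Real.tanh (β * J) :=
      measurable_tanh'.comp (measurable_const_mul β)
    rw [pi_dirac', Measure.prod_dirac, Measure.map_map measurable_prodMk_right ht, glassLaw_eq,
      Measure.map_map measurable_snd (measurable_glC K β)]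
    rfl
  positivity n _ := by
    have hm : Measurable fun c : Clause K => (-c.2.1) ^ n :=
      ((measurable_fst.comp measurable_snd).neg).pow_const n
    rw [← PT.mp_integral (mp_glC K γ β) hm.aestronglyMeasurable]
    change 0 ≤ ∫ J, (-Real.tanh (β * J)) ^ n ∂γ
    rcases Nat.even_or_odd n with hn | hn
    · exact integral_nonneg fun J => hn.pow_nonneg _
    · rcases hs with hs | hs
      · set f : ℝ → ℝ := fun J => (-Real.tanh (β * J)) ^ n with hf
        have hfm : Measurable f := by
          exact ((measurable_tanh'.comp (measurable_const_mul β)).neg).pow_const n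
        have h1 : ∫ J, f J ∂γ = ∫ J, f (-J) ∂γ := by
          have := integral_map (μ := γ) (φ := fun x : ℝ => -x) (f := f)
            measurable_neg.aemeasurable hfm.aestronglyMeasurable
          rw [hs] at this
          exact this
        have h2 : ∀ J, f (-J) = -f J := by
          intro J
          rw [hf]
          simp only
          rw [mul_neg, Real.tanh_neg, hn.neg_pow (Real.tanh (β * J)), neg_neg, neg_neg]
        simp_rw [h2] at h1
        rw [integral_neg] at h1
        linarith
      · refine integral_nonneg_of_ae ?_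
        filter_upwards [hs] with J hJ
        refine pow_nonneg ?_ n
        have : 0 ≤ Real.tanh (β * (-J)) := tanh_nonneg' (mul_nonneg hβ (by linarith))
        rw [mul_neg, Real.tanh_neg] at this
        exact this
  theta_int σ := by
    rw [← (mp_glC K γ β).integrable_comp (measurable_theta σ).aestronglyMeasurable]
    have : (fun c : Clause K => theta c σ) ∘ glC K β = fun J => (β * ∏ j, spin (σ j)) * J := by
      funext J
      change theta (glC K β J) σ = _
      rw [theta_glC]
      ring
    rw [this]
    exact hγ.const_mul _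
  field_int := by
    rw [integrable_map_measure (by fun_prop) (by fun_prop)]
    exact hν.const_mul β

/-- The disorder of the problem from the couplings. -/
noncomputable def toDis (β : ℝ) (ω : Couplings K N M) : Disorder K N M :=
  (fun k => (glC K β (ω.1 k).1, (ω.1 k).2), fun v => β * ω.2 v)

/-- `(1/N) log ∑_σ e^{β H(σ)}`. -/
noncomputable def fe (β : ℝ) (ω : Couplings K N M) : ℝ :=
  1 / (N : ℝ) * Real.log (∑ σ, Real.exp (β * energy ω σ))

theorem rp_toDis (β : ℝ) (ω : Couplings K N M) : randomPressure (toDis β ω) = fe β ω := by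
  unfold randomPressure fe partitionFn toDis
  congr 2
  refine Finset.sum_congr rfl fun σ _ => ?_
  congr 1
  unfold energy
  simp only [theta_glC]
  rw [mul_add, Finset.mul_sum, Finset.mul_sum]
  congr 1
  exact Finset.sum_congr rfl fun v _ => by ring

section

variable [IsProbabilityMeasure γ] [IsProbabilityMeasure ν] [NeZero N]

theorem mp_toDis (β : ℝ) : MeasurePreserving (toDis β) (couplings K γ ν N M)
    (disorder (glassLaw K γ β) (ν.map fun x => β * x) N M) := by
  have : IsProbabilityMeasure (glassLaw K γ β) :=
    Measure.isProbabilityMeasure_map (measurable_glC K β).aemeasurable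
  have : IsProbabilityMeasure (ν.map fun x => β * x) :=
    Measure.isProbabilityMeasure_map (measurable_const_mul β).aemeasurable
  have h1 := (mp_glC K γ β).prod (MeasurePreserving.id (Measure.pi fun _ : Fin K => unif N))
  have h2 := measurePreserving_pi (fun _ : Fin M => γ.prod (Measure.pi fun _ : Fin K => unif N))
    (fun _ : Fin M => (glassLaw K γ β).prod (Measure.pi fun _ : Fin K => unif N))
    (f := fun _ => Prod.map (glC K β) id) fun _ => h1
  have h3 : MeasurePreserving (fun x : ℝ => β * x) ν (ν.map fun x => β * x) :=
    ⟨measurable_const_mul β, rfl⟩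
  have h4 := measurePreserving_pi (fun _ : Fin N => ν) (fun _ : Fin N => ν.map fun x => β * x)
    (f := fun _ x => β * x) fun _ => h3
  exact h2.prod h4

instance couplings_prob : IsProbabilityMeasure (couplings K γ ν N M) := by
  unfold couplings; infer_instance

end

end Vale.Agent.P168.Gl
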