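import Vale.Agent.P168.H45.Glass

/-! The ground state energy of diluted `K`-spin glasses. -/

set_option autoImplicit false

open MeasureTheory ProbabilityTheory Filter
open scoped NNReal Topology

namespace Vale.Agent.P168.Gl

variable {K N M : ℕ}

theorem int3 {Ω : Type} [MeasurableSpace Ω] {μ : Measure Ω} [IsProbabilityMeasure μ]
    {F G G' : Ω → ℝ} (hF : ∀ ω, 0 ≤ F ω) (i1 : Integrable G μ) (i2 : Integrable G' μ)
    {a b b' : ℝ} (hle : ∀ ω, F ω ≤ a + b * G ω + b' * G' ω) :
    ∫ ω, F ω ∂μ ≤ a + b * ∫ ω, G ω ∂μ + b' * ∫ ω, G' ω ∂μ := by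
  have j1 : Integrable (fun ω => b * G ω) μ := i1.const_mul b
  have j2 : Integrable (fun ω => b' * G' ω) μ := i2.const_mul b'
  have j3 : Integrable (fun ω => a + b * G ω) μ := (integrable_const a).add j1
  have j4 : Integrable (fun ω => a + b * G ω + b' * G' ω) μ := j3.add j2
  have h : ∫ ω, F ω ∂μ ≤ ∫ ω, (a + b * G ω + b' * G' ω) ∂μ :=
    integral_mono_of_nonneg (Eventually.of_forall hF) j4 (Eventually.of_forall hle)
  rw [integral_add j3 j2, integral_add (integrable_const a) j1, integral_const_mul,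
    integral_const_mul, integral_const, probReal_univ, one_smul] at h
  exact h

section growth

variable {ρ : Measure (Clause K)} [IsProbabilityMeasure ρ] {ν : Measure ℝ}
  [IsProbabilityMeasure ν] [NeZero N]

theorem rp_eq (ω : Disorder K N M) : randomPressure ω = Cc.X ω / N := by
  unfold randomPressure Cc.X
  ring

theorem rp_int (hρ : Integrable (maxTheta : Clause K → ℝ) ρ) (hν : Integrable (fun h => h) ν)
    (L : ℝ) : Integrable (fun ω : Disorder K N M => |randomPressure ω - L|)
      (disorder ρ ν N M) := by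
  have h : Integrable (fun ω : Disorder K N M => |Cc.X ω / N - L|) (disorder ρ ν N M) :=
    (((Cc.integrable_X hρ hν).div_const _).sub (integrable_const _)).abs
  refine h.congr (Eventually.of_forall fun ω => ?_)
  dsimp only
  rw [rp_eq]

theorem rp_growth (hρ : Integrable (maxTheta : Clause K → ℝ) ρ) (hν : Integrable (fun h => h) ν)
    (L : ℝ) (a : ℝ≥0) : Integrable (fun n => ∫ ω : Disorder K N n, |randomPressure ω - L|
      ∂(disorder ρ ν N n)) (poissonMeasure a) := by
  have hN : (0 : ℝ) < N := by exact_mod_cast NeZero.pos N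
  have hT : 0 ≤ ∫ c, maxTheta c ∂ρ := integral_nonneg maxTheta_nonneg
  have hH : 0 ≤ ∫ t, |t| ∂ν := integral_nonneg fun _ => abs_nonneg _
  have hl2 : 0 ≤ Real.log 2 := Real.log_nonneg one_le_two
  refine (expGrowth_of_linear (c := ∫ t, |t| ∂ν + Real.log 2 + |L|)
    (d := (∫ c, maxTheta c ∂ρ) / N) (fun n => ?_) (by positivity) (by positivity)).integrable a
  rw [abs_of_nonneg (integral_nonneg fun ω => abs_nonneg _)]
  have i1 := Cc.integrable_sumC (ν := ν) (N := N) (M := n) hρ
  have i2 := Cc.integrable_sumF (ρ := ρ) (K := K) (M := n) (N := N) hν.abs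
  have h1 : ∀ ω : Disorder K N n, |randomPressure ω - L| ≤
      1 / N * (∑ k, maxTheta (ω.1 k).1 + ∑ v, |ω.2 v|) + (Real.log 2 + |L|) := by
    intro ω
    rw [rp_eq, Cc.X_eq]
    set H : Egy N := ∑ k, clauseE (ω.1 k) + fieldE ω.2 with hHd
    have h1 := Cc.logZ_sub_le H 0
    rw [sub_zero, Cc.logZ_zero] at h1
    have h2 : ‖H‖ ≤ ∑ k, maxTheta (ω.1 k).1 + ∑ v, |ω.2 v| := by
      refine (norm_add_le _ _).trans (add_le_add ?_ (norm_fieldE_le _))
      exact (norm_sum_le _ _).trans (Finset.sum_le_sum fun k _ => norm_clauseE_le _)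
    have h3 : |logZ H / N - Real.log 2| ≤ 1 / N * (∑ k, maxTheta (ω.1 k).1 + ∑ v, |ω.2 v|) := by
      have e : logZ H / N - Real.log 2 = 1 / N * (logZ H - N * Real.log 2) := by
        field_simp
      rw [e, abs_mul, abs_of_pos (by positivity : (0 : ℝ) < 1 / N)]
      exact mul_le_mul_of_nonneg_left (h1.trans h2) (by positivity)
    have h4 := abs_sub_le (logZ H / N) (Real.log 2) L
    have h5 := abs_sub (Real.log 2) L
    rw [abs_of_nonneg hl2] at h5
    linarith
  have h2 := int3 (μ := disorder ρ ν N n) (F := fun ω => |randomPressure ω - L|)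
    (a := Real.log 2 + |L|) (b := 1 / (N : ℝ)) (b' := 1 / (N : ℝ)) (fun ω => abs_nonneg _) i1 i2
    fun ω => by
      have := h1 ω
      linarith
  refine h2.trans_eq ?_
  rw [Cc.integral_sumC hρ, Cc.integral_sumF hν.abs]
  field_simp
  ring

end growth

variable {γ ν : Measure ℝ} [IsProbabilityMeasure γ] [IsProbabilityMeasure ν]

/-- `(1/N) max_σ H(σ)`. -/
noncomputable def gs (ω : Couplings K N M) : ℝ := (⨆ σ, energy ω σ) / N

theorem fe_bounds [NeZero N] {β : ℝ} (hβ : 0 < β) (ω : Couplings K N M) :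
    β * gs ω ≤ fe β ω ∧ fe β ω ≤ β * gs ω + Real.log 2 := by
  have hN : (0 : ℝ) < N := by exact_mod_cast NeZero.pos N
  obtain ⟨σ₀, h0⟩ : ∃ σ, energy ω σ = ⨆ σ, energy ω σ := exists_eq_ciSup_of_finite
  set u : ℝ := ⨆ σ, energy ω σ with hu
  have hle : ∀ σ, energy ω σ ≤ u := fun σ =>
    le_ciSup (f := fun σ => energy ω σ) (Set.finite_range _).bddAbove σ
  have h1 : Real.exp (β * u) ≤ ∑ σ, Real.exp (β * energy ω σ) := by
    rw [← h0]
    exact Finset.single_le_sum (f := fun σ => Real.exp (β * energy ω σ))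
      (fun σ _ => (Real.exp_pos _).le) (Finset.mem_univ σ₀)
  have h2 : ∑ σ, Real.exp (β * energy ω σ) ≤ 2 ^ N * Real.exp (β * u) := by
    calc ∑ σ, Real.exp (β * energy ω σ) ≤ ∑ _σ : Fin N → Bool, Real.exp (β * u) := by
          refine Finset.sum_le_sum fun σ _ => Real.exp_le_exp.2 ?_
          exact mul_le_mul_of_nonneg_left (hle σ) hβ.le
      _ = 2 ^ N * Real.exp (β * u) := by simp
  have hp : 0 < ∑ σ, Real.exp (β * energy ω σ) := (Real.exp_pos _).trans_le h1
  have l1 := Real.log_le_log (Real.exp_pos _) h1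
  have l2 := Real.log_le_log hp h2
  rw [Real.log_exp] at l1
  rw [Real.log_mul (by positivity) (Real.exp_pos _).ne', Real.log_exp, Real.log_pow] at l2
  have e1 : fe β ω = Real.log (∑ σ, Real.exp (β * energy ω σ)) / N := by
    unfold fe; ring
  have e2 : gs ω = u / N := rfl
  rw [e1, e2]
  constructor
  · rw [le_div_iff₀ hN]
    have e3 : β * (u / N) * N = β * u := by field_simp
    rw [e3]; exact l1
  · rw [div_le_iff₀ hN]
    have e3 : (β * (u / N) + Real.log 2) * N = N * Real.log 2 + β * u := by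
      field_simp
      ring
    rw [e3]; exact l2

section trans

variable [NeZero N] (hγ : Integrable (fun x => x) γ) (hν : Integrable (fun x => x) ν)
  (hc : ∀ β, 0 < β → InClass K (glassLaw K γ β) (ν.map fun x => β * x))

include hc in
theorem fe_int (β : ℝ) (hβ : 0 < β) (L : ℝ) :
    Integrable (fun ω : Couplings K N M => |fe β ω - L|) (couplings K γ ν N M) := by
  have h := hc β hβ
  have := h.prob_clause
  have := h.prob_field
  have h1 := rp_int (N := N) (M := M) (PT.maxTheta_int h) h.field_int L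
  have h2 := (mp_toDis (K := K) (N := N) (M := M) (γ := γ) (ν := ν) β).integrable_comp_of_integrable
    h1
  refine h2.congr (Eventually.of_forall fun ω => ?_)
  simp only [Function.comp, rp_toDis]

include hc in
theorem fe_eq (β : ℝ) (hβ : 0 < β) (L : ℝ) :
    ∫ ω : Couplings K N M, |fe β ω - L| ∂(couplings K γ ν N M) =
      ∫ ω : Disorder K N M, |randomPressure ω - L|
        ∂(disorder (glassLaw K γ β) (ν.map fun x => β * x) N M) := by
  have h := hc β hβ
  have := h.prob_clause
  have := h.prob_field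
  have h1 := rp_int (N := N) (M := M) (PT.maxTheta_int h) h.field_int L
  rw [← PT.mp_integral (mp_toDis (K := K) (N := N) (M := M) (γ := γ) (ν := ν) β)
    h1.aestronglyMeasurable]
  simp only [rp_toDis]

end trans

section main

variable (hc : ∀ β, 0 < β → InClass K (glassLaw K γ β) (ν.map fun x => β * x))
  (lam : ℝ≥0) {P : ℝ → ℝ}
  (hP : ∀ β, 0 < β → Tendsto (fun N => pressure lam (glassLaw K γ β)
    (ν.map fun x => β * x) N) atTop (𝓝 (P β)))

include hc hP in
theorem mean_det {M : ℕ → ℕ} (hM : Tendsto (fun N => (M N : ℝ) / N) atTop (𝓝 (lam : ℝ))) :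
    Gs.Mean (Ω := fun N => Couplings K N (M N))
      (fun N F => ∫ ω, F ω ∂(couplings K γ ν N (M N))) (fun N β ω => fe β ω) P where
  nonneg N F hF := integral_nonneg hF
  le N hN F a b b' β β' hF _ _ _ hβ hβ' hle := by
    have : NeZero N := ⟨by omega⟩
    exact int3 hF (fe_int (N := N) (M := M N) hc β hβ (P β))
      (fe_int (N := N) (M := M N) hc β' hβ' (P β')) hle
  lim β hβ := by
    have h := hc β hβ
    have := h.prob_clause
    have := h.prob_field
    have h1 := Cc.det_L1 (PT.maxTheta_int h) h.field_int (hP β hβ) hM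
    refine h1.congr' ?_
    filter_upwards [eventually_ge_atTop 1] with N hN
    have : NeZero N := ⟨by omega⟩
    exact (fe_eq hc β hβ (P β)).symm


theorem const_pois (N : ℕ) (hN : 1 ≤ N) (c : ℝ) :
    ∫ n, (∫ _ω, c ∂(couplings K γ ν N n)) ∂(poissonMeasure (lam * N)) = c := by
  have : NeZero N := ⟨by omega⟩
  simp_rw [integral_const, probReal_univ, one_smul]
  rw [integral_const, probReal_univ, one_smul]

include hc hP in
theorem mean_pois :
    Gs.Mean (Ω := fun N => (n : ℕ) × Couplings K N n)
      (fun N F => ∫ n, (∫ ω, F ⟨n, ω⟩ ∂(couplings K γ ν N n)) ∂(poissonMeasure (lam * N)))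
      (fun N β ω => fe β ω.2) P where
  nonneg N F hF := integral_nonneg fun n => integral_nonneg fun ω => hF _
  le N hN F a b b' β β' hF ha hb hb' hβ hβ' hle := by
    have : NeZero N := ⟨by omega⟩
    have hin : ∀ n : ℕ, ∫ ω, F ⟨n, ω⟩ ∂(couplings K γ ν N n) ≤
        a + b * (∫ ω : Couplings K N n, |fe β ω - P β| ∂(couplings K γ ν N n)) +
          b' * ∫ ω : Couplings K N n, |fe β' ω - P β'| ∂(couplings K γ ν N n) := by
      intro n
      exact int3 (fun ω => hF _) (fe_int (N := N) (M := n) hc β hβ (P β))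
        (fe_int (N := N) (M := n) hc β' hβ' (P β')) fun ω => hle ⟨n, ω⟩
    have out : ∀ β, 0 < β → Integrable (fun n : ℕ =>
        ∫ ω : Couplings K N n, |fe β ω - P β| ∂(couplings K γ ν N n))
        (poissonMeasure (lam * N)) := by
      intro β hβ
      have h := hc β hβ
      have := h.prob_clause
      have := h.prob_field
      have h1 := rp_growth (N := N) (PT.maxTheta_int h) h.field_int (P β) (lam * N)
      refine h1.congr (Eventually.of_forall fun n => ?_)
      exact (fe_eq hc β hβ (P β)).symm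
    exact int3 (fun n => integral_nonneg fun ω => hF _) (out β hβ) (out β' hβ') hin
  lim β hβ := by
    have h := hc β hβ
    have := h.prob_clause
    have := h.prob_field
    have h1 := Cc.pois_L1 (PT.maxTheta_int h) h.field_int (hP β hβ)
    refine h1.congr' ?_
    filter_upwards [eventually_ge_atTop 1] with N hN
    have : NeZero N := ⟨by omega⟩
    refine integral_congr_ae (Eventually.of_forall fun n => ?_)
    exact (fe_eq hc β hβ (P β)).symm

end main


end Vale.Agent.P168.Gl
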