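import Vale.Agent.P168.H45.GlassLim

/-! The ground state energy of diluted `K`-spin glasses: the theorem. -/

set_option autoImplicit false

open MeasureTheory ProbabilityTheory Filter
open scoped NNReal Topology

namespace Vale.Agent.P168.Gl

variable {K : ℕ} {γ ν : Measure ℝ} [IsProbabilityMeasure γ] [IsProbabilityMeasure ν]

theorem exists_P (lam : ℝ≥0)
    (hc : ∀ β, 0 < β → InClass K (glassLaw K γ β) (ν.map fun x => β * x)) :
    ∃ P : ℝ → ℝ, ∀ β, 0 < β → Tendsto (fun N : ℕ => pressure lam (glassLaw K γ β)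
      (ν.map fun x => β * x) N) atTop (𝓝 (P β)) ∧
        mezardParisi lam (glassLaw K γ β) (ν.map fun x => β * x) = (P β : EReal) := by
  have hf : ∀ β : ℝ, ∃ L : ℝ, 0 < β →
      (Tendsto (fun N : ℕ => pressure lam (glassLaw K γ β) (ν.map fun x => β * x) N) atTop (𝓝 L) ∧
        mezardParisi lam (glassLaw K γ β) (ν.map fun x => β * x) = (L : EReal)) := by
    intro β
    by_cases hβ : 0 < β
    · obtain ⟨L, hL⟩ := Fin45.formula (Fin45.wide_of_in (hc β hβ)) lam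
      exact ⟨L, fun _ => hL⟩
    · exact ⟨0, fun h => absurd h hβ⟩
  choose P hP using hf
  exact ⟨P, fun β hβ => hP β hβ⟩

theorem bd_pois (N : ℕ) (hN : 1 ≤ N) (β : ℝ) (hβ : 0 < β) (ω : (n : ℕ) × Couplings K N n) :
    β * gs ω.2 ≤ fe β ω.2 ∧ fe β ω.2 ≤ β * gs ω.2 + Real.log 2 := by
  have : NeZero N := ⟨by omega⟩
  exact fe_bounds hβ ω.2

theorem bd_det (M : ℕ → ℕ) (N : ℕ) (hN : 1 ≤ N) (β : ℝ) (hβ : 0 < β) (ω : Couplings K N (M N)) :
    β * gs ω ≤ fe β ω ∧ fe β ω ≤ β * gs ω + Real.log 2 := by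
  have : NeZero N := ⟨by omega⟩
  exact fe_bounds hβ ω

theorem lim_pois {lam : ℝ≥0} {P : ℝ → ℝ} {e : ℝ}
    (hc : ∀ β, 0 < β → InClass K (glassLaw K γ β) (ν.map fun x => β * x))
    (hP : ∀ β, 0 < β → Tendsto (fun N => pressure lam (glassLaw K γ β)
      (ν.map fun x => β * x) N) atTop (𝓝 (P β)))
    (he : ∀ β, 0 < β → e ≤ P β / β ∧ P β / β ≤ e + Real.log 2 / β) :
    Tendsto (fun N : ℕ => ∫ n : ℕ, (∫ ω : Couplings K N n, |gs ω - e|
      ∂(couplings K γ ν N n)) ∂(poissonMeasure (lam * N))) atTop (𝓝 0) := by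
  have h0 := mean_pois hc lam hP
  have h1 := Gs.ground h0 (Y := fun _ ω => gs ω.2) (e := e)
  exact h1 (fun N hN β hβ ω => bd_pois N hN β hβ ω) he

theorem lim_det {lam : ℝ≥0} {P : ℝ → ℝ} {e : ℝ}
    (hc : ∀ β, 0 < β → InClass K (glassLaw K γ β) (ν.map fun x => β * x))
    (hP : ∀ β, 0 < β → Tendsto (fun N => pressure lam (glassLaw K γ β)
      (ν.map fun x => β * x) N) atTop (𝓝 (P β)))
    (he : ∀ β, 0 < β → e ≤ P β / β ∧ P β / β ≤ e + Real.log 2 / β)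
    {M : ℕ → ℕ} (hM : Tendsto (fun N => (M N : ℝ) / N) atTop (𝓝 (lam : ℝ))) :
    Tendsto (fun N : ℕ => ∫ ω : Couplings K N (M N), |gs ω - e|
      ∂(couplings K γ ν N (M N))) atTop (𝓝 0) := by
  have h0 := mean_det hc lam hP hM
  have h1 := Gs.ground h0 (Y := fun _ ω => gs ω) (e := e)
  exact h1 (fun N hN β hβ ω => bd_det M N hN β hβ ω) he

/-- **Ground state energy of diluted `K`-spin glasses.** -/
theorem main (hK : 2 ≤ K) (hK2 : Even K)
    (hγ : Integrable (fun x => x) γ) (hν : Integrable (fun x => x) ν)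
    (hs : γ.map (fun x => -x) = γ ∨ ∀ᵐ x ∂γ, x ≤ 0) (lam : ℝ≥0) :
    ∃ (P : ℝ → ℝ) (e : ℝ),
      (∀ β, 0 < β → InClass K (glassLaw K γ β) (ν.map fun x => β * x) ∧
        mezardParisi lam (glassLaw K γ β) (ν.map fun x => β * x) = (P β : EReal)) ∧
      Tendsto (fun β => P β / β) atTop (𝓝 e) ∧ (∀ β, 0 < β → e ≤ P β / β) ∧
      Tendsto (fun N : ℕ => ∫ n : ℕ, (∫ ω : Couplings K N n, |gs ω - e|
        ∂(couplings K γ ν N n)) ∂(poissonMeasure (lam * N))) atTop (𝓝 0) ∧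
      ∀ M : ℕ → ℕ, Tendsto (fun N => (M N : ℝ) / N) atTop (𝓝 (lam : ℝ)) →
        Tendsto (fun N : ℕ => ∫ ω : Couplings K N (M N), |gs ω - e|
          ∂(couplings K γ ν N (M N))) atTop (𝓝 0) := by
  have hc : ∀ β, 0 < β → InClass K (glassLaw K γ β) (ν.map fun x => β * x) :=
    fun β hβ => inClass hK hK2 hγ hν hs hβ.le
  obtain ⟨P, hP⟩ := exists_P lam hc
  have h0 := mean_pois hc lam (P := P) fun β hβ => (hP β hβ).1
  have h1 := Gs.exists_e h0 (fun N hN c => const_pois lam N hN c) (Y := fun _ ω => gs ω.2)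
  obtain ⟨e, he⟩ := h1 fun N hN β hβ ω => bd_pois N hN β hβ ω
  exact ⟨P, e, fun β hβ => ⟨hc β hβ, (hP β hβ).2⟩, Gs.tendsto_e he, fun β hβ => (he β hβ).1,
    lim_pois hc (fun β hβ => (hP β hβ).1) he, fun M hM => lim_det hc (fun β hβ => (hP β hβ).1) he hM⟩

end Vale.Agent.P168.Gl
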