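import Vale.Agent.P168.Bdl.B1

/-!
The positivity argument behind the Franz-Leone / Panchenko-Talagrand interpolation, for generators
built from NONNEGATIVE functions: then no parity of the number of variables of a clause is needed.
The proofs follow `Vale.Agent.P168.PT` (there: functions with values in `[-1, 1]` and an even
number of variables).
-/

set_option autoImplicit false
set_option linter.unusedSectionVars false

open MeasureTheory ProbabilityTheory Filter
open scoped NNReal Topology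

namespace Vale.Agent.P168.PN

open Vale.Agent.P168.PT

variable {K : ℕ} {𝔹 X : Type} [MeasurableSpace 𝔹] [MeasurableSpace X]

/-- Positivity against the generators built from nonnegative functions. -/
def Pos (bb : 𝔹 → ℝ) (β : Measure 𝔹) (PX : Measure X) (L : 𝔹 × (Fin K → X) → ℝ) : Prop :=
  ∀ (n : ℕ) (φ : X → ℝ), Measurable φ → (∀ x, |φ x| ≤ 1) → (∀ x, 0 ≤ φ x) →
    0 ≤ ∫ z, L z * gen bb n φ z ∂(mm K β PX)

/-- The dual cone. -/
def Good (bb : 𝔹 → ℝ) (β : Measure 𝔹) (PX : Measure X) (Q : 𝔹 × (Fin K → X) → ℝ) : Prop :=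
  Bdm Q ∧ ∀ L : 𝔹 × (Fin K → X) → ℝ, Bdm L → Pos bb β PX L → 0 ≤ ∫ z, L z * Q z ∂(mm K β PX)

section Good

variable {bb : 𝔹 → ℝ} {β : Measure 𝔹} {PX : Measure X} [IsProbabilityMeasure β]
  [IsFiniteMeasure PX] {Q Q' : 𝔹 × (Fin K → X) → ℝ}

theorem Good.of_gen (hb : Measurable bb) (hb1 : ∀ b, |bb b| ≤ 1) (n : ℕ) {φ : X → ℝ}
    (hφ : Measurable φ) (hφ1 : ∀ x, |φ x| ≤ 1) (hφ0 : ∀ x, 0 ≤ φ x) :
    Good bb β PX (gen (K := K) bb n φ) :=
  ⟨gen_bdm hb hb1 n hφ hφ1, fun _ _ hL => hL n φ hφ hφ1 hφ0⟩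

theorem Good.one (hb : Measurable bb) (hb1 : ∀ b, |bb b| ≤ 1) :
    Good bb β PX (fun _ : 𝔹 × (Fin K → X) => (1 : ℝ)) := by
  have h := Good.of_gen (K := K) (β := β) (PX := PX) hb hb1 0 (φ := fun _ => (1 : ℝ))
    measurable_const (fun x => by simp) (fun _ => zero_le_one)
  have e : gen (K := K) bb 0 (fun _ : X => (1 : ℝ)) = fun _ => 1 := by
    funext z; simp only [gen, pow_zero, Finset.prod_const_one, mul_one]
  rwa [e] at h

theorem Good.add (h : Good bb β PX Q) (h' : Good bb β PX Q') :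
    Good bb β PX fun z => Q z + Q' z := by
  refine ⟨h.1.add h'.1, fun L hL hP => ?_⟩
  simp_rw [mul_add]
  rw [integral_add ((hL.mul h.1).integrable _) ((hL.mul h'.1).integrable _)]
  exact add_nonneg (h.2 L hL hP) (h'.2 L hL hP)

theorem Good.smul (h : Good bb β PX Q) {c : ℝ} (hc : 0 ≤ c) :
    Good bb β PX fun z => c * Q z := by
  refine ⟨h.1.smul c, fun L hL hP => ?_⟩
  have : ∀ z, L z * (c * Q z) = c * (L z * Q z) := fun z => by ring
  simp_rw [this]
  rw [integral_const_mul]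
  exact mul_nonneg hc (h.2 L hL hP)

theorem Good.zero : Good bb β PX (fun _ : 𝔹 × (Fin K → X) => (0 : ℝ)) :=
  ⟨Bdm.const 0, fun L _ _ => by simp⟩

theorem Good.finsum {ι : Type*} (s : Finset ι) {F : ι → 𝔹 × (Fin K → X) → ℝ}
    (h : ∀ i ∈ s, Good bb β PX (F i)) : Good bb β PX fun z => ∑ i ∈ s, F i z := by
  classical
  induction s using Finset.induction_on with
  | empty => simpa using Good.zero (K := K) (bb := bb) (β := β) (PX := PX)
  | insert i s hi ih =>
    have h1 := (h i (Finset.mem_insert_self i s)).add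
      (ih fun j hj => h j (Finset.mem_insert_of_mem hj))
    simpa [Finset.sum_insert hi] using h1

theorem Good.mul (hb : Measurable bb) (hb1 : ∀ b, |bb b| ≤ 1) (h : Good bb β PX Q)
    (h' : Good bb β PX Q') : Good bb β PX fun z => Q z * Q' z := by
  refine ⟨h.1.mul h'.1, fun L hL hP => ?_⟩
  have h1 : ∀ z, L z * (Q z * Q' z) = (L z * Q z) * Q' z := fun z => by ring
  simp_rw [h1]
  refine h'.2 (fun z => L z * Q z) (hL.mul h.1) fun n φ hφ hφ1 hφ0 => ?_
  have h2 : ∀ z, L z * Q z * gen bb n φ z = (L z * gen bb n φ z) * Q z := fun z => by ring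
  simp_rw [h2]
  refine h.2 (fun z => L z * gen bb n φ z) (hL.mul (gen_bdm hb hb1 n hφ hφ1))
    fun n' φ' hφ' hφ1' hφ0' => ?_
  have h3 : ∀ z, L z * gen bb n φ z * gen bb n' φ' z =
      L z * gen bb (n + n') (fun x => φ x * φ' x) z := fun z => by
    rw [mul_assoc, gen_mul]
  simp_rw [h3]
  refine hP (n + n') _ (hφ.mul hφ') (fun x => ?_) fun x => mul_nonneg (hφ0 x) (hφ0' x)
  rw [abs_mul]
  exact mul_le_one₀ (hφ1 x) (abs_nonneg _) (hφ1' x)

theorem Good.pow (hb : Measurable bb) (hb1 : ∀ b, |bb b| ≤ 1) (h : Good bb β PX Q) (n : ℕ) :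
    Good bb β PX fun z => Q z ^ n := by
  induction n with
  | zero => simpa using Good.one (K := K) (β := β) (PX := PX) hb hb1
  | succ n ih => simpa [pow_succ] using ih.mul hb hb1 h

theorem Good.of_tendsto {F : ℕ → 𝔹 × (Fin K → X) → ℝ} (hF : ∀ n, Good bb β PX (F n)) (C : ℝ)
    (hC : ∀ n z, |F n z| ≤ C) (hlim : ∀ z, Tendsto (fun n => F n z) atTop (𝓝 (Q z))) :
    Good bb β PX Q := by
  have hm : Measurable Q := measurable_of_tendsto_metrizable (fun n => (hF n).1.1)
    (tendsto_pi_nhds.2 hlim)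
  have hQC : ∀ z, |Q z| ≤ C := fun z => le_of_tendsto (hlim z).abs (Eventually.of_forall
    fun n => hC n z)
  refine ⟨⟨hm, C, hQC⟩, fun L hL hP => ?_⟩
  obtain ⟨hLm, D, hD⟩ := hL
  have hlim2 : Tendsto (fun n => ∫ z, L z * F n z ∂(mm K β PX)) atTop
      (𝓝 (∫ z, L z * Q z ∂(mm K β PX))) := by
    refine tendsto_integral_of_dominated_convergence (fun _ => |D| * |C|) (fun n => ?_)
      (integrable_const _) (fun n => Eventually.of_forall fun z => ?_)
      (Eventually.of_forall fun z => (hlim z).const_mul _)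
    · exact (hLm.mul (hF n).1.1).aestronglyMeasurable
    · rw [Real.norm_eq_abs, abs_mul]
      exact mul_le_mul ((hD z).trans (le_abs_self _)) ((hC n z).trans (le_abs_self _))
        (abs_nonneg _) (abs_nonneg _)
  exact ge_of_tendsto hlim2 (Eventually.of_forall fun n => (hF n).2 L ⟨hLm, D, hD⟩ hP)

theorem Good.series (hb : Measurable bb) (hb1 : ∀ b, |bb b| ≤ 1) (h : Good bb β PX Q)
    {c : ℕ → ℝ} (hc : ∀ n, 0 ≤ c n) {q : ℝ} (hq : ∀ z, |Q z| ≤ q)
    (hs : Summable fun n => c n * q ^ (n + 1)) {R : 𝔹 × (Fin K → X) → ℝ}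
    (hR : ∀ z, HasSum (fun n => c n * Q z ^ (n + 1)) (R z)) : Good bb β PX R := by
  refine Good.of_tendsto (F := fun N z => ∑ n ∈ Finset.range N, c n * Q z ^ (n + 1))
    (fun N => ?_) (∑' n, c n * q ^ (n + 1)) (fun N z => ?_) fun z => (hR z).tendsto_sum_nat
  · exact Good.finsum _ fun n _ => (h.pow hb hb1 (n + 1)).smul (hc n)
  · have hq0 : 0 ≤ q := (abs_nonneg _).trans (hq z)
    calc |∑ n ∈ Finset.range N, c n * Q z ^ (n + 1)|
        ≤ ∑ n ∈ Finset.range N, |c n * Q z ^ (n + 1)| := Finset.abs_sum_le_sum_abs _ _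
      _ ≤ ∑ n ∈ Finset.range N, c n * q ^ (n + 1) := by
          refine Finset.sum_le_sum fun n _ => ?_
          rw [abs_mul, abs_of_nonneg (hc n), abs_pow]
          exact mul_le_mul_of_nonneg_left (pow_le_pow_left₀ (abs_nonneg _) (hq z) _) (hc n)
      _ ≤ ∑' n, c n * q ^ (n + 1) :=
          hs.sum_le_tsum _ fun n _ => mul_nonneg (hc n) (pow_nonneg hq0 _)

theorem Good.one_sub_rpow (hb : Measurable bb) (hb1 : ∀ b, |bb b| ≤ 1) (h : Good bb β PX Q)
    {q : ℝ} (hq0 : 0 ≤ q) (hq1 : q < 1) (hq : ∀ z, |Q z| ≤ q) {a : ℝ} (ha : 0 < a) (ha1 : a ≤ 1) :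
    Good bb β PX fun z => 1 - (1 - Q z) ^ a := by
  refine h.series hb hb1 (choose_sign ha ha1) hq ?_ fun z =>
    one_sub_rpow_hasSum ((hq z).trans_lt hq1)
  exact (one_sub_rpow_hasSum (a := a) (by rwa [abs_of_nonneg hq0])).summable

theorem Good.neg_log (hb : Measurable bb) (hb1 : ∀ b, |bb b| ≤ 1) (h : Good bb β PX Q)
    {q : ℝ} (hq0 : 0 ≤ q) (hq1 : q < 1) (hq : ∀ z, |Q z| ≤ q) :
    Good bb β PX fun z => -Real.log (1 - Q z) := by
  have hh : ∀ {x : ℝ}, |x| < 1 →
      HasSum (fun n : ℕ => (1 / ((n : ℝ) + 1)) * x ^ (n + 1)) (-Real.log (1 - x)) := by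
    intro x hx
    have h1 := Real.hasSum_pow_div_log_of_abs_lt_one hx
    have e : (fun n : ℕ => (1 / ((n : ℝ) + 1)) * x ^ (n + 1)) =
        fun n : ℕ => x ^ (n + 1) / ((n : ℝ) + 1) := by
      funext n; ring
    rw [e]; exact h1
  refine h.series hb hb1 (c := fun n => 1 / ((n : ℝ) + 1)) (fun n => by positivity) hq
    (hh (by rwa [abs_of_nonneg hq0])).summable fun z => hh ((hq z).trans_lt hq1)

theorem Good.param {U : Type} [MeasurableSpace U] {PU : Measure U} [IsFiniteMeasure PU]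
    {F : U → 𝔹 × (Fin K → X) → ℝ} (hF : Bdm fun x : U × (𝔹 × (Fin K → X)) => F x.1 x.2)
    (hG : ∀ u, Good bb β PX (F u)) : Good bb β PX fun z => ∫ u, F u z ∂PU := by
  obtain ⟨hm, C, hC⟩ := hF
  have hm2 : Measurable fun x : (𝔹 × (Fin K → X)) × U => F x.2 x.1 := hm.comp measurable_swap
  refine ⟨⟨?_, |C| * PU.real Set.univ, fun z => ?_⟩, fun L hL hP => ?_⟩
  · exact (StronglyMeasurable.integral_prod_right (f := fun z u => F u z)
      hm2.stronglyMeasurable).measurable
  · have := norm_integral_le_of_norm_le_const (μ := PU) (f := fun u => F u z) (C := |C|)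
      (Eventually.of_forall fun u => (hC (u, z)).trans (le_abs_self C))
    exact this
  · have h1 : ∀ z, L z * ∫ u, F u z ∂PU = ∫ u, L z * F u z ∂PU := fun z =>
      (integral_const_mul _ _).symm
    simp_rw [h1]
    rw [integral_integral_swap]
    · exact integral_nonneg fun u => (hG u).2 L hL hP
    · have h2 : Bdm fun x : (𝔹 × (Fin K → X)) × U => L x.1 * F x.2 x.1 :=
        (hL.comp measurable_fst).mul ⟨hm2, C, fun x => hC (x.2, x.1)⟩
      exact h2.integrable _

end Good

section Coord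

variable {bb : 𝔹 → ℝ} {β : Measure 𝔹} {PX : Measure X} [IsProbabilityMeasure β]
  [IsFiniteMeasure PX] {Y : Type} [MeasurableSpace Y] {PY : Measure Y} [IsProbabilityMeasure PY]


theorem Good.coord {Q' : 𝔹 × (Fin K → X × Y) → ℝ} (h : Good bb β (PX.prod PY) Q') 
    (hb : Measurable bb) (hb1 : ∀ b, |bb b| ≤ 1) :
    Good bb β PX fun z => ∫ y, Q' (zipp (z, y)) ∂(Measure.pi fun _ => PY) := by
  have hmz : Measurable (zipp (K := K) (𝔹 := 𝔹) (X := X) (Y := Y)) :=
    (zipp_mp (K := K) (β := β) (PX := PX) (PY := PY)).measurable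
  obtain ⟨⟨hm, C, hC⟩, hG⟩ := h
  have hms : StronglyMeasurable fun z : 𝔹 × (Fin K → X) =>
      ∫ y, Q' (zipp (z, y)) ∂(Measure.pi fun _ => PY) :=
    StronglyMeasurable.integral_prod_right (f := fun z y => Q' (zipp (z, y)))
      (hm.comp hmz).stronglyMeasurable
  refine ⟨⟨hms.measurable, C, fun z => ?_⟩, fun L hL hP => ?_⟩
  · have := norm_integral_le_of_norm_le_const (μ := Measure.pi fun _ : Fin K => PY)
      (f := fun y => Q' (zipp (z, y))) (C := C) (Eventually.of_forall fun u => hC _)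
    simpa using this
  · have hL' : Bdm fun z : 𝔹 × (Fin K → X × Y) => L (z.1, fun j => (z.2 j).1) := by
      refine hL.comp (measurable_fst.prodMk (measurable_pi_lambda _ fun j => ?_))
      exact measurable_fst.comp ((measurable_pi_apply j).comp measurable_snd)
    have h1 := hG (fun z => L (z.1, fun j => (z.2 j).1)) hL' ?_
    · rw [integral_zipp (hL'.mul ⟨hm, C, hC⟩)] at h1
      refine h1.trans_eq ?_
      congr 1
      funext z
      simp only [zipp]
      rw [integral_const_mul]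
    · intro n φ hφ hφ1 hφ0
      rw [integral_zipp (hL'.mul (gen_bdm hb hb1 n hφ hφ1))]
      have hφm : Measurable fun x => ∫ y, φ (x, y) ∂PY :=
        (StronglyMeasurable.integral_prod_right (f := fun x y => φ (x, y))
          hφ.stronglyMeasurable).measurable
      have h2 := hP n (fun x => ∫ y, φ (x, y) ∂PY) hφm (fun x => by
        have := norm_integral_le_of_norm_le_const (μ := PY)
          (f := fun y => φ (x, y)) (C := 1) (Eventually.of_forall fun u => hφ1 _)
        simpa using this) (fun x => integral_nonneg fun y => hφ0 _)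
      refine h2.trans_eq ?_
      congr 1
      funext z
      simp only [zipp, gen]
      rw [integral_const_mul, integral_const_mul]
      congr 2
      exact (integral_fintype_prod_eq_prod (𝕜 := ℝ) (fun j y => φ (z.2 j, y))).symm

end Coord

end Vale.Agent.P168.PN

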