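import Vale.Agent.P168.H45.Dev

/-! Convergence in `L¹` of the random pressure, for a Poisson and for a deterministic number of
interactions. -/

set_option autoImplicit false
set_option linter.unusedSectionVars false

open MeasureTheory ProbabilityTheory Filter
open scoped NNReal Topology

namespace Vale.Agent.P168.Cc

open Vale.Agent.P168.PT (Bdm cons_mp)

variable {K N M : ℕ}

/-- The mean of the log partition function. -/
noncomputable def mn (ρ : Measure (Clause K)) (ν : Measure ℝ) (N M : ℕ) : ℝ :=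
  ∫ ω, X ω ∂(disorder ρ ν N M)

section

variable {ρ : Measure (Clause K)} [IsProbabilityMeasure ρ] {ν : Measure ℝ}
  [IsProbabilityMeasure ν] [NeZero N] (hρ : Integrable (maxTheta : Clause K → ℝ) ρ)
  (hν : Integrable (fun h => h) ν)

theorem X_cons (x : Clause K × (Fin K → Fin N)) (ω : Fin M → Clause K × (Fin K → Fin N))
    (h : Fin N → ℝ) : |X ((Fin.cons x ω, h) : Disorder K N (M + 1)) - X ((ω, h) : Disorder K N M)| ≤
      maxTheta x.1 := by
  rw [X_eq, X_eq]
  refine (logZ_sub_le _ _).trans ?_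
  simp only [Fin.sum_univ_succ, Fin.cons_zero, Fin.cons_succ]
  have e : (clauseE x + ∑ i, clauseE (ω i) + fieldE h : Egy N) -
      (∑ k, clauseE (ω k) + fieldE h) = clauseE x := by abel
  rw [e]
  exact norm_clauseE_le x

/-- Adding one interaction, as a measure preserving map. -/
theorem consD_mp : MeasurePreserving
    (fun p : (Clause K × (Fin K → Fin N)) × Disorder K N M =>
      ((Fin.cons p.1 p.2.1, p.2.2) : Disorder K N (M + 1)))
    ((ρ.prod (Measure.pi fun _ : Fin K => unif N)).prod (disorder ρ ν N M))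
    (disorder ρ ν N (M + 1)) := by
  have h1 := (measurePreserving_prodAssoc (ρ.prod (Measure.pi fun _ : Fin K => unif N))
    (Measure.pi fun _ : Fin M => ρ.prod (Measure.pi fun _ : Fin K => unif N))
    (Measure.pi fun _ : Fin N => ν)).symm
  have h2 := (cons_mp (ρ.prod (Measure.pi fun _ : Fin K => unif N)) M).prod
    (MeasurePreserving.id (Measure.pi fun _ : Fin N => ν))
  exact h2.comp h1

include hρ hν in
theorem mn_succ : |mn ρ ν N (M + 1) - mn ρ ν N M| ≤ ∫ c, maxTheta c ∂ρ := by
  have hmp := consD_mp (K := K) (N := N) (M := M) (ρ := ρ) (ν := ν)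
  have hX1 : Integrable (X : Disorder K N (M + 1) → ℝ) (disorder ρ ν N (M + 1)) :=
    integrable_X hρ hν
  have hX0 : Integrable (X : Disorder K N M → ℝ) (disorder ρ ν N M) := integrable_X hρ hν
  have h1 : mn ρ ν N (M + 1) = ∫ p : (Clause K × (Fin K → Fin N)) × Disorder K N M,
      X ((Fin.cons p.1 p.2.1, p.2.2) : Disorder K N (M + 1))
      ∂((ρ.prod (Measure.pi fun _ : Fin K => unif N)).prod (disorder ρ ν N M)) :=
    (PT.mp_integral hmp measurable_X.aestronglyMeasurable).symm
  have hX0' : Integrable (fun p : (Clause K × (Fin K → Fin N)) × Disorder K N M => X p.2)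
      ((ρ.prod (Measure.pi fun _ : Fin K => unif N)).prod (disorder ρ ν N M)) :=
    hX0.comp_snd _
  have hX1' : Integrable (fun p : (Clause K × (Fin K → Fin N)) × Disorder K N M =>
      X ((Fin.cons p.1 p.2.1, p.2.2) : Disorder K N (M + 1)))
      ((ρ.prod (Measure.pi fun _ : Fin K => unif N)).prod (disorder ρ ν N M)) :=
    hmp.integrable_comp_of_integrable hX1
  have h0 : mn ρ ν N M = ∫ p : (Clause K × (Fin K → Fin N)) × Disorder K N M, X p.2
      ∂((ρ.prod (Measure.pi fun _ : Fin K => unif N)).prod (disorder ρ ν N M)) := by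
    rw [integral_prod _ hX0']
    change mn ρ ν N M = ∫ _x : Clause K × (Fin K → Fin N), mn ρ ν N M
      ∂(ρ.prod (Measure.pi fun _ : Fin K => unif N))
    rw [integral_const, probReal_univ, one_smul]
  have hm' : Integrable (fun p : (Clause K × (Fin K → Fin N)) × Disorder K N M =>
      maxTheta p.1.1)
      ((ρ.prod (Measure.pi fun _ : Fin K => unif N)).prod (disorder ρ ν N M)) :=
    (hρ.comp_fst (Measure.pi fun _ : Fin K => unif N)).comp_fst (disorder ρ ν N M)
  have e2 : ∫ p : (Clause K × (Fin K → Fin N)) × Disorder K N M, maxTheta p.1.1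
      ∂((ρ.prod (Measure.pi fun _ : Fin K => unif N)).prod (disorder ρ ν N M)) =
      ∫ c, maxTheta c ∂ρ := by
    have hmp2 : MeasurePreserving
        (fun p : (Clause K × (Fin K → Fin N)) × Disorder K N M => p.1.1)
        ((ρ.prod (Measure.pi fun _ : Fin K => unif N)).prod (disorder ρ ν N M)) ρ :=
      (measurePreserving_fst (μ := ρ) (ν := Measure.pi fun _ : Fin K => unif N)).comp
        measurePreserving_fst
    exact PT.mp_integral hmp2 hρ.aestronglyMeasurable
  rw [h1, h0, ← integral_sub hX1' hX0', ← e2]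
  refine abs_integral_le_integral_abs.trans (integral_mono (hX1'.sub hX0').abs hm' fun p => ?_)
  exact X_cons _ _ _

include hρ hν in
theorem mn_lip (m n : ℕ) : |mn ρ ν N m - mn ρ ν N n| ≤ (∫ c, maxTheta c ∂ρ) * |(m : ℝ) - n| := by
  have key : ∀ m k : ℕ, |mn ρ ν N (m + k) - mn ρ ν N m| ≤ (∫ c, maxTheta c ∂ρ) * k := by
    intro m k
    induction k with
    | zero => simp
    | succ k ih =>
      have h1 := mn_succ (K := K) (N := N) (M := m + k) (ρ := ρ) (ν := ν) hρ hν
      have h2 := abs_sub_le (mn ρ ν N (m + k + 1)) (mn ρ ν N (m + k)) (mn ρ ν N m)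
      rw [← add_assoc]
      push_cast
      linarith
  rcases le_total m n with h | h
  · obtain ⟨k, rfl⟩ := Nat.exists_eq_add_of_le h
    have := key m k
    rw [abs_sub_comm]
    refine this.trans_eq ?_
    push_cast
    rw [show (m : ℝ) - (m + k) = -k by ring, abs_neg, Nat.abs_cast]
  · obtain ⟨k, rfl⟩ := Nat.exists_eq_add_of_le h
    have := key n k
    refine this.trans_eq ?_
    push_cast
    rw [show (n : ℝ) + k - n = k by ring, Nat.abs_cast]

include hρ hν in
theorem pressure_mn (lam : ℝ≥0) :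
    pressure lam ρ ν N = 1 / (N : ℝ) * ∫ n, mn ρ ν N n ∂(poissonMeasure (lam * N)) := by
  unfold pressure
  congr 2
  funext n
  unfold mn X disorder
  have h := integrable_X (K := K) (N := N) (M := n) (ρ := ρ) (ν := ν) hρ hν
  unfold X disorder at h
  rw [integral_prod _ h]

end

/-- The second moment of the centred Poisson law. -/
theorem pois_var (a : ℝ≥0) : ∫ n : ℕ, ((n : ℝ) - a) ^ 2 ∂(poissonMeasure a) = a := by
  have h2 := pois_descFactorial a 2 1
  have e2 : ∀ n : ℕ, ((n.descFactorial 2 : ℕ) : ℝ) * 1 ^ (n - 2) = (n : ℝ) ^ 2 - n := by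
    intro n
    rw [one_pow, mul_one, Nat.descFactorial_succ, Nat.descFactorial_one]
    rcases Nat.eq_zero_or_pos n with h | h
    · subst h; simp
    · push_cast [Nat.cast_sub (show 1 ≤ n from h)]
      ring
  simp_rw [e2] at h2
  rw [sub_self, mul_zero, Real.exp_zero, mul_one] at h2
  have g1 : ExpGrowth fun l : ℕ => (l : ℝ) :=
    expGrowth_of_linear (c := 0) (d := 1) (fun n => by simp) le_rfl zero_le_one
  have g2 : ExpGrowth fun l : ℕ => (l : ℝ) ^ 2 := by
    refine ⟨1, 4, zero_le_one, by norm_num, fun n => ?_⟩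
    have := nat_le_two_pow_real n
    rw [abs_of_nonneg (by positivity), one_mul]
    calc (n : ℝ) ^ 2 ≤ (2 ^ n) ^ 2 := pow_le_pow_left₀ (Nat.cast_nonneg _) this 2
      _ = 4 ^ n := by rw [← pow_mul, mul_comm, pow_mul]; norm_num
  have i1 := g1.integrable a
  have i2 := g2.integrable a
  have e : ∀ n : ℕ, ((n : ℝ) - a) ^ 2 = ((n : ℝ) ^ 2 - n) + ((1 - 2 * a) * n + (a : ℝ) ^ 2) :=
    fun n => by ring
  simp_rw [e]
  have i3 : Integrable (fun n : ℕ => (n : ℝ) ^ 2 - n) (poissonMeasure a) := i2.sub i1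
  have i4 : Integrable (fun n : ℕ => (1 - 2 * (a : ℝ)) * n) (poissonMeasure a) := i1.const_mul _
  have i5 : Integrable (fun n : ℕ => (1 - 2 * (a : ℝ)) * n + (a : ℝ) ^ 2) (poissonMeasure a) :=
    i4.add (integrable_const _)
  rw [integral_add i3 i5, integral_add i4 (integrable_const _), h2, integral_const_mul,
    pois_mean, integral_const, probReal_univ, one_smul]
  ring

theorem pois_abs_int (a : ℝ≥0) (b : ℝ) :
    Integrable (fun n : ℕ => |(n : ℝ) - b|) (poissonMeasure a) := by
  have g1 : ExpGrowth fun l : ℕ => (l : ℝ) :=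
    expGrowth_of_linear (c := 0) (d := 1) (fun n => by simp) le_rfl zero_le_one
  exact ((g1.integrable a).sub (integrable_const _)).abs

/-- The mean absolute deviation of the Poisson law. -/
theorem pois_dev (a : ℝ≥0) {ε : ℝ} (hε : 0 < ε) :
    ∫ n : ℕ, |(n : ℝ) - a| ∂(poissonMeasure a) ≤ ε * a + 1 / (4 * ε) := by
  have h1 : ∀ n : ℕ, |(n : ℝ) - a| ≤ ε * ((n : ℝ) - a) ^ 2 + 1 / (4 * ε) := by
    intro n
    rw [← sq_abs ((n : ℝ) - a)]
    set y := |(n : ℝ) - a|
    have e : ε * y ^ 2 + 1 / (4 * ε) - y = (2 * ε * y - 1) ^ 2 / (4 * ε) := by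
      field_simp
      ring
    have h : 0 ≤ (2 * ε * y - 1) ^ 2 / (4 * ε) := by positivity
    linarith
  have g2 : ExpGrowth fun n : ℕ => ((n : ℝ) - a) ^ 2 := by
    refine ⟨(1 + a) ^ 2, 4, by positivity, by norm_num, fun n => ?_⟩
    have h2 := nat_le_two_pow_real n
    have h3 : (1 : ℝ) ≤ 2 ^ n := one_le_pow₀ (by norm_num)
    have ha : (0 : ℝ) ≤ a := a.2
    have h4 : |(n : ℝ) - a| ≤ (1 + a) * 2 ^ n := by
      rw [abs_le]
      have hn : (0 : ℝ) ≤ n := Nat.cast_nonneg n
      constructor <;> nlinarith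
    have h5 : |((n : ℝ) - a) ^ 2| = |(n : ℝ) - a| ^ 2 := abs_pow _ 2
    change |((n : ℝ) - a) ^ 2| ≤ _
    rw [h5]
    calc |(n : ℝ) - a| ^ 2 ≤ ((1 + a) * 2 ^ n) ^ 2 := pow_le_pow_left₀ (abs_nonneg _) h4 2
      _ = (1 + a) ^ 2 * 4 ^ n := by
        rw [mul_pow, ← pow_mul, mul_comm n 2, pow_mul]; norm_num
  have i2 := g2.integrable a
  have i3 : Integrable (fun n : ℕ => ε * ((n : ℝ) - a) ^ 2 + 1 / (4 * ε)) (poissonMeasure a) :=
    (i2.const_mul ε).add (integrable_const _)
  have h2 := integral_mono (pois_abs_int a a) i3 h1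
  rw [integral_add (i2.const_mul ε) (integrable_const _), integral_const_mul, pois_var,
    integral_const, probReal_univ, one_smul] at h2
  exact h2

section

variable {ρ : Measure (Clause K)} [IsProbabilityMeasure ρ] {ν : Measure ℝ}
  [IsProbabilityMeasure ν] (hρ : Integrable (maxTheta : Clause K → ℝ) ρ)
  (hν : Integrable (fun h => h) ν)

include hρ hν in
theorem mn_int [NeZero N] (a : ℝ≥0) : Integrable (fun n => mn ρ ν N n) (poissonMeasure a) := by
  have h0 : 0 ≤ ∫ c, maxTheta c ∂ρ := integral_nonneg maxTheta_nonneg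
  refine (expGrowth_of_linear (c := |mn ρ ν N 0|) (d := ∫ c, maxTheta c ∂ρ) (fun n => ?_)
    (abs_nonneg _) h0).integrable a
  have h1 := mn_lip (N := N) hρ hν n 0
  rw [Nat.cast_zero, sub_zero, Nat.abs_cast] at h1
  have h2 := abs_add_le (mn ρ ν N n - mn ρ ν N 0) (mn ρ ν N 0)
  rw [sub_add_cancel] at h2
  linarith

include hρ hν in
/-- Comparison of the mean for `m` interactions with the pressure. -/
theorem mn_pressure [NeZero N] (lam : ℝ≥0) (m : ℕ) {ε : ℝ} (hε : 0 < ε) :
    |mn ρ ν N m / N - pressure lam ρ ν N| ≤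
      (∫ c, maxTheta c ∂ρ) * (|(m : ℝ) - lam * N| / N + ε * lam + 1 / (4 * ε) / N) := by
  have hN : (0 : ℝ) < N := by exact_mod_cast NeZero.pos N
  have hT0 : 0 ≤ ∫ c, maxTheta c ∂ρ := integral_nonneg maxTheta_nonneg
  have h1 : |mn ρ ν N m - ∫ n, mn ρ ν N n ∂(poissonMeasure (lam * N))| ≤
      (∫ c, maxTheta c ∂ρ) * (|(m : ℝ) - lam * N| + (ε * (lam * N) + 1 / (4 * ε))) := by
    have e : mn ρ ν N m - ∫ n, mn ρ ν N n ∂(poissonMeasure (lam * N)) =
        ∫ n, (mn ρ ν N m - mn ρ ν N n) ∂(poissonMeasure (lam * N)) := by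
      rw [integral_sub (integrable_const _) (mn_int hρ hν _), integral_const, probReal_univ,
        one_smul]
    rw [e]
    have hd := pois_dev (lam * N) hε
    have i0 := pois_abs_int (lam * N) ((lam * N : ℝ≥0) : ℝ)
    calc |∫ n, (mn ρ ν N m - mn ρ ν N n) ∂(poissonMeasure (lam * N))|
        ≤ ∫ n, |mn ρ ν N m - mn ρ ν N n| ∂(poissonMeasure (lam * N)) :=
          abs_integral_le_integral_abs
      _ ≤ ∫ n : ℕ, (∫ c, maxTheta c ∂ρ) * (|(m : ℝ) - lam * N| +
            |(n : ℝ) - ((lam * N : ℝ≥0) : ℝ)|) ∂(poissonMeasure (lam * N)) := by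
          refine integral_mono (((integrable_const _).sub (mn_int hρ hν _)).abs)
            (((integrable_const _).add i0).const_mul _) fun n => ?_
          refine (mn_lip hρ hν m n).trans (mul_le_mul_of_nonneg_left ?_ hT0)
          have := abs_sub_le (m : ℝ) (lam * N) n
          rw [abs_sub_comm ((lam : ℝ) * N) n] at this
          push_cast
          exact this
      _ = (∫ c, maxTheta c ∂ρ) * (|(m : ℝ) - lam * N| +
            ∫ n : ℕ, |(n : ℝ) - ((lam * N : ℝ≥0) : ℝ)| ∂(poissonMeasure (lam * N))) := by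
          rw [integral_const_mul, integral_add (integrable_const _) i0, integral_const,
            probReal_univ, one_smul]
      _ ≤ _ := by
          refine mul_le_mul_of_nonneg_left ?_ hT0
          push_cast at hd ⊢
          linarith
  rw [pressure_mn hρ hν]
  have e2 : mn ρ ν N m / N - 1 / (N : ℝ) * ∫ n, mn ρ ν N n ∂(poissonMeasure (lam * N)) =
      (mn ρ ν N m - ∫ n, mn ρ ν N n ∂(poissonMeasure (lam * N))) / N := by ring
  rw [e2, abs_div, abs_of_pos hN, div_le_iff₀ hN]
  refine h1.trans_eq ?_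
  field_simp
  ring

/-- A real function of `N` tends to `0` if it is eventually at most `C ε + g_ε N`, `g_ε → 0`. -/
theorem tendsto_zero_of {f : ℕ → ℝ} (hf : ∀ N, 0 ≤ f N) {C : ℝ} (hC : 0 ≤ C)
    (h : ∀ ε : ℝ, 0 < ε → ∃ g : ℕ → ℝ, Tendsto g atTop (𝓝 0) ∧ ∀ᶠ N in atTop, f N ≤ C * ε + g N) :
    Tendsto f atTop (𝓝 0) := by
  rw [Metric.tendsto_atTop']
  intro η hη
  obtain ⟨g, hg, hle⟩ := h (η / (2 * (C + 1))) (by positivity)
  have h1 : C * (η / (2 * (C + 1))) ≤ η / 2 := by
    have e : C * (η / (2 * (C + 1))) = η / 2 * (C / (C + 1)) := by field_simp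
    rw [e]
    have : C / (C + 1) ≤ 1 := by
      rw [div_le_one (by positivity)]; linarith
    have h3 : 0 ≤ η / 2 := by positivity
    nlinarith
  obtain ⟨n0, hn0⟩ := eventually_atTop.1 (hle.and (hg.eventually (gt_mem_nhds (half_pos hη))))
  refine ⟨n0, fun n hn => ?_⟩
  obtain ⟨a1, a2⟩ := hn0 n hn.le
  rw [Real.dist_eq, sub_zero, abs_of_nonneg (hf n)]
  linarith

include hρ hν in
/-- **`L¹` convergence for a deterministic number of interactions.** -/
theorem det_L1 {lam : ℝ≥0} {L : ℝ} (hL : Tendsto (fun N => pressure lam ρ ν N) atTop (𝓝 L))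
    {M : ℕ → ℕ} (hM : Tendsto (fun N => (M N : ℝ) / N) atTop (𝓝 (lam : ℝ))) :
    Tendsto (fun N => ∫ ω, |randomPressure ω - L| ∂(disorder ρ ν N (M N))) atTop (𝓝 0) := by
  set T := ∫ c, maxTheta c ∂ρ with hT
  have hT0 : 0 ≤ T := integral_nonneg maxTheta_nonneg
  refine tendsto_zero_of (fun N => integral_nonneg fun ω => abs_nonneg _)
    (C := (lam + 1 + T * lam)) (by positivity) fun ε hε => ?_
  obtain ⟨B, hB, hdev⟩ := dev hρ hν hε
  refine ⟨fun N => ε * ((M N : ℝ) / N - lam) + B / N +
    T * (|(M N : ℝ) / N - lam| + 1 / (4 * ε) / N) + |pressure lam ρ ν N - L|, ?_, ?_⟩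
  · have h1 : Tendsto (fun N : ℕ => (M N : ℝ) / N - lam) atTop (𝓝 0) := by
      simpa using hM.sub_const (lam : ℝ)
    have h2 : Tendsto (fun N : ℕ => B / (N : ℝ)) atTop (𝓝 0) := tendsto_const_div_atTop_nhds_zero_nat B
    have h3 : Tendsto (fun N : ℕ => 1 / (4 * ε) / (N : ℝ)) atTop (𝓝 0) :=
      tendsto_const_div_atTop_nhds_zero_nat _
    have h4 : Tendsto (fun N : ℕ => |pressure lam ρ ν N - L|) atTop (𝓝 0) := by
      have := (hL.sub_const L).abs
      simpa using this
    have h5 := (((h1.const_mul ε).add h2).add ((h1.abs.add h3).const_mul T)).add h4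
    simpa using h5
  · filter_upwards [eventually_ge_atTop 1] with N hN
    have hNz : NeZero N := ⟨by omega⟩
    have hNp : (0 : ℝ) < N := by exact_mod_cast hN
    set D := disorder ρ ν N (M N) with hD
    have hX : Integrable (X : Disorder K N (M N) → ℝ) D := integrable_X hρ hν
    have h1 := hdev N (M N) hNz
    have h2 := mn_pressure (N := N) hρ hν lam (M N) hε
    have h3 : ∀ ω : Disorder K N (M N), |randomPressure ω - L| ≤
        |X ω - ∫ ω', X ω' ∂D| / N + (|mn ρ ν N (M N) / N - pressure lam ρ ν N| +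
          |pressure lam ρ ν N - L|) := by
      intro ω
      have e : randomPressure ω - L = (X ω - ∫ ω', X ω' ∂D) / N +
          ((mn ρ ν N (M N) / N - pressure lam ρ ν N) + (pressure lam ρ ν N - L)) := by
        have e1 : randomPressure ω = X ω / N := by
          unfold randomPressure X
          ring
        have e2 : mn ρ ν N (M N) = ∫ ω', X ω' ∂D := rfl
        rw [e1, e2]
        ring
      rw [e]
      refine (abs_add_le _ _).trans (add_le_add ?_ (abs_add_le _ _))
      rw [abs_div, abs_of_pos hNp]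
    have h4 : ∫ ω, |randomPressure ω - L| ∂D ≤ (∫ ω, |X ω - ∫ ω', X ω' ∂D| ∂D) / N +
        (|mn ρ ν N (M N) / N - pressure lam ρ ν N| + |pressure lam ρ ν N - L|) := by
      have hi : Integrable (fun ω : Disorder K N (M N) => |X ω - ∫ ω', X ω' ∂D| / N) D :=
        (hX.sub (integrable_const _)).abs.div_const _
      have h5 : ∫ ω, |randomPressure ω - L| ∂D ≤
          ∫ ω, (|X ω - ∫ ω', X ω' ∂D| / N + (|mn ρ ν N (M N) / N - pressure lam ρ ν N| +
          |pressure lam ρ ν N - L|)) ∂D :=
        integral_mono_of_nonneg (Eventually.of_forall fun ω => abs_nonneg _)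
          (hi.add (integrable_const _)) (Eventually.of_forall h3)
      rw [integral_add hi (integrable_const _), integral_div, integral_const, probReal_univ,
        one_smul] at h5
      exact h5
    have h6 : (∫ ω, |X ω - ∫ ω', X ω' ∂D| ∂D) / N ≤ ε * ((M N : ℝ) / N + 1) + B / N := by
      rw [div_le_iff₀ hNp]
      refine h1.trans_eq ?_
      field_simp
    have h7 : |(M N : ℝ) - lam * N| / N = |(M N : ℝ) / N - lam| := by
      rw [← abs_of_pos hNp, ← abs_div, abs_of_pos hNp]
      congr 1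
      field_simp
    rw [h7] at h2
    have h8 : T * (|(M N : ℝ) / N - lam| + ε * lam + 1 / (4 * ε) / N) =
        T * lam * ε + T * (|(M N : ℝ) / N - lam| + 1 / (4 * ε) / N) := by ring
    rw [h8] at h2
    linarith

include hρ hν in
/-- **`L¹` convergence for a Poisson number of interactions.** -/
theorem pois_L1 {lam : ℝ≥0} {L : ℝ} (hL : Tendsto (fun N => pressure lam ρ ν N) atTop (𝓝 L)) :
    Tendsto (fun N : ℕ => ∫ n, (∫ ω, |randomPressure ω - L| ∂(disorder ρ ν N n))
      ∂(poissonMeasure (lam * N))) atTop (𝓝 0) := by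
  set T := ∫ c, maxTheta c ∂ρ with hT
  have hT0 : 0 ≤ T := integral_nonneg maxTheta_nonneg
  refine tendsto_zero_of (fun N => integral_nonneg fun n => integral_nonneg fun ω => abs_nonneg _)
    (C := (lam + 1 + 2 * T * lam)) (by positivity) fun ε hε => ?_
  obtain ⟨B, hB, hdev⟩ := dev hρ hν hε
  refine ⟨fun N => B / N + T * (2 * (1 / (4 * ε) / N)) + |pressure lam ρ ν N - L|, ?_, ?_⟩
  · have h2 : Tendsto (fun N : ℕ => B / (N : ℝ)) atTop (𝓝 0) := tendsto_const_div_atTop_nhds_zero_nat B
    have h3 : Tendsto (fun N : ℕ => 1 / (4 * ε) / (N : ℝ)) atTop (𝓝 0) :=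
      tendsto_const_div_atTop_nhds_zero_nat _
    have h4 : Tendsto (fun N : ℕ => |pressure lam ρ ν N - L|) atTop (𝓝 0) := by
      have := (hL.sub_const L).abs
      simpa using this
    have h5 := (h2.add ((h3.const_mul 2).const_mul T)).add h4
    simpa using h5
  · filter_upwards [eventually_ge_atTop 1] with N hN
    have hNz : NeZero N := ⟨by omega⟩
    have hNp : (0 : ℝ) < N := by exact_mod_cast hN
    have hin : ∀ n : ℕ, (∫ ω, |randomPressure ω - L| ∂(disorder ρ ν N n)) ≤
        (ε * ((n : ℝ) + N) + B) / N + (T * (|(n : ℝ) - ((lam * N : ℝ≥0) : ℝ)| / N + ε * lam +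
          1 / (4 * ε) / N) + |pressure lam ρ ν N - L|) := by
      intro n
      set D := disorder ρ ν N n with hD
      have hX : Integrable (X : Disorder K N n → ℝ) D := integrable_X hρ hν
      have h1 := hdev N n hNz
      have h2 := mn_pressure (N := N) hρ hν lam n hε
      have h3 : ∀ ω : Disorder K N n, |randomPressure ω - L| ≤
          |X ω - ∫ ω', X ω' ∂D| / N + (|mn ρ ν N n / N - pressure lam ρ ν N| +
            |pressure lam ρ ν N - L|) := by
        intro ω
        have e : randomPressure ω - L = (X ω - ∫ ω', X ω' ∂D) / N +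
            ((mn ρ ν N n / N - pressure lam ρ ν N) + (pressure lam ρ ν N - L)) := by
          have e1 : randomPressure ω = X ω / N := by
            unfold randomPressure X
            ring
          have e2 : mn ρ ν N n = ∫ ω', X ω' ∂D := rfl
          rw [e1, e2]
          ring
        rw [e]
        refine (abs_add_le _ _).trans (add_le_add ?_ (abs_add_le _ _))
        rw [abs_div, abs_of_pos hNp]
      have hi : Integrable (fun ω : Disorder K N n => |X ω - ∫ ω', X ω' ∂D| / N) D :=
        (hX.sub (integrable_const _)).abs.div_const _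
      have h5 : ∫ ω, |randomPressure ω - L| ∂D ≤
          ∫ ω, (|X ω - ∫ ω', X ω' ∂D| / N + (|mn ρ ν N n / N - pressure lam ρ ν N| +
          |pressure lam ρ ν N - L|)) ∂D :=
        integral_mono_of_nonneg (Eventually.of_forall fun ω => abs_nonneg _)
          (hi.add (integrable_const _)) (Eventually.of_forall h3)
      rw [integral_add hi (integrable_const _), integral_div, integral_const, probReal_univ,
        one_smul] at h5
      have h6 : (∫ ω, |X ω - ∫ ω', X ω' ∂D| ∂D) / N ≤ (ε * ((n : ℝ) + N) + B) / N := by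
        gcongr
      push_cast
      linarith
    have i0 := pois_abs_int (lam * N) ((lam * N : ℝ≥0) : ℝ)
    have g1 : ExpGrowth fun l : ℕ => (l : ℝ) :=
      expGrowth_of_linear (c := 0) (d := 1) (fun n => by simp) le_rfl zero_le_one
    have i1 := g1.integrable (lam * N)
    have j1 : Integrable (fun n : ℕ => (ε * ((n : ℝ) + N) + B) / N) (poissonMeasure (lam * N)) :=
      (((i1.add (integrable_const _)).const_mul ε).add (integrable_const _)).div_const _
    have j2 : Integrable (fun n : ℕ => T * (|(n : ℝ) - ((lam * N : ℝ≥0) : ℝ)| / N + ε * lam +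
          1 / (4 * ε) / N) + |pressure lam ρ ν N - L|) (poissonMeasure (lam * N)) :=
      ((((i0.div_const _).add (integrable_const _)).add (integrable_const _)).const_mul T).add
        (integrable_const _)
    have j3 : Integrable (fun n : ℕ => (ε * ((n : ℝ) + N) + B) / N +
        (T * (|(n : ℝ) - ((lam * N : ℝ≥0) : ℝ)| / N + ε * lam +
          1 / (4 * ε) / N) + |pressure lam ρ ν N - L|)) (poissonMeasure (lam * N)) := j1.add j2
    have h1 := integral_mono_of_nonneg (μ := poissonMeasure (lam * N))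
      (f := fun n : ℕ => ∫ ω, |randomPressure ω - L| ∂(disorder ρ ν N n))
      (Eventually.of_forall fun n => integral_nonneg fun ω => abs_nonneg _) j3
      (Eventually.of_forall hin)
    refine h1.trans ?_
    have e : ∀ n : ℕ, (ε * ((n : ℝ) + N) + B) / N + (T * (|(n : ℝ) - ((lam * N : ℝ≥0) : ℝ)| / N +
        ε * lam + 1 / (4 * ε) / N) + |pressure lam ρ ν N - L|) =
        (ε / N) * n + ((T / N) * |(n : ℝ) - ((lam * N : ℝ≥0) : ℝ)| + (ε + B / N +
          T * (ε * lam + 1 / (4 * ε) / N) + |pressure lam ρ ν N - L|)) := by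
      intro n
      field_simp
      ring
    change ∫ n : ℕ, ((ε * ((n : ℝ) + N) + B) / N + (T * (|(n : ℝ) - ((lam * N : ℝ≥0) : ℝ)| / N +
        ε * lam + 1 / (4 * ε) / N) + |pressure lam ρ ν N - L|)) ∂(poissonMeasure (lam * N)) ≤ _
    simp_rw [e]
    have k1 : Integrable (fun n : ℕ => (ε / N) * (n : ℝ)) (poissonMeasure (lam * N)) :=
      i1.const_mul _
    have k2 : Integrable (fun n : ℕ => (T / N) * |(n : ℝ) - ((lam * N : ℝ≥0) : ℝ)|)
      (poissonMeasure (lam * N)) := i0.const_mul _
    have k3 : Integrable (fun n : ℕ => (T / N) * |(n : ℝ) - ((lam * N : ℝ≥0) : ℝ)| + (ε + B / N +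
          T * (ε * lam + 1 / (4 * ε) / N) + |pressure lam ρ ν N - L|))
      (poissonMeasure (lam * N)) := k2.add (integrable_const _)
    rw [integral_add k1 k3, integral_add k2 (integrable_const _), integral_const_mul,
      integral_const_mul, pois_mean, integral_const, probReal_univ, one_smul]
    have hd := pois_dev (lam * N) hε
    have hd2 : (T / N) * ∫ n : ℕ, |(n : ℝ) - ((lam * N : ℝ≥0) : ℝ)| ∂(poissonMeasure (lam * N)) ≤
        (T / N) * (ε * ((lam * N : ℝ≥0) : ℝ) + 1 / (4 * ε)) :=
      mul_le_mul_of_nonneg_left hd (by positivity)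
    have e3 : (T / N) * (ε * ((lam * N : ℝ≥0) : ℝ) + 1 / (4 * ε)) =
        T * lam * ε + T * (1 / (4 * ε) / N) := by
      push_cast
      field_simp
    have e4 : (ε / N) * ((lam * N : ℝ≥0) : ℝ) = lam * ε := by
      push_cast
      field_simp
    rw [e3] at hd2
    rw [e4]
    linarith

end

end Vale.Agent.P168.Cc
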