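import Vale.Agent.P168.H45.SatLaw
import Vale.Agent.P168.H45.Lim

/-! Random `K`-SAT: free energy and minimal number of violated clauses. -/

set_option autoImplicit false

open MeasureTheory ProbabilityTheory Filter
open scoped NNReal Topology

namespace Vale.Agent.P168.Sat

variable {K N M : ℕ}

/-- The pressure of a formula. -/
noncomputable def lz (β : ℝ) (φ : Formula K N M) : ℝ :=
  1 / (N : ℝ) * Real.log (∑ σ, Real.exp (-β * unsat φ σ))

/-- The minimal fraction. -/
noncomputable def mu (φ : Formula K N M) : ℝ := ((⨅ σ, unsat φ σ : ℕ) : ℝ) / N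

/-- The transfer from the abstract model to formulas. -/
def Bridge : Prop := ∀ (K N M : ℕ) (_ : NeZero N) (β : ℝ) (g : ℝ → ℝ),
  ∫ ω, g (randomPressure ω) ∂(disorder (satLaw K β) (Measure.dirac 0) N M) =
    average fun φ : Formula K N M => g (lz β φ)

section avg

variable [NeZero N]

theorem card_pos' : (0 : ℝ) < Fintype.card (Formula K N M) := by
  have : Nonempty (Formula K N M) :=
    ⟨fun _ => (fun _ => true, fun _ => ⟨0, Nat.pos_of_ne_zero (NeZero.ne N)⟩)⟩
  exact_mod_cast Fintype.card_pos

theorem average_mono {F G : Formula K N M → ℝ} (h : ∀ φ, F φ ≤ G φ) : average F ≤ average G := by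
  unfold average
  exact div_le_div_of_nonneg_right (Finset.sum_le_sum fun φ _ => h φ) card_pos'.le

theorem average_add (F G : Formula K N M → ℝ) :
    average (fun φ => F φ + G φ) = average F + average G := by
  unfold average
  rw [Finset.sum_add_distrib, add_div]

theorem average_mul (c : ℝ) (F : Formula K N M → ℝ) :
    average (fun φ => c * F φ) = c * average F := by
  unfold average
  rw [← Finset.mul_sum, mul_div_assoc]

theorem average_const (c : ℝ) : average (fun _ : Formula K N M => c) = c := by
  unfold average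
  rw [Finset.sum_const, Finset.card_univ, nsmul_eq_mul, mul_div_cancel_left₀ _ card_pos'.ne']

theorem abs_average_sub (F : Formula K N M → ℝ) (c : ℝ) :
    |average F - c| ≤ average fun φ => |F φ - c| := by
  have h1 : average F - c = average fun φ => F φ + -1 * c := by
    rw [average_add, average_mul, average_const]; ring
  rw [h1, abs_le]
  constructor
  · have h2 : -(average fun φ : Formula K N M => |F φ - c|) =
        average fun φ => -1 * |F φ - c| := by rw [average_mul]; ring
    rw [h2]
    exact average_mono fun φ => by have := neg_abs_le (F φ - c); linarith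
  · exact average_mono fun φ => by have := le_abs_self (F φ - c); linarith

end avg

theorem average_nonneg {F : Formula K N M → ℝ} (h : ∀ φ, 0 ≤ F φ) : 0 ≤ average F := by
  unfold average
  exact div_nonneg (Finset.sum_nonneg fun φ _ => h φ) (Nat.cast_nonneg _)

theorem unsat_min (φ : Formula K N M) : ∃ σ, unsat φ σ = ⨅ σ, unsat φ σ :=
  exists_eq_ciInf_of_finite

theorem lz_bounds [NeZero N] {β : ℝ} (hβ : 0 < β) (φ : Formula K N M) :
    -(β * mu φ) ≤ lz β φ ∧ lz β φ ≤ Real.log 2 - β * mu φ := by
  have hN : (0 : ℝ) < N := by exact_mod_cast NeZero.pos N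
  obtain ⟨σ₀, h0⟩ := unsat_min φ
  set u : ℕ := ⨅ σ, unsat φ σ with hu
  have hle : ∀ σ, u ≤ unsat φ σ := fun σ => ciInf_le (OrderBot.bddBelow _) σ
  have h1 : Real.exp (-β * u) ≤ ∑ σ, Real.exp (-β * unsat φ σ) := by
    rw [← h0]
    exact Finset.single_le_sum (f := fun σ => Real.exp (-β * unsat φ σ))
      (fun σ _ => (Real.exp_pos _).le) (Finset.mem_univ σ₀)
  have h2 : ∑ σ, Real.exp (-β * unsat φ σ) ≤ 2 ^ N * Real.exp (-β * u) := by
    calc ∑ σ, Real.exp (-β * unsat φ σ) ≤ ∑ _σ : Fin N → Bool, Real.exp (-β * u) := by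
          refine Finset.sum_le_sum fun σ _ => Real.exp_le_exp.2 ?_
          have : (u : ℝ) ≤ unsat φ σ := by exact_mod_cast hle σ
          nlinarith
      _ = 2 ^ N * Real.exp (-β * u) := by simp
  have hp : 0 < ∑ σ, Real.exp (-β * unsat φ σ) := (Real.exp_pos _).trans_le h1
  have l1 := Real.log_le_log (Real.exp_pos _) h1
  have l2 := Real.log_le_log hp h2
  rw [Real.log_exp] at l1
  rw [Real.log_mul (by positivity) (Real.exp_pos _).ne', Real.log_exp, Real.log_pow] at l2
  have e1 : lz β φ = Real.log (∑ σ, Real.exp (-β * unsat φ σ)) / N := by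
    unfold lz; ring
  have e2 : mu φ = (u : ℝ) / N := rfl
  rw [e1, e2]
  constructor
  · rw [le_div_iff₀ hN]
    have e3 : -(β * ((u : ℝ) / N)) * N = -β * u := by field_simp
    rw [e3]; exact l1
  · rw [div_le_iff₀ hN]
    have e3 : (Real.log 2 - β * ((u : ℝ) / N)) * N = N * Real.log 2 + -β * u := by
      field_simp
      ring
    rw [e3]; exact l2

section main

variable (hK : 1 ≤ K) (lam : ℝ≥0) {P : ℝ → ℝ}
  (hP : ∀ β, 0 ≤ β → Tendsto (fun N => pressure lam (satLaw K β) (Measure.dirac 0) N) atTop
    (𝓝 (P β)))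

include hK hP in
theorem lz_L1 (hbr : Bridge) {M : ℕ → ℕ}
    (hM : Tendsto (fun N => (M N : ℝ) / N) atTop (𝓝 (lam : ℝ))) {β : ℝ} (hβ : 0 ≤ β) :
    Tendsto (fun N => average fun φ : Formula K N (M N) => |lz β φ - P β|) atTop (𝓝 0) := by
  have hc := posClass hK hβ
  have h := Cc.det_L1 (PN.maxTheta_int hc) hc.field_int (hP β hβ) hM
  refine h.congr' ?_
  filter_upwards [eventually_ge_atTop 1] with N hN
  exact hbr K N (M N) ⟨by omega⟩ β fun x => |x - P β|

include hK hP in
theorem q_le (hbr : Bridge) {β β' : ℝ} (hβ : 0 < β) (hβ' : 0 < β') :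
    -P β / β ≤ -P β' / β' + Real.log 2 / β' := by
  set M : ℕ → ℕ := fun N => ⌊(lam : ℝ) * N⌋₊ with hMd
  have hM : Tendsto (fun N => (M N : ℝ) / N) atTop (𝓝 (lam : ℝ)) := by
    have h1 := tendsto_nat_floor_mul_div_atTop (R := ℝ) (a := (lam : ℝ)) lam.2
    exact h1.comp tendsto_natCast_atTop_atTop
  have key : ∀ γ, 0 ≤ γ →
      Tendsto (fun N => average fun φ : Formula K N (M N) => lz γ φ) atTop (𝓝 (P γ)) := by
    intro γ hγ
    rw [tendsto_iff_dist_tendsto_zero]
    refine squeeze_zero' (Eventually.of_forall fun _ => dist_nonneg) ?_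
      (lz_L1 hK lam hP hbr hM hγ)
    filter_upwards [eventually_ge_atTop 1] with N hN
    have : NeZero N := ⟨by omega⟩
    rw [Real.dist_eq]
    exact abs_average_sub _ _
  have t1 : Tendsto (fun N => -(average fun φ : Formula K N (M N) => lz β φ) / β) atTop
      (𝓝 (-P β / β)) := ((key β hβ.le).neg).div_const β
  have t2 : Tendsto (fun N => -(average fun φ : Formula K N (M N) => lz β' φ) / β' +
      Real.log 2 / β') atTop (𝓝 (-P β' / β' + Real.log 2 / β')) :=
    (((key β' hβ'.le).neg).div_const β').add_const _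
  refine le_of_tendsto_of_tendsto t1 t2 ?_
  filter_upwards [eventually_ge_atTop 1] with N hN
  have : NeZero N := ⟨by omega⟩
  have h3 : average (fun φ : Formula K N (M N) => (-1 / β) * lz β φ) ≤
      average (fun φ : Formula K N (M N) => (-1 / β') * lz β' φ + Real.log 2 / β') := by
    refine average_mono fun φ => ?_
    have b1 := (lz_bounds hβ φ).1
    have b2 := (lz_bounds hβ' φ).2
    have c1 : (-1 / β) * lz β φ ≤ mu φ := by
      rw [div_mul_eq_mul_div, div_le_iff₀ hβ]
      linarith
    have c2 : mu φ ≤ (-1 / β') * lz β' φ + Real.log 2 / β' := by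
      have : (-1 / β') * lz β' φ + Real.log 2 / β' = (Real.log 2 - lz β' φ) / β' := by ring
      rw [this, le_div_iff₀ hβ']
      linarith
    exact c1.trans c2
  rw [average_mul, average_add, average_mul, average_const] at h3
  have e1 : -(average fun φ : Formula K N (M N) => lz β φ) / β =
      -1 / β * average fun φ : Formula K N (M N) => lz β φ := by ring
  have e2 : -(average fun φ : Formula K N (M N) => lz β' φ) / β' =
      -1 / β' * average fun φ : Formula K N (M N) => lz β' φ := by ring
  rw [e1, e2]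
  exact h3

include hK hP in
/-- **Free energy and ground state of random `K`-SAT.** -/
theorem ground (hbr : Bridge) : ∃ e : ℝ, Tendsto (fun β => -P β / β) atTop (𝓝 e) ∧
    ∀ M : ℕ → ℕ, Tendsto (fun N => (M N : ℝ) / N) atTop (𝓝 (lam : ℝ)) →
      Tendsto (fun N => average fun φ : Formula K N (M N) => |mu φ - e|) atTop (𝓝 0) := by
  set S : Set ℝ := (fun β => -P β / β) '' Set.Ioi 0 with hS
  have hub : ∀ β, 0 < β → ∀ x ∈ S, x ≤ -P β / β + Real.log 2 / β := by
    rintro β hβ x ⟨γ, hγ, rfl⟩
    exact q_le hK lam hP hbr hγ hβ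
  have hne : S.Nonempty := ⟨_, 1, Set.mem_Ioi.2 one_pos, rfl⟩
  have hbd : BddAbove S := ⟨_, hub 1 one_pos⟩
  set e := sSup S with he
  have h1 : ∀ β, 0 < β → -P β / β ≤ e := fun β hβ => le_csSup hbd ⟨β, hβ, rfl⟩
  have h2 : ∀ β, 0 < β → e ≤ -P β / β + Real.log 2 / β := fun β hβ => csSup_le hne (hub β hβ)
  have hl2 : 0 < Real.log 2 := Real.log_pos one_lt_two
  refine ⟨e, ?_, fun M hM => ?_⟩
  · rw [tendsto_iff_dist_tendsto_zero]
    refine squeeze_zero' (Eventually.of_forall fun _ => dist_nonneg) ?_
      (tendsto_const_nhds.div_atTop tendsto_id (a := Real.log 2))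
    filter_upwards [eventually_gt_atTop 0] with β hβ
    rw [Real.dist_eq, abs_le]
    have a1 := h1 β hβ
    have a2 := h2 β hβ
    have a3 : 0 < Real.log 2 / β := div_pos hl2 hβ
    simp only [id]
    constructor <;> linarith
  · refine Cc.tendsto_zero_of (fun N => average_nonneg fun φ => abs_nonneg _)
      (C := 2 * Real.log 2) (by positivity) fun ε hε => ?_
    have hβ : 0 < 1 / ε := by positivity
    refine ⟨fun N => ε * average fun φ : Formula K N (M N) => |lz (1 / ε) φ - P (1 / ε)|, ?_, ?_⟩
    · have := (lz_L1 hK lam hP hbr hM hβ.le).const_mul ε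
      simpa using this
    · filter_upwards [eventually_ge_atTop 1] with N hN
      have : NeZero N := ⟨by omega⟩
      have h3 : average (fun φ : Formula K N (M N) => |mu φ - e|) ≤
          average (fun φ : Formula K N (M N) => 2 * Real.log 2 * ε +
            ε * |lz (1 / ε) φ - P (1 / ε)|) := by
        refine average_mono fun φ => ?_
        have b1 := (lz_bounds hβ φ).1
        have b2 := (lz_bounds hβ φ).2
        have a1 := h1 _ hβ
        have a2 := h2 _ hβ
        have e1 : -P (1 / ε) / (1 / ε) = -ε * P (1 / ε) := by field_simp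
        have e2 : Real.log 2 / (1 / ε) = ε * Real.log 2 := by field_simp
        rw [e1] at a1 a2
        rw [e2] at a2
        have b3 : -(ε * lz (1 / ε) φ) ≤ mu φ := by
          have := mul_le_mul_of_nonneg_left b1 hε.le
          have e3 : ε * -(1 / ε * mu φ) = -mu φ := by field_simp
          rw [e3] at this
          linarith
        have b4 : mu φ ≤ ε * Real.log 2 - ε * lz (1 / ε) φ := by
          have := mul_le_mul_of_nonneg_left b2 hε.le
          have e3 : ε * (Real.log 2 - 1 / ε * mu φ) = ε * Real.log 2 - mu φ := by field_simp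
          rw [e3] at this
          linarith
        have c1 := mul_le_mul_of_nonneg_left (le_abs_self (lz (1 / ε) φ - P (1 / ε))) hε.le
        have c2 := mul_le_mul_of_nonneg_left (neg_abs_le (lz (1 / ε) φ - P (1 / ε))) hε.le
        have c3 : 0 < ε * Real.log 2 := mul_pos hε hl2
        rw [abs_le]
        constructor <;> nlinarith
      rw [average_add, average_const, average_mul] at h3
      exact h3

end main

end Vale.Agent.P168.Sat
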