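import Vale.Agent.P168.H45.Lim

/-! From positive temperature to zero temperature, abstractly. -/

set_option autoImplicit false

open MeasureTheory ProbabilityTheory Filter
open scoped NNReal Topology

namespace Vale.Agent.P168.Gs

/-- `A N F` is a mean of `F : Ω N → ℝ` which respects upper bounds of nonnegative functions by
`a + b |X β - P β| + b' |X β' - P β'|`. -/
structure Mean {Ω : ℕ → Type} (A : ∀ N, (Ω N → ℝ) → ℝ) (X : ∀ N, ℝ → Ω N → ℝ) (P : ℝ → ℝ) :
    Prop where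
  nonneg : ∀ N (F : Ω N → ℝ), (∀ ω, 0 ≤ F ω) → 0 ≤ A N F
  le : ∀ N, 1 ≤ N → ∀ (F : Ω N → ℝ) (a b b' β β' : ℝ), (∀ ω, 0 ≤ F ω) → 0 ≤ a → 0 ≤ b →
    0 ≤ b' → 0 < β → 0 < β' →
    (∀ ω, F ω ≤ a + b * |X N β ω - P β| + b' * |X N β' ω - P β'|) →
    A N F ≤ a + b * A N (fun ω => |X N β ω - P β|) + b' * A N (fun ω => |X N β' ω - P β'|)
  lim : ∀ β, 0 < β → Tendsto (fun N => A N (fun ω => |X N β ω - P β|)) atTop (𝓝 0)

variable {Ω : ℕ → Type} {A : ∀ N, (Ω N → ℝ) → ℝ} {X : ∀ N, ℝ → Ω N → ℝ} {P : ℝ → ℝ}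
  {Y : ∀ N, Ω N → ℝ}

theorem cmp (h : Mean A X P) (hc1 : ∀ N, 1 ≤ N → ∀ c : ℝ, A N (fun _ => c) = c)
    (hX : ∀ N, 1 ≤ N → ∀ β, 0 < β → ∀ ω, β * Y N ω ≤ X N β ω ∧ X N β ω ≤ β * Y N ω + Real.log 2)
    {β β' : ℝ} (hβ : 0 < β) (hβ' : 0 < β') : P β / β ≤ P β' / β' + Real.log 2 / β := by
  by_contra hcon
  push Not at hcon
  set c := P β / β - (P β' / β' + Real.log 2 / β) with hc
  have hc0 : 0 < c := by linarith
  have h1 : Tendsto (fun N => 0 + 1 / β * A N (fun ω => |X N β ω - P β|) +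
      1 / β' * A N (fun ω => |X N β' ω - P β'|)) atTop (𝓝 0) := by
    have := (((h.lim β hβ).const_mul (1 / β)).const_add 0).add ((h.lim β' hβ').const_mul (1 / β'))
    simpa using this
  obtain ⟨N, hN1, hN2⟩ := ((h1.eventually (gt_mem_nhds hc0)).and (eventually_ge_atTop 1)).exists
  have h2 := h.le N hN2 (fun _ => c) 0 (1 / β) (1 / β') β β' (fun _ => hc0.le) le_rfl
    (by positivity) (by positivity) hβ hβ' fun ω => ?_
  · rw [hc1 N hN2] at h2
    linarith
  · obtain ⟨_, a2⟩ := hX N hN2 β hβ ω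
    obtain ⟨b1, _⟩ := hX N hN2 β' hβ' ω
    have e1 : P β / β - X N β ω / β ≤ 1 / β * |X N β ω - P β| := by
      have := neg_abs_le (X N β ω - P β)
      have e : P β / β - X N β ω / β = 1 / β * (-(X N β ω - P β)) := by ring
      rw [e]
      exact mul_le_mul_of_nonneg_left (by linarith) (by positivity)
    have e2 : X N β' ω / β' - P β' / β' ≤ 1 / β' * |X N β' ω - P β'| := by
      have := le_abs_self (X N β' ω - P β')
      have e : X N β' ω / β' - P β' / β' = 1 / β' * (X N β' ω - P β') := by ring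
      rw [e]
      exact mul_le_mul_of_nonneg_left (by linarith) (by positivity)
    have e3 : X N β ω / β ≤ Y N ω + Real.log 2 / β := by
      rw [div_le_iff₀ hβ]
      have : (Y N ω + Real.log 2 / β) * β = β * Y N ω + Real.log 2 := by field_simp
      linarith
    have e4 : Y N ω ≤ X N β' ω / β' := by
      rw [le_div_iff₀ hβ']
      linarith
    linarith

/-- The zero-temperature limit of `P`. -/
theorem exists_e (h : Mean A X P) (hc1 : ∀ N, 1 ≤ N → ∀ c : ℝ, A N (fun _ => c) = c)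
    (hX : ∀ N, 1 ≤ N → ∀ β, 0 < β → ∀ ω, β * Y N ω ≤ X N β ω ∧ X N β ω ≤ β * Y N ω + Real.log 2) :
    ∃ e : ℝ, ∀ β, 0 < β → e ≤ P β / β ∧ P β / β ≤ e + Real.log 2 / β := by
  set S : Set ℝ := (fun β => P β / β) '' Set.Ioi 0 with hS
  have hlb : ∀ β, 0 < β → ∀ x ∈ S, P β / β - Real.log 2 / β ≤ x := by
    rintro β hβ x ⟨γ, hγ, rfl⟩
    have := cmp h hc1 hX hβ hγ
    dsimp only
    linarith
  have hne : S.Nonempty := ⟨_, 1, Set.mem_Ioi.2 one_pos, rfl⟩
  have hbd : BddBelow S := ⟨_, hlb 1 one_pos⟩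
  refine ⟨sInf S, fun β hβ => ⟨csInf_le hbd ⟨β, hβ, rfl⟩, ?_⟩⟩
  have := le_csInf hne (hlb β hβ)
  linarith

theorem tendsto_e {e : ℝ} (he : ∀ β, 0 < β → e ≤ P β / β ∧ P β / β ≤ e + Real.log 2 / β) :
    Tendsto (fun β => P β / β) atTop (𝓝 e) := by
  rw [tendsto_iff_dist_tendsto_zero]
  refine squeeze_zero' (Eventually.of_forall fun _ => dist_nonneg) ?_
    (tendsto_const_nhds.div_atTop tendsto_id (a := Real.log 2))
  filter_upwards [eventually_gt_atTop 0] with β hβ
  rw [Real.dist_eq, abs_le]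
  have hl2 : 0 < Real.log 2 := Real.log_pos one_lt_two
  have a3 : 0 < Real.log 2 / β := div_pos hl2 hβ
  obtain ⟨a1, a2⟩ := he β hβ
  simp only [id]
  constructor <;> linarith

/-- **Convergence of the ground state energy.** -/
theorem ground (h : Mean A X P)
    (hX : ∀ N, 1 ≤ N → ∀ β, 0 < β → ∀ ω, β * Y N ω ≤ X N β ω ∧ X N β ω ≤ β * Y N ω + Real.log 2)
    {e : ℝ} (he : ∀ β, 0 < β → e ≤ P β / β ∧ P β / β ≤ e + Real.log 2 / β) :
    Tendsto (fun N => A N (fun ω => |Y N ω - e|)) atTop (𝓝 0) := by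
  have hl2 : 0 < Real.log 2 := Real.log_pos one_lt_two
  refine Cc.tendsto_zero_of (fun N => h.nonneg N _ fun ω => abs_nonneg _)
    (C := 2 * Real.log 2) (by positivity) fun ε hε => ?_
  have hβ : 0 < 1 / ε := by positivity
  refine ⟨fun N => ε * A N (fun ω => |X N (1 / ε) ω - P (1 / ε)|), ?_, ?_⟩
  · have := (h.lim _ hβ).const_mul ε
    simpa using this
  · filter_upwards [eventually_ge_atTop 1] with N hN
    have h3 := h.le N hN (fun ω => |Y N ω - e|) (2 * Real.log 2 * ε) ε 0 (1 / ε) (1 / ε)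
      (fun ω => abs_nonneg _) (by positivity) hε.le le_rfl hβ hβ fun ω => ?_
    · rw [zero_mul, add_zero] at h3
      exact h3
    · rw [zero_mul, add_zero]
      obtain ⟨b1, b2⟩ := hX N hN _ hβ ω
      obtain ⟨a1, a2⟩ := he _ hβ
      have e1 : P (1 / ε) / (1 / ε) = ε * P (1 / ε) := by field_simp
      have e2 : Real.log 2 / (1 / ε) = ε * Real.log 2 := by field_simp
      rw [e1] at a1 a2
      rw [e2] at a2
      have b3 : Y N ω ≤ ε * X N (1 / ε) ω := by
        have := mul_le_mul_of_nonneg_left b1 hε.le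
        have e3 : ε * (1 / ε * Y N ω) = Y N ω := by field_simp
        rw [e3] at this
        linarith
      have b4 : ε * X N (1 / ε) ω ≤ Y N ω + ε * Real.log 2 := by
        have := mul_le_mul_of_nonneg_left b2 hε.le
        have e3 : ε * (1 / ε * Y N ω + Real.log 2) = Y N ω + ε * Real.log 2 := by field_simp
        rw [e3] at this
        linarith
      have c1 := mul_le_mul_of_nonneg_left (le_abs_self (X N (1 / ε) ω - P (1 / ε))) hε.le
      have c2 := mul_le_mul_of_nonneg_left (neg_abs_le (X N (1 / ε) ω - P (1 / ε))) hε.le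
      have c3 : 0 < ε * Real.log 2 := mul_pos hε hl2
      rw [abs_le]
      constructor <;> nlinarith

end Vale.Agent.P168.Gs
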