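import Vale.Agent.P168.Defs

/-! Random `K`-SAT: the law of the interactions, formulas, violated clauses. -/

open MeasureTheory ProbabilityTheory
open scoped NNReal

namespace Vale.Agent.P168

/-- The law of the interaction of random `K`-SAT at inverse temperature `β`: `a = 1`,
`b = e^{-β} - 1` and `f_j(s) = 1` if `s ≠ J_j`, `f_j(s) = 0` if `s = J_j`, where `J_1, …, J_K` are
independent fair signs (`J_j` is the value which satisfies the `j`-th literal). So `θ = -β` if all
the literals are violated and `θ = 0` otherwise. -/
noncomputable def satLaw (K : ℕ) (β : ℝ) : Measure (Clause K) :=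
  (Measure.pi fun _ : Fin K => uniformOn (Set.univ : Set Bool)).map fun J =>
    (1, Real.exp (-β) - 1, fun j s => if s = J j then 0 else 1)

/-- A `K`-SAT formula with `M` clauses on `N` variables: clause `k` has the variables
`(φ k).2 j`, and its `j`-th literal is satisfied when this variable has the value `(φ k).1 j`. -/
abbrev Formula (K N M : ℕ) : Type := Fin M → (Fin K → Bool) × (Fin K → Fin N)

/-- The number of clauses of `φ` violated by the assignment `σ`. -/
def unsat {K N M : ℕ} (φ : Formula K N M) (σ : Fin N → Bool) : ℕ :=
  (Finset.univ.filter fun k => ∀ j, σ ((φ k).2 j) ≠ (φ k).1 j).card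

/-- The average over all formulas with `M` clauses on `N` variables. -/
noncomputable def average {K N M : ℕ} (F : Formula K N M → ℝ) : ℝ :=
  (∑ φ, F φ) / Fintype.card (Formula K N M)

end Vale.Agent.P168
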