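import Vale.Agent.P168.H45.Upper
import Vale.Agent.P168.H45.SatDefs

/-! Random `K`-SAT belongs to the class, for every `K ≥ 1`. -/

set_option autoImplicit false

open MeasureTheory ProbabilityTheory
open scoped NNReal

namespace Vale.Agent.P168.Sat

/-- The data of the clause with satisfying values `J`. -/
noncomputable def satC (K : ℕ) (β : ℝ) (J : Fin K → Bool) : Clause K :=
  (1, Real.exp (-β) - 1, fun j s => if s = J j then 0 else 1)

theorem satLaw_eq (K : ℕ) (β : ℝ) : satLaw K β =
    (Measure.pi fun _ : Fin K => uniformOn (Set.univ : Set Bool)).map (satC K β) := rfl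

theorem measurable_satC (K : ℕ) (β : ℝ) : Measurable (satC K β) := measurable_of_finite _

instance coin_prob : IsProbabilityMeasure (uniformOn (Set.univ : Set Bool)) :=
  isProbabilityMeasure_uniformOn Set.finite_univ Set.univ_nonempty

instance satLaw_prob (K : ℕ) (β : ℝ) : IsProbabilityMeasure (satLaw K β) := by
  rw [satLaw_eq]
  exact Measure.isProbabilityMeasure_map (measurable_satC K β).aemeasurable

theorem mp_satC (K : ℕ) (β : ℝ) : MeasurePreserving (satC K β)
    (Measure.pi fun _ : Fin K => uniformOn (Set.univ : Set Bool)) (satLaw K β) :=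
  ⟨measurable_satC K β, rfl⟩

theorem ae_satLaw {K : ℕ} {β : ℝ} {p : Clause K → Prop} (hp : ∀ J, p (satC K β J)) :
    ∀ᵐ c ∂(satLaw K β), p c := by
  have hfin : (Set.range (satC K β)).Finite := Set.finite_range _
  have h1 : ∀ᵐ c ∂(satLaw K β), c ∈ Set.range (satC K β) := by
    rw [satLaw_eq]
    refine (ae_map_iff (p := fun c => c ∈ Set.range (satC K β))
      (measurable_satC K β).aemeasurable hfin.measurableSet).2 ?_
    exact Filter.Eventually.of_forall fun J => ⟨J, rfl⟩
  filter_upwards [h1] with c hc
  obtain ⟨J, rfl⟩ := hc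
  exact hp J

theorem prod_lit {K : ℕ} (J : Fin K → Bool) (σ : Fin K → Bool) :
    ∏ j, (if σ j = J j then (0 : ℝ) else 1) = if ∀ j, σ j ≠ J j then 1 else 0 := by
  split_ifs with h
  · exact Finset.prod_eq_one fun j _ => if_neg (h j)
  · push Not at h
    obtain ⟨j, hj⟩ := h
    exact Finset.prod_eq_zero (Finset.mem_univ j) (if_pos hj)

theorem theta_sat {K : ℕ} (β : ℝ) (J σ : Fin K → Bool) :
    theta (satC K β J) σ = if ∀ j, σ j ≠ J j then -β else 0 := by
  unfold theta satC
  simp only [prod_lit, one_mul]
  split_ifs with h
  · rw [mul_one, add_sub_cancel, Real.log_exp]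
  · simp

theorem posClass {K : ℕ} (hK : 1 ≤ K) {β : ℝ} (hβ : 0 ≤ β) :
    PN.PosClass K (satLaw K β) (Measure.dirac 0) where
  one_le := hK
  prob_clause := inferInstance
  prob_field := inferInstance
  a_pos := ae_satLaw fun _ => one_pos
  b_mem := ae_satLaw fun J => by
    have h1 : Real.exp (-β) ≤ 1 := Real.exp_le_one_iff.2 (by linarith)
    have h2 := Real.exp_pos (-β)
    constructor
    · change -1 < Real.exp (-β) - 1
      linarith
    · change Real.exp (-β) - 1 < 1
      linarith
  f_mem := ae_satLaw fun J j s => by
    change (if s = J j then (0 : ℝ) else 1) ∈ Set.Icc (0 : ℝ) 1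
    split_ifs <;> simp
  indep := by
    refine ⟨Measure.dirac (Real.exp (-β) - 1),
      (uniformOn (Set.univ : Set Bool)).map fun J s => if s = J then 0 else 1, inferInstance,
      Measure.isProbabilityMeasure_map (measurable_of_finite _).aemeasurable, ?_⟩
    have hl : MeasurePreserving (fun (J : Bool) (s : Bool) => if s = J then (0 : ℝ) else 1)
        (uniformOn (Set.univ : Set Bool))
        ((uniformOn (Set.univ : Set Bool)).map fun J s => if s = J then 0 else 1) :=
      ⟨measurable_of_finite _, rfl⟩
    have : IsProbabilityMeasure ((uniformOn (Set.univ : Set Bool)).map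
        fun (J : Bool) (s : Bool) => if s = J then (0 : ℝ) else 1) :=
      Measure.isProbabilityMeasure_map (measurable_of_finite _).aemeasurable
    have h1 := measurePreserving_pi (fun _ : Fin K => uniformOn (Set.univ : Set Bool))
      (fun _ : Fin K => (uniformOn (Set.univ : Set Bool)).map
        fun (J : Bool) (s : Bool) => if s = J then (0 : ℝ) else 1)
      (f := fun _ J s => if s = J then (0 : ℝ) else 1) fun _ => hl
    rw [satLaw_eq, Measure.map_map measurable_snd (measurable_satC K β), Measure.dirac_prod,
      ← h1.map_eq, Measure.map_map (by fun_prop) h1.measurable]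
    rfl
  positivity n _ := by
    refine integral_nonneg_of_ae (ae_satLaw fun J => ?_)
    change 0 ≤ (-(Real.exp (-β) - 1)) ^ n
    have h1 : Real.exp (-β) ≤ 1 := Real.exp_le_one_iff.2 (by linarith)
    exact pow_nonneg (by linarith) n
  theta_int σ := by
    have h := (mp_satC K β).integrable_comp (g := fun c => theta c σ)
      (measurable_theta σ).aestronglyMeasurable
    rw [← h]
    exact Integrable.of_finite
  field_int := by
    exact integrable_dirac (by simp)

end Vale.Agent.P168.Sat
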