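import Vale.Agent.P168.H45.Core

/-! One step of the interpolation, for nonnegative functions `f_j` and any number `K ≥ 1` of
variables of a clause. -/

set_option autoImplicit false
set_option linter.unusedSectionVars false

open MeasureTheory ProbabilityTheory Filter
open scoped NNReal Topology

namespace Vale.Agent.P168.PN

open Vale.Agent.P168.PT

/-- `A^K - K A B^{K-1} + (K-1) B^K ≥ 0` for `A, B ≥ 0` and every `K ≥ 1`. -/
theorem pow_ineq {K : ℕ} (hK : 1 ≤ K) {A B : ℝ} (hA : 0 ≤ A) (hB : 0 ≤ B) :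
    0 ≤ A ^ K - K * (A * B ^ (K - 1)) + ((K : ℝ) - 1) * B ^ K := by
  obtain ⟨k, rfl⟩ : ∃ k, K = k + 1 := ⟨K - 1, by omega⟩
  rw [Nat.add_sub_cancel]
  rcases hB.eq_or_lt with hB | hB
  · subst hB
    rcases Nat.eq_zero_or_pos k with h0 | h0
    · subst h0; simp
    · rw [zero_pow h0.ne', zero_pow (Nat.succ_ne_zero k)]
      have := pow_nonneg hA (k + 1)
      linarith only [this]
  · have hBK : 0 < B ^ (k + 1) := pow_pos hB _
    have hx : 0 ≤ (A / B) ^ (k + 1) - ((k + 1 : ℕ) : ℝ) * (A / B) + (((k + 1 : ℕ) : ℝ) - 1) := by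
      have h1 : 0 ≤ A / B := div_nonneg hA hB.le
      have := one_add_mul_le_pow (a := A / B - 1) (by linarith only [h1]) (k + 1)
      rw [add_sub_cancel] at this
      linarith only [this]
    have e : A ^ (k + 1) - ((k + 1 : ℕ) : ℝ) * (A * B ^ k) + (((k + 1 : ℕ) : ℝ) - 1) * B ^ (k + 1) =
        B ^ (k + 1) * ((A / B) ^ (k + 1) - ((k + 1 : ℕ) : ℝ) * (A / B) +
          (((k + 1 : ℕ) : ℝ) - 1)) := by
      rw [div_pow]
      field_simp
      ring
    rw [e]
    exact mul_nonneg hBK.le hx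

section Lam

variable {K : ℕ} {𝔹 X0 : Type} [MeasurableSpace 𝔹] [MeasurableSpace X0]
  {β : Measure 𝔹} [IsProbabilityMeasure β] {PX0 : Measure X0} [IsProbabilityMeasure PX0]

theorem lamT_pos (hK : 1 ≤ K) {bb : 𝔹 → ℝ} (hb : Measurable bb) (hb1 : ∀ b, |bb b| ≤ 1)
    (hn : ∀ n : ℕ, 0 ≤ ∫ b, (-bb b) ^ n ∂β) :
    Pos bb β ((Measure.count : Measure Bool).prod PX0)
      fun z : 𝔹 × (Fin K → Bool × X0) => lamT K fun j => (z.2 j).1 := by
  intro n φ hφ hφ1 hφ0
  rw [integral_lamT (gen_bdm hb hb1 n hφ hφ1), integral_gen_pat, integral_gen_pat]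
  have h1 : ∀ l : Fin K, ∫ z, gen bb n φ (z.1, fun j => (decide (j = l), z.2 j)) ∂(mm K β PX0) =
      (∫ b, (-bb b) ^ n ∂β) * ((∫ x, φ (true, x) ∂PX0) * (∫ x, φ (false, x) ∂PX0) ^ (K - 1)) := by
    intro l
    rw [integral_gen_pat, ← Finset.mul_prod_erase _ _ (Finset.mem_univ l)]
    congr 2
    · simp
    · rw [Finset.prod_congr rfl (g := fun _ => ∫ x, φ (false, x) ∂PX0)]
      · rw [Finset.prod_const, Finset.card_erase_of_mem (Finset.mem_univ l), Finset.card_univ,
          Fintype.card_fin]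
      · intro j hj
        simp [Finset.ne_of_mem_erase hj]
  simp_rw [h1]
  rw [Finset.prod_const, Finset.prod_const, Finset.sum_const, Finset.card_univ, Fintype.card_fin,
    nsmul_eq_mul]
  have h2 := mul_nonneg (hn n) (pow_ineq hK (A := ∫ x, φ (true, x) ∂PX0)
    (B := ∫ x, φ (false, x) ∂PX0) (integral_nonneg fun x => hφ0 _)
    (integral_nonneg fun x => hφ0 _))
  refine h2.trans_eq ?_
  ring

end Lam

section DD

variable {K : ℕ} {𝔹 : Type} [MeasurableSpace 𝔹] {X0 : Type} [MeasurableSpace X0]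
  {S : Type} [Fintype S] {W Y : Type} [MeasurableSpace W] [MeasurableSpace Y] {r : ℕ}
  {fv : X0 → Bool → ℝ} {q : Bool → X0 → (Fin r → Y) → S → Bool → ℝ}
  {P : Measure W} {PY : Measure Y} [IsProbabilityMeasure P]
  [IsProbabilityMeasure PY] [Nonempty S] {m : Fin r → ℝ} {Z : (Fin r → W) → S → ℝ} {z0 z1 : ℝ}
  {β : Measure 𝔹} [IsProbabilityMeasure β] {PX0 : Measure X0} [IsProbabilityMeasure PX0]
  {bb : 𝔹 → ℝ}

theorem D1 (hK : 1 ≤ K) (h : WData fv q)
    (hf0 : ∀ x e, 0 ≤ fv x e) (hz : 0 < z0) (hZ : ∀ σ, Bd z0 z1 fun v => Z v σ)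
    (hm : ∀ p, 0 < m p) (hm1 : ∀ p, m p ≤ 1) (hmono : Monotone m) (hb : Measurable bb)
    (hb1 : ∀ b, |bb b| ≤ 1) (hn : ∀ n : ℕ, 0 ≤ ∫ b, (-bb b) ^ n ∂β) {s : ℝ} (hs0 : 0 ≤ s)
    (hs1 : s < 1) :
    ∫ z, CC P PY m Z (gq fv q) (s * bb z.1) z.2 ∂(mm K β PX0) ≤ 0 := by
  have hg := core_log (K := K) (β := β) (bb := bb) hb hb1 (P := P) (PY := PY) hz hs0 hs1 r m hm
    hm1 hmono ((Measure.count : Measure Bool).prod PX0) Z hZ (gq fv q) h.gmeas h.gle
    fun x v σ => Finset.sum_nonneg fun e _ => mul_nonneg (hf0 _ _) (h.qnn _ _ _ _ _)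
  have h1 := hg.2 _ lamT_bdm (lamT_pos (PX0 := PX0) hK hb hb1 hn)
  rw [integral_lamT hg.1] at h1
  set LD : ℝ := Real.log (nest P r m fun v => ∑ σ, Z v σ) with hLD
  have hI : ∀ τ : Fin K → Bool, Integrable (fun z : 𝔹 × (Fin K → X0) =>
      LD - LN P PY m Z (gq fv q) τ (s * bb z.1) z.2) (mm K β PX0) := fun τ =>
    (pat_bdm τ hg.1).integrable _
  have e : ∀ z : 𝔹 × (Fin K → X0), CC P PY m Z (gq fv q) (s * bb z.1) z.2 =
      -(((LD - LN P PY m Z (gq fv q) (fun _ => true) (s * bb z.1) z.2) -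
        ∑ l, (LD - LN P PY m Z (gq fv q) (fun j => decide (j = l)) (s * bb z.1) z.2)) +
        ((K : ℝ) - 1) * (LD - LN P PY m Z (gq fv q) (fun _ => false) (s * bb z.1) z.2)) := by
    intro z
    unfold CC
    rw [Finset.sum_sub_distrib]
    simp only [Finset.sum_const, Finset.card_univ, Fintype.card_fin, nsmul_eq_mul]
    ring
  simp_rw [e]
  have i1 : Integrable (fun z : 𝔹 × (Fin K → X0) =>
      ∑ l, (LD - LN P PY m Z (gq fv q) (fun j => decide (j = l)) (s * bb z.1) z.2))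
      (mm K β PX0) := integrable_finsetSum _ fun l _ => hI _
  have i2 : Integrable (fun z : 𝔹 × (Fin K → X0) =>
      (LD - LN P PY m Z (gq fv q) (fun _ => true) (s * bb z.1) z.2) -
      ∑ l, (LD - LN P PY m Z (gq fv q) (fun j => decide (j = l)) (s * bb z.1) z.2))
      (mm K β PX0) := (hI _).sub i1
  rw [integral_neg, integral_add i2 ((hI _).const_mul _), integral_sub (hI _) i1,
    integral_finsetSum _ fun l _ => hI _, integral_const_mul]
  have h2 : ∀ τ : Fin K → Bool, ∫ z : 𝔹 × (Fin K → X0), (LD -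
      Real.log (num P PY r m Z (gq fv q) s bb (z.1, fun j => (τ j, z.2 j)))) ∂(mm K β PX0) =
      ∫ z, (LD - LN P PY m Z (gq fv q) τ (s * bb z.1) z.2) ∂(mm K β PX0) := fun τ => rfl
  simp only [h2] at h1
  linarith only [h1]


theorem D2 (hK1 : 1 ≤ K) (h : WData fv q)
    (hf0 : ∀ x e, 0 ≤ fv x e) (hz : 0 < z0)
    (hZ : ∀ σ, Bd z0 z1 fun v => Z v σ)
    (hm : ∀ p, 0 < m p) (hm1 : ∀ p, m p ≤ 1) (hmono : Monotone m) (hb : Measurable bb)
    (hb1 : ∀ b, |bb b| ≤ 1) (hn : ∀ n : ℕ, 0 ≤ ∫ b, (-bb b) ^ n ∂β)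
    (hbad : ∀ᵐ b ∂β, |bb b| < 1)
    (hE : Integrable (fun z : 𝔹 × (Fin K → X0) => EE fv (bb z.1) z.2) (mm K β PX0)) :
    Integrable (fun z : 𝔹 × (Fin K → X0) => CC P PY m Z (gq fv q) (bb z.1) z.2) (mm K β PX0) ∧
    ∫ z, CC P PY m Z (gq fv q) (bb z.1) z.2 ∂(mm K β PX0) ≤ 0 := by
  have hbad' : ∀ᵐ z ∂(mm K β PX0), |bb z.1| < 1 :=
    Measure.quasiMeasurePreserving_fst.ae hbad
  refine ⟨CC_integrable hK1 h hz hZ hm hb hbad' hE, ?_⟩
  exact le_of_tendsto (CC_lim_integral hK1 h hz hZ hm hb hbad' hE) (Eventually.of_forall fun n =>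
    D1 hK1 h hf0 hz hZ hm hm1 hmono hb hb1 hn (sq_nonneg' n) (sq_lt n))

end DD

/-- Clipping to `[0, 1]`. -/
def clip0 (b : ℝ) : ℝ := max 0 (min 1 b)

theorem clip0_nonneg (b : ℝ) : 0 ≤ clip0 b := le_max_left _ _

theorem clip0_abs (b : ℝ) : |clip0 b| ≤ 1 := by
  rw [abs_of_nonneg (clip0_nonneg b)]
  exact max_le zero_le_one (min_le_left _ _)

theorem clip0_meas : Measurable clip0 :=
  measurable_const.max (measurable_const.min measurable_id)

theorem clip0_eq {b : ℝ} (h : b ∈ Set.Icc (0 : ℝ) 1) : clip0 b = b := by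
  unfold clip0
  rw [min_eq_right h.2, max_eq_right h.1]

variable {K N r : ℕ}

/-- The values of `f`. -/
def fv0 {N : ℕ} (x : XX N) (e : Bool) : ℝ := clip0 (x.1.1 e)

theorem wdata0 {xx : (Fin (r + 1) → U01) → ℝ} (hm : Measurable xx)
    (hx : ∀ w, xx w ∈ Set.Icc (-1 : ℝ) 1) : WData (fv0 (N := N)) (qvv xx) where
  fle x e := clip0_abs _
  fmeas e := clip0_meas.comp ((measurable_pi_apply e).comp (measurable_fst.comp measurable_fst))
  qnn := (wdata hm hx).qnn
  qsum := (wdata hm hx).qsum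
  qmeas := (wdata hm hx).qmeas

/-- A clause for which the assumptions hold. -/
def NiceP (c : Clause K) : Prop :=
  0 < c.1 ∧ c.2.1 ∈ Set.Ioo (-1 : ℝ) 1 ∧ ∀ j s, c.2.2 j s ∈ Set.Icc (0 : ℝ) 1

theorem NiceP.nice {c : Clause K} (h : NiceP c) : Nice c :=
  ⟨h.1, h.2.1, fun j s => ⟨by linarith [(h.2.2 j s).1], (h.2.2 j s).2⟩⟩

theorem NiceP.DD_eq {c : Clause K} (h : NiceP c) (I : Fin K → Fin N) (w : Fin K → U01)
    (ε : Fin K → Bool) :
    DD fv0 (PT.clip (Psi ((c, I), w)).1) (Psi ((c, I), w)).2 ε =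
      1 + c.2.1 * ∏ j, c.2.2 j (ε j) := by
  unfold DD Psi zipp fv0
  simp only [h.nice.clipb]
  congr 2
  exact Finset.prod_congr rfl fun j _ => clip0_eq (h.2.2 j (ε j))

section GenF

variable {xx : (Fin (r + 1) → U01) → ℝ} (hm : Measurable xx)
  (hx : ∀ w, xx w ∈ Set.Icc (-1 : ℝ) 1)
variable {W : Type} [MeasurableSpace W] {Z : (Fin r → W) → (Fin N → Bool) → ℝ} {z0 z1 : ℝ}
variable {P : Measure W} [IsProbabilityMeasure P] {m : Fin r → ℝ}

include hm hx in
theorem LG_eq (hz : 0 < z0) (hmp : ∀ p, 0 < m p) (hZ : ∀ σ, Bd z0 z1 fun v => Z v σ)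
    (τ : Fin K → Bool) {y : (Clause K × (Fin K → Fin N)) × (Fin K → U01)} (hy : NiceP y.1.1) :
    LG P m xx Z τ y = Real.log y.1.1.1 +
      LN P volume m Z (gq fv0 (qvv xx)) τ (clip (Psi y).1) (Psi y).2 := by
  have hw := wdata0 (N := N) hm hx
  have hc : (0 : ℝ) < Fintype.card (Fin N → Bool) := by exact_mod_cast Fintype.card_pos
  have e1 : SG xx Z τ y = fun v => y.1.1.1 * numY Z (gq fv0 (qvv xx)) (clip (Psi y).1)
      (fun j => (τ j, (Psi y).2 j)) v := by
    funext v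
    rw [numY_expand hw, Finset.mul_sum]
    unfold SG genF
    refine Finset.sum_congr rfl fun σ _ => ?_
    rw [mul_left_comm, Finset.mul_sum (a := y.1.1.1)]
    congr 1
    refine Finset.sum_congr rfl fun ε _ => ?_
    rw [hy.nice.exp_theta, hy.DD_eq y.1.2 y.2 ε]
    ring
  have ht : |clip (Psi y).1| < 1 := hy.nice.blt
  have hbd := numY_bd (K := K) hz hZ hw.gmeas hw.gle le_rfl ht fun j => (τ j, (Psi y).2 j)
  have h1t : 0 < 1 - |clip (Psi y).1| := by linarith
  have hmem := nest_mem (P := P.prod (Measure.pi fun _ : Fin K => (volume : Measure U01)))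
    (by positivity) r m hmp _ hbd
  have hpos := lt_of_lt_of_le (by positivity) hmem.1
  unfold LG LN
  rw [e1, nest_smul hy.1.le r m hmp _ fun v => le_trans (by positivity) (hbd.lo v),
    Real.log_mul hy.1.ne' hpos.ne']

end GenF

/-- The class of the problem with nonnegative `f_j` and no parity condition: `K ≥ 1`, `a > 0`,
`b ∈ (-1, 1)`, `0 ≤ f_j ≤ 1`, the `f_j` are i.i.d. and independent of `b`, `E (-b)^n ≥ 0` for
`n ≥ 1`, `E max |θ| < ∞` and `E |h| < ∞`. -/
structure PosClass (K : ℕ) (ρ : Measure (Clause K)) (ν : Measure ℝ) : Prop where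
  one_le : 1 ≤ K
  prob_clause : IsProbabilityMeasure ρ
  prob_field : IsProbabilityMeasure ν
  a_pos : ∀ᵐ c ∂ρ, 0 < c.1
  b_mem : ∀ᵐ c ∂ρ, c.2.1 ∈ Set.Ioo (-1 : ℝ) 1
  f_mem : ∀ᵐ c ∂ρ, ∀ j s, c.2.2 j s ∈ Set.Icc (0 : ℝ) 1
  indep : ∃ (β : Measure ℝ) (φ : Measure (Bool → ℝ)), IsProbabilityMeasure β ∧
    IsProbabilityMeasure φ ∧ ρ.map Prod.snd = β.prod (Measure.pi fun _ : Fin K => φ)
  positivity : ∀ n : ℕ, 1 ≤ n → 0 ≤ ∫ c, (-c.2.1) ^ n ∂ρ
  theta_int : ∀ σ, Integrable (fun c => theta c σ) ρ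
  field_int : Integrable (fun h => h) ν

theorem maxTheta_int {ρ : Measure (Clause K)} {ν : Measure ℝ} (h : PosClass K ρ ν) :
    Integrable (maxTheta : Clause K → ℝ) ρ := by
  refine Integrable.mono' (integrable_finsetSum Finset.univ fun σ _ => (h.theta_int σ).abs)
    measurable_maxTheta.aestronglyMeasurable (Eventually.of_forall fun c => ?_)
  rw [Real.norm_eq_abs, abs_of_nonneg (maxTheta_nonneg c)]
  exact maxTheta_le_sum c

theorem nice_ae {ρ : Measure (Clause K)} {ν : Measure ℝ} (h : PosClass K ρ ν) :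
    ∀ᵐ c ∂ρ, NiceP c := by
  filter_upwards [h.a_pos, h.b_mem, h.f_mem] with c h1 h2 h3
  exact ⟨h1, h2, h3⟩

theorem nice_ae3 {ρ : Measure (Clause K)} {ν : Measure ℝ} (h : PosClass K ρ ν) [NeZero N] :
    ∀ᵐ y ∂(cl3 ρ N), NiceP y.1.1 := by
  have := h.prob_clause
  have h1 : ∀ᵐ z ∂(ρ.prod (Measure.pi fun _ : Fin K => unif N)), NiceP z.1 :=
    Measure.quasiMeasurePreserving_fst.ae (nice_ae h)
  exact Measure.quasiMeasurePreserving_fst.ae h1

theorem clip_ae {ρ : Measure (Clause K)} {ν : Measure ℝ} (h : PosClass K ρ ν) {β : Measure ℝ}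
    {φ : Measure (Bool → ℝ)} [IsProbabilityMeasure β] [IsProbabilityMeasure φ]
    (hind : ρ.map Prod.snd = β.prod (Measure.pi fun _ : Fin K => φ)) :
    ∀ᵐ b ∂β, |clip b| < 1 := by
  have hb := b_mp hind
  rw [← hb.map_eq, ae_map_iff hb.measurable.aemeasurable
    (measurableSet_lt clip_meas.abs measurable_const)]
  exact (nice_ae h).mono fun c hc => hc.nice.blt

theorem clip_pow {ρ : Measure (Clause K)} {ν : Measure ℝ} (h : PosClass K ρ ν) {β : Measure ℝ}
    {φ : Measure (Bool → ℝ)} [IsProbabilityMeasure β] [IsProbabilityMeasure φ]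
    (hind : ρ.map Prod.snd = β.prod (Measure.pi fun _ : Fin K => φ)) (n : ℕ) :
    0 ≤ ∫ b, (-clip b) ^ n ∂β := by
  rcases Nat.eq_zero_or_pos n with h0 | h0
  · subst h0; simp
  have hb := b_mp hind
  have hmc : Measurable fun b => (-clip b) ^ n := clip_meas.neg.pow_const n
  rw [← hb.map_eq, integral_map hb.measurable.aemeasurable hmc.aestronglyMeasurable]
  refine (h.positivity n h0).trans_eq ?_
  refine integral_congr_ae ((nice_ae h).mono fun c hc => ?_)
  simp only [hc.nice.clipb]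

theorem measurable_EE : Measurable fun z : ℝ × (Fin K → XX N) => EE fv0 (clip z.1) z.2 := by
  unfold EE
  have hD : ∀ ε : Fin K → Bool, Measurable fun z : ℝ × (Fin K → XX N) =>
      Real.log (DD fv0 (clip z.1) z.2 ε) := by
    intro ε
    refine Real.measurable_log.comp ?_
    unfold DD fv0
    refine measurable_const.add ((clip_meas.comp measurable_fst).mul
      (Finset.measurable_fun_prod _ fun j _ => ?_))
    exact clip0_meas.comp ((measurable_pi_apply (ε j)).comp (measurable_fst.comp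
      (measurable_fst.comp ((measurable_pi_apply j).comp measurable_snd))))
  exact Finset.measurable_fun_sum _ fun ε _ => ((hD ε).sub (hD _)).abs

theorem EE_int {ρ : Measure (Clause K)} {ν : Measure ℝ} (h : PosClass K ρ ν) {β : Measure ℝ}
    {φ : Measure (Bool → ℝ)} [IsProbabilityMeasure β] [IsProbabilityMeasure φ] [NeZero N]
    (hind : ρ.map Prod.snd = β.prod (Measure.pi fun _ : Fin K => φ)) :
    Integrable (fun z : ℝ × (Fin K → XX N) => EE fv0 (clip z.1) z.2)
      (mm K β ((φ.prod (unif N)).prod volume)) := by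
  have := h.prob_clause
  have hΨ := Psi_mp (N := N) hind
  rw [← hΨ.integrable_comp measurable_EE.aestronglyMeasurable]
  have h1 : Integrable (fun y : (Clause K × (Fin K → Fin N)) × (Fin K → U01) =>
      maxTheta y.1.1) (cl3 ρ N) :=
    ((maxTheta_int h).comp_fst (Measure.pi fun _ : Fin K => unif N)).comp_fst
      (Measure.pi fun _ : Fin K => (volume : Measure U01))
  refine Integrable.mono' (h1.const_mul (Fintype.card (Fin K → Bool) * 2))
    (measurable_EE.comp measurable_Psi).aestronglyMeasurable ((nice_ae3 h).mono fun y hy => ?_)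
  have e : ∀ ε : Fin K → Bool, Real.log (DD fv0 (clip (Psi y).1) (Psi y).2 ε) =
      theta y.1.1 ε - Real.log y.1.1.1 := by
    intro ε
    rw [hy.DD_eq y.1.2 y.2 ε, hy.nice.theta_eq]
    ring
  have h2 : 0 ≤ EE fv0 (clip (Psi y).1) (Psi y).2 := Finset.sum_nonneg fun _ _ => abs_nonneg _
  change ‖EE fv0 (clip (Psi y).1) (Psi y).2‖ ≤ _
  rw [Real.norm_eq_abs, abs_of_nonneg h2]
  unfold EE
  calc ∑ ε : Fin K → Bool, |Real.log (DD fv0 (clip (Psi y).1) (Psi y).2 ε) -
        Real.log (DD fv0 (clip (Psi y).1) (Psi y).2 fun _ => true)|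
      ≤ ∑ _ε : Fin K → Bool, 2 * maxTheta y.1.1 := by
        refine Finset.sum_le_sum fun ε _ => ?_
        rw [e, e, sub_sub_sub_cancel_right]
        have a1 := abs_theta_le y.1.1 ε
        have a2 := abs_theta_le y.1.1 fun _ => true
        have a3 := abs_sub (theta y.1.1 ε) (theta y.1.1 fun _ => true)
        linarith only [a1, a2, a3]
    _ = _ := by
        rw [Finset.sum_const, Finset.card_univ, nsmul_eq_mul]
        ring

theorem star {ρ : Measure (Clause K)} {ν : Measure ℝ} (h : PosClass K ρ ν)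
    {m : Fin r → ℝ} {x : (Fin (r + 1) → U01) → ℝ} (hx : IsTrial r m x) [NeZero N]
    {W : Type} [MeasurableSpace W] {P : Measure W} [IsProbabilityMeasure P]
    {z0 z1 : ℝ} (hz : 0 < z0) {Z : (Fin r → W) → (Fin N → Bool) → ℝ}
    (hZ : ∀ σ, Bd z0 z1 fun v => Z v σ) :
    (∫ y, Real.log (nest P r m fun v => ∑ σ, Z v σ * intF y σ) ∂(cl3 ρ N)) +
      ((K : ℝ) - 1) * (∫ y, Real.log (nest (P.prod (Measure.pi fun _ : Fin K => volume)) r m
        fun v => ∑ σ, Z (fun p => (v p).1) σ * edgF x y fun p => (v p).2) ∂(cl3 ρ N)) ≤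
      ∑ l : Fin K, ∫ y, Real.log (nest (P.prod (Measure.pi fun _ : Fin K => volume)) r m
        fun v => ∑ σ, Z (fun p => (v p).1) σ * cavF x y l (fun p => (v p).2) σ) ∂(cl3 ρ N) := by
  have := h.prob_clause
  obtain ⟨β, φ, hβ, hφ, hind⟩ := h.indep
  obtain ⟨hmono, hm, hxm, hx1⟩ := hx
  have hmp : ∀ p, 0 < m p := fun p => (hm p).1
  have hK1 : 1 ≤ K := h.one_le
  have hρ := maxTheta_int h
  have hz1 : 0 < z1 := by
    obtain ⟨w⟩ : Nonempty W := P.nonempty_of_neZero
    have h1 := (hZ fun _ => true).lo fun _ => w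
    have h2 := (hZ fun _ => true).hi fun _ => w
    linarith only [hz, h1, h2]
  have hΨ := Psi_mp (N := N) hind
  obtain ⟨hCi, hC⟩ := D2 (K := K) (P := P) (PY := (volume : Measure U01)) (β := β)
    (PX0 := (φ.prod (unif N)).prod (volume : Measure U01)) (bb := clip) hK1
    (wdata0 (N := N) hxm hx1) (fun _ _ => clip0_nonneg _) hz hZ hmp (fun p => (hm p).2.le) hmono.monotone clip_meas clip_abs
    (clip_pow h hind) (clip_ae h hind) (EE_int h hind)
  have hCm := measurable_CCs (K := K) (P := P) (PY := (volume : Measure U01)) (m := m)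
    (wdata0 (N := N) hxm hx1) hZ clip_meas
  have hI : ∀ τ : Fin K → Bool, Integrable (LG P m x Z τ) (cl3 ρ N) := fun τ =>
    LG_integrable hxm hx1 hρ hz hz1 hmp hZ τ
  have hcomb : (∫ y, LG P m x Z (fun _ => true) y ∂(cl3 ρ N)) + ((K : ℝ) - 1) *
      (∫ y, LG P m x Z (fun _ => false) y ∂(cl3 ρ N)) -
      ∑ l : Fin K, ∫ y, LG P m x Z (fun j => decide (j = l)) y ∂(cl3 ρ N) ≤ 0 := by
    rw [← integral_const_mul, ← integral_finsetSum _ fun l _ => hI _,
      ← integral_add (hI _) ((hI _).const_mul _)]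
    have i1 : Integrable (fun y => LG P m x Z (fun _ => true) y +
        ((K : ℝ) - 1) * LG P m x Z (fun _ => false) y) (cl3 ρ N) :=
      (hI _).add ((hI _).const_mul _)
    rw [← integral_sub i1 (integrable_finsetSum _ fun l _ => hI _)]
    refine le_trans (le_of_eq ?_) hC
    rw [← hΨ.map_eq, integral_map hΨ.measurable.aemeasurable hCm.aestronglyMeasurable]
    refine integral_congr_ae ((nice_ae3 h).mono fun y hy => ?_)
    have e := fun τ => LG_eq hxm hx1 hz (P := P) hmp hZ τ hy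
    simp only [e, CC, Finset.sum_add_distrib, Finset.sum_const, Finset.card_univ,
      Fintype.card_fin, nsmul_eq_mul]
    ring
  have f1 : ∀ y : (Clause K × (Fin K → Fin N)) × (Fin K → U01), LG P m x Z (fun _ => true) y =
      Real.log (nest P r m fun v => ∑ σ, Z v σ * intF y σ) := by
    intro y
    unfold LG
    have h1 : SG x Z (fun _ => true) y = fun v : Fin r → W × (Fin K → U01) =>
        (fun u : Fin r → W => ∑ σ, Z u σ * intF y σ) fun p => (v p).1 := by
      funext v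
      unfold SG
      simp only [genF_true]
    rw [h1, nest_comp fst_mp r m (fun u : Fin r → W => ∑ σ, Z u σ * intF y σ)]
    exact Finset.measurable_fun_sum _ fun σ _ => (hZ σ).meas.mul_const _
  have f2 : ∀ y : (Clause K × (Fin K → Fin N)) × (Fin K → U01), LG P m x Z (fun _ => false) y =
      Real.log (nest (P.prod (Measure.pi fun _ : Fin K => volume)) r m
        fun v => ∑ σ, Z (fun p => (v p).1) σ * edgF x y fun p => (v p).2) := by
    intro y
    unfold LG SG
    simp only [genF_false]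
  have f3 : ∀ (l : Fin K) (y : (Clause K × (Fin K → Fin N)) × (Fin K → U01)), LG P m x Z (fun j => decide (j = l)) y =
      Real.log (nest (P.prod (Measure.pi fun _ : Fin K => volume)) r m
        fun v => ∑ σ, Z (fun p => (v p).1) σ * cavF x y l (fun p => (v p).2) σ) := by
    intro l y
    unfold LG SG
    simp only [genF_one]
  simp only [f1, f2, f3] at hcomb
  linarith only [hcomb]


end Vale.Agent.P168.PN

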