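import Vale.Agent.P168.H45.Star

/-! The Panchenko-Talagrand upper bound for nonnegative functions `f_j` and every `K ≥ 1`. -/

set_option autoImplicit false
set_option linter.unusedSectionVars false

open MeasureTheory ProbabilityTheory
open scoped NNReal

namespace Vale.Agent.P168.PN

open Vale.Agent.P168.PT

variable {K N r a n : ℕ}

theorem neZero_of {ρ : Measure (Clause K)} {ν : Measure ℝ} (h : PosClass K ρ ν) : NeZero K :=
  ⟨by have := h.one_le; omega⟩

section Int

variable {ρ : Measure (Clause K)} {ν : Measure ℝ} [IsProbabilityMeasure ρ]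
  [IsProbabilityMeasure ν] [NeZero N] [NeZero K]

theorem integrable_FF (h : PosClass K ρ ν) {m : Fin r → ℝ} {x : (Fin (r + 1) → U01) → ℝ}
    (hx : IsTrial r m x) : Integrable (fun ω : Om K N a n => FF m x ω) (om ρ ν N a n) := by
  refine ((integrable_Bw (maxTheta_int h) h.field_int).add
    (integrable_const (N * Real.log 2))).mono' (measurable_FF m hx.2.2.1).aestronglyMeasurable ?_
  exact Filter.Eventually.of_forall fun ω => abs_FF_le hx ω

theorem abs_TT_le (h : PosClass K ρ ν) {m : Fin r → ℝ} {x : (Fin (r + 1) → U01) → ℝ}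
    (hx : IsTrial r m x) (a n : ℕ) :
    |TT ρ ν m x N a n| ≤ (a + n) * (∫ c, maxTheta c ∂ρ) +
      N * (∫ h, |h| ∂ν + Real.log 2) := by
  unfold TT
  have h1 : |∫ ω : Om K N a n, FF m x ω ∂(om ρ ν N a n)| ≤
      ∫ ω : Om K N a n, |FF m x ω| ∂(om ρ ν N a n) := abs_integral_le_integral_abs
  have h2 : ∫ ω : Om K N a n, |FF m x ω| ∂(om ρ ν N a n) ≤
      ∫ ω : Om K N a n, (Bw ω + N * Real.log 2) ∂(om ρ ν N a n) :=
    integral_mono (integrable_FF h hx).abs ((integrable_Bw (maxTheta_int h) h.field_int).add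
      (integrable_const _)) fun ω => abs_FF_le hx ω
  rw [integral_add (integrable_Bw (maxTheta_int h) h.field_int) (integrable_const _),
    integral_Bw (maxTheta_int h) h.field_int, integral_const, probReal_univ, one_smul] at h2
  linarith


/-- adding one interaction. -/
theorem TT_succ_left (h : PosClass K ρ ν) {m : Fin r → ℝ} {x : (Fin (r + 1) → U01) → ℝ}
    (hx : IsTrial r m x) :
    TT ρ ν m x N (a + 1) n = ∫ ω : Om K N a n, (∫ y, Real.log
      (nest (Measure.pi fun _ : Fin n => lvM K) r m fun v =>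
        ∑ σ, wt x ω v σ * intF y σ) ∂(cl3 ρ N)) ∂(om ρ ν N a n) := by
  unfold TT
  have hmp := insA_mp (K := K) (N := N) ρ ν a n
  rw [← mp_integral hmp (measurable_FF m hx.2.2.1).aestronglyMeasurable, integral_prod]
  · simp only [FF_insA]
  · exact hmp.integrable_comp_of_integrable (integrable_FF h hx)

theorem TT_succ_left_int (h : PosClass K ρ ν) {m : Fin r → ℝ} {x : (Fin (r + 1) → U01) → ℝ}
    (hx : IsTrial r m x) :
    Integrable (fun ω : Om K N a n => (∫ y, Real.log
      (nest (Measure.pi fun _ : Fin n => lvM K) r m fun v =>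
        ∑ σ, wt x ω v σ * intF y σ) ∂(cl3 ρ N))) (om ρ ν N a n) := by
  have hmp := insA_mp (K := K) (N := N) ρ ν a n
  have h1 := (hmp.integrable_comp_of_integrable (integrable_FF (m := m) (x := x) h hx))
  have h2 := h1.integral_prod_left
  simpa only [Function.comp, FF_insA] using h2

/-- adding one cavity clause. -/
theorem TT_succ_right (h : PosClass K ρ ν) {m : Fin r → ℝ} {x : (Fin (r + 1) → U01) → ℝ}
    (hx : IsTrial r m x) :
    TT ρ ν m x N a (n + 1) = ∫ ω : Om K N a n, (∫ q : Y3 K N × Fin K, Real.log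
      (nest ((Measure.pi fun _ : Fin n => lvM K).prod (lvM K)) r m fun v =>
        ∑ σ, wt x ω (fun p => (v p).1) σ * cavF x q.1 q.2 (fun p => (v p).2) σ)
        ∂((cl3 ρ N).prod (unif K))) ∂(om ρ ν N a n) := by
  unfold TT
  have hmp := insC_mp (K := K) (N := N) ρ ν a n
  have hmp2 := (MeasurePreserving.id (om ρ ν N a n)).prod (toC4_mp (N := N) ρ)
  have hmp3 := hmp.comp hmp2
  rw [← mp_integral hmp3 (measurable_FF m hx.2.2.1).aestronglyMeasurable, integral_prod]
  · simp only [Function.comp, Prod.map, id]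
    simp only [FF_insC m hx.2.2.1]
    rfl
  · exact hmp3.integrable_comp_of_integrable (integrable_FF h hx)

theorem TT_succ_right_int (h : PosClass K ρ ν) {m : Fin r → ℝ} {x : (Fin (r + 1) → U01) → ℝ}
    (hx : IsTrial r m x) :
    Integrable (fun ω : Om K N a n => (∫ q : Y3 K N × Fin K, Real.log
      (nest ((Measure.pi fun _ : Fin n => lvM K).prod (lvM K)) r m fun v =>
        ∑ σ, wt x ω (fun p => (v p).1) σ * cavF x q.1 q.2 (fun p => (v p).2) σ)
        ∂((cl3 ρ N).prod (unif K)))) (om ρ ν N a n) := by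
  have hmp := insC_mp (K := K) (N := N) ρ ν a n
  have hmp2 := (MeasurePreserving.id (om ρ ν N a n)).prod (toC4_mp (N := N) ρ)
  have hmp3 := hmp.comp hmp2
  have h1 := (hmp3.integrable_comp_of_integrable (integrable_FF (m := m) (x := x) h hx))
  have h2 := h1.integral_prod_left
  simp only [Function.comp, Prod.map, id, FF_insC m hx.2.2.1] at h2
  exact h2


/-- for a fixed environment, the average over the distinguished index. -/
theorem right_fixed (h : PosClass K ρ ν) {m : Fin r → ℝ} {x : (Fin (r + 1) → U01) → ℝ}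
    (hx : IsTrial r m x) (ω : Om K N a n) :
    (K : ℝ) * ∫ q : Y3 K N × Fin K, Real.log
      (nest ((Measure.pi fun _ : Fin n => lvM K).prod (lvM K)) r m fun v =>
        ∑ σ, wt x ω (fun p => (v p).1) σ * cavF x q.1 q.2 (fun p => (v p).2) σ)
        ∂((cl3 ρ N).prod (unif K)) =
    ∑ l : Fin K, ∫ y, Real.log (nest ((Measure.pi fun _ : Fin n => lvM K).prod
        (Measure.pi fun _ : Fin K => volume)) r m
        fun v => ∑ σ, wt x ω (fun p => (v p).1) σ * cavF x y l (fun p => (v p).2) σ)
        ∂(cl3 ρ N) := by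
  have hG : Integrable (fun q : C4 K N => FF m x (insC (ω, q))) (c4 ρ N) := by
    have h1 : Integrable (fun q : C4 K N => (Bw ω + N * Real.log 2) + maxTheta q.1.1.1)
        (c4 ρ N) :=
      (integrable_const _).add ((((maxTheta_int h).comp_fst _).comp_fst _).comp_fst _)
    have hm : Measurable fun q : C4 K N => FF m x (insC (ω, q)) := by
      have h2 : Measurable fun q : C4 K N => (insC (ω, q) : Om K N a (n + 1)) := by
        change Measurable fun q : C4 K N => ((ω.1, ((Fin.cons q ω.2.1 : Fin (n + 1) → C4 K N),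
          ω.2.2)) : Om K N a (n + 1))
        refine measurable_const.prodMk (Measurable.prodMk ?_ measurable_const)
        exact measurable_cons.comp (measurable_id.prodMk measurable_const)
      exact (measurable_FF m hx.2.2.1).comp h2
    refine h1.mono' hm.aestronglyMeasurable (Filter.Eventually.of_forall fun q => ?_)
    have h3 := abs_FF_le hx (insC (ω, q))
    rw [Bw_insC] at h3
    rw [Real.norm_eq_abs]
    linarith
  have hG2 := (toC4_mp (N := N) ρ).integrable_comp_of_integrable hG
  simp only [Function.comp_def, FF_insC m hx.2.2.1] at hG2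
  have hK : (K : ℝ) ≠ 0 := by exact_mod_cast NeZero.ne K
  have e1 := integral_prod_symm _ hG2
  have e2 : ∀ (q : Y3 K N × Fin K) (v : Fin r → Lv K) (σ : Fin N → Bool),
      cavC x (toC4 q) v σ = cavF x q.1 q.2 v σ := fun q v σ => rfl
  simp only [e2] at e1
  rw [e1, KS.integral_unif]
  field_simp


theorem integrable_edge (h : PosClass K ρ ν) {m : Fin r → ℝ} {x : (Fin (r + 1) → U01) → ℝ}
    (hx : IsTrial r m x) :
    Integrable (fun y : Y3 K N => Real.log (nest (lvM K) r m fun v => edgF x y v))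
      (cl3 ρ N) := by
  have h1 : Integrable (fun y : Y3 K N => maxTheta y.1.1) (cl3 ρ N) :=
    ((maxTheta_int h).comp_fst _).comp_fst _
  refine h1.mono' ?_ (Filter.Eventually.of_forall fun y => ?_)
  · refine (Real.measurable_log.comp (measurable_nest (lvM K) r m
      (fun (y : Y3 K N) v => edgF x y v) ?_)).aestronglyMeasurable
    refine measurable_edgeFactor.comp (f := fun z : Y3 K N × (Fin r → Lv K) =>
      (z.1.1.1, msgs x z.1.2 z.2)) (Measurable.prodMk ?_ ?_)
    · exact measurable_fst.comp (measurable_fst.comp measurable_fst)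
    · exact (measurable_msgs hx.2.2.1).comp ((measurable_snd.comp measurable_fst).prodMk
        measurable_snd)
  · have h2 := nest_mem (P := lvM K) (Real.exp_pos _) r m (fun p => (hx.2.1 p).1) _
      (edgF_bd hx.2.2.1 hx.2.2.2 y)
    exact log_abs_of_mem h2.1 h2.2

/-- edge factors. -/
theorem edge_fixed (h : PosClass K ρ ν) {m : Fin r → ℝ} {x : (Fin (r + 1) → U01) → ℝ}
    (hx : IsTrial r m x) (ω : Om K N a n) :
    (∫ y, Real.log (nest ((Measure.pi fun _ : Fin n => lvM K).prod
        (Measure.pi fun _ : Fin K => volume)) r m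
        fun v => ∑ σ, wt x ω (fun p => (v p).1) σ * edgF x y fun p => (v p).2) ∂(cl3 ρ N)) =
      FF m x ω + tV ρ m x N := by
  have hm : ∀ p, 0 < m p := fun p => (hx.2.1 p).1
  have e1 : ∀ y : Y3 K N, Real.log (nest ((Measure.pi fun _ : Fin n => lvM K).prod
        (Measure.pi fun _ : Fin K => volume)) r m
        fun v => ∑ σ, wt x ω (fun p => (v p).1) σ * edgF x y fun p => (v p).2) =
      FF m x ω + Real.log (nest (lvM K) r m fun v => edgF x y v) := by
    intro y
    have hpos : ∀ v, 0 < edgF x y v := fun v => (Real.exp_pos _).trans_le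
      (edgeFactor_mem y.1.1 (msgs x y.2 v) fun j => msgs_abs hx.2.2.2 _ _ j).1
    have hbd := sum_bd (wt_bd hx.2.2.1 hx.2.2.2 ω)
    have h1 := nest_mul (P := Measure.pi fun _ : Fin n => lvM K) (P' := lvM K) r m hm
      (fun v => ∑ σ, wt x ω v σ)
      (fun v => (mul_nonneg (Nat.cast_nonneg _) (Real.exp_pos _).le).trans (hbd.lo v))
      (fun v => edgF x y v) (fun v => (hpos v).le)
    simp only [← Finset.sum_mul]
    rw [h1, Real.log_mul]
    · rfl
    · have h2 := nest_mem (P := Measure.pi fun _ : Fin n => lvM K)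
        (mul_pos (by exact_mod_cast Fintype.card_pos) (Real.exp_pos _)) r m hm _ hbd
      exact (lt_of_lt_of_le (mul_pos (by exact_mod_cast Fintype.card_pos) (Real.exp_pos _))
        h2.1).ne'
    · have h2 := nest_mem (P := lvM K) (Real.exp_pos _) r m hm _
        (edgF_bd hx.2.2.1 hx.2.2.2 y)
      exact ((Real.exp_pos _).trans_le h2.1).ne'
  simp only [e1]
  rw [integral_add (integrable_const _) (integrable_edge h hx), integral_const, probReal_univ,
    one_smul]
  rfl

/-- the interpolation inequality. -/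
theorem TT_step (h : PosClass K ρ ν) {m : Fin r → ℝ} {x : (Fin (r + 1) → U01) → ℝ}
    (hx : IsTrial r m x) (a n : ℕ) :
    TT ρ ν m x N (a + 1) n + ((K : ℝ) - 1) * (TT ρ ν m x N a n + tV ρ m x N) ≤
      K * TT ρ ν m x N a (n + 1) := by
  rw [TT_succ_left h hx, TT_succ_right h hx, ← integral_const_mul]
  simp only [right_fixed h hx]
  have e1 : TT ρ ν m x N a n + tV ρ m x N =
      ∫ ω : Om K N a n, (FF m x ω + tV ρ m x N) ∂(om ρ ν N a n) := by
    rw [integral_add (integrable_FF h hx) (integrable_const _), integral_const, probReal_univ,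
      one_smul]
    rfl
  have i1 := TT_succ_left_int (a := a) (n := n) (N := N) h hx
  have i2 : Integrable (fun ω : Om K N a n => ((K : ℝ) - 1) * (FF m x ω + tV ρ m x N))
      (om ρ ν N a n) := ((integrable_FF h hx).add (integrable_const _)).const_mul _
  rw [e1, ← integral_const_mul, ← integral_add i1 i2]
  have i3 := (TT_succ_right_int (a := a) (n := n) (N := N) h hx).const_mul (K : ℝ)
  simp only [right_fixed h hx] at i3
  refine integral_mono (i1.add i2) i3 fun ω => ?_
  have hs := star h hx (P := Measure.pi fun _ : Fin n => lvM K) (Real.exp_pos _)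
    (wt_bd hx.2.2.1 hx.2.2.2 ω)
  rw [edge_fixed h hx ω] at hs
  exact hs


end Int

section Iter

variable {ρ : Measure (Clause K)} {ν : Measure ℝ} [IsProbabilityMeasure ρ]
  [IsProbabilityMeasure ν] [NeZero N] [NeZero K]

theorem TT_growth2 (h : PosClass K ρ ν) {m : Fin r → ℝ} {x : (Fin (r + 1) → U01) → ℝ}
    (hx : IsTrial r m x) : ExpGrowth2 fun k l => TT ρ ν m x N k 0 + l * tV ρ m x N := by
  set L := ∫ c, maxTheta c ∂ρ with hL
  set C := (N : ℝ) * (∫ h, |h| ∂ν + Real.log 2) with hC
  have hL0 : 0 ≤ L := integral_nonneg fun c => maxTheta_nonneg c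
  have hC0 : 0 ≤ C := by
    have : 0 ≤ ∫ h, |h| ∂ν := integral_nonneg fun h => abs_nonneg h
    have h2 : 0 ≤ Real.log 2 := Real.log_nonneg (by norm_num)
    positivity
  refine ⟨L + C + |tV ρ m x N|, 2, by positivity, by norm_num, fun k l => ?_⟩
  have h1 := abs_TT_le (N := N) h hx k 0
  have h2 := abs_add_le (TT ρ ν m x N k 0) (l * tV ρ m x N)
  rw [abs_mul, Nat.abs_cast] at h2
  have hk := nat_le_two_pow_real k
  have hl := nat_le_two_pow_real l
  have hk1 : (1 : ℝ) ≤ 2 ^ k := one_le_pow₀ (by norm_num)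
  have hl1 : (1 : ℝ) ≤ 2 ^ l := one_le_pow₀ (by norm_num)
  have hkl : (k : ℝ) ≤ 2 ^ k * 2 ^ l := by nlinarith only [hl1, hk]
  have hkl2 : (l : ℝ) ≤ 2 ^ k * 2 ^ l := by nlinarith only [hl, hk1]
  have hkl1 : (1 : ℝ) ≤ 2 ^ k * 2 ^ l := by nlinarith only [hk1, hl1]
  push_cast at h1
  have h3 : |TT ρ ν m x N k 0| ≤ (L + C) * (2 ^ k * 2 ^ l) := by
    refine h1.trans ?_
    have := mul_le_mul_of_nonneg_right hkl hL0
    have := mul_le_mul_of_nonneg_left hkl1 hC0
    nlinarith
  have h4 : (l : ℝ) * |tV ρ m x N| ≤ |tV ρ m x N| * (2 ^ k * 2 ^ l) := by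
    rw [mul_comm]
    exact mul_le_mul_of_nonneg_left hkl2 (abs_nonneg _)
  calc _ ≤ |TT ρ ν m x N k 0| + l * |tV ρ m x N| := h2
    _ ≤ (L + C) * (2 ^ k * 2 ^ l) + |tV ρ m x N| * (2 ^ k * 2 ^ l) := add_le_add h3 h4
    _ = _ := by ring

theorem TT_growth_left (h : PosClass K ρ ν) {m : Fin r → ℝ} {x : (Fin (r + 1) → U01) → ℝ}
    (hx : IsTrial r m x) : ExpGrowth fun k => TT ρ ν m x N k 0 := by
  obtain ⟨C, A, hC, hA, hb⟩ := TT_growth2 (N := N) h hx
  refine ⟨C, A, hC, hA, fun k => ?_⟩
  simpa only [CharP.cast_eq_zero, zero_mul, add_zero, pow_zero, mul_one] using hb k 0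

theorem TT_growth_right (h : PosClass K ρ ν) {m : Fin r → ℝ} {x : (Fin (r + 1) → U01) → ℝ}
    (hx : IsTrial r m x) : ExpGrowth fun n => TT ρ ν m x N 0 n := by
  have hL0 : 0 ≤ ∫ c, maxTheta c ∂ρ := integral_nonneg fun c => maxTheta_nonneg c
  refine expGrowth_of_linear (c := N * (∫ h, |h| ∂ν + Real.log 2))
    (d := ∫ c, maxTheta c ∂ρ) (fun n => ?_) ?_ hL0
  · have h1 := abs_TT_le (N := N) h hx 0 n
    push_cast at h1
    linarith
  · have : 0 ≤ ∫ h, |h| ∂ν := integral_nonneg fun h => abs_nonneg h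
    have h2 : 0 ≤ Real.log 2 := Real.log_nonneg (by norm_num)
    positivity

theorem TT_iter (h : PosClass K ρ ν) {m : Fin r → ℝ} {x : (Fin (r + 1) → U01) → ℝ}
    (hx : IsTrial r m x) (lam : ℝ≥0) :
    (∫ k, TT ρ ν m x N k 0 ∂(poissonMeasure (lam * N))) +
      ((K : ℝ) - 1) * lam * N * tV ρ m x N ≤
      ∫ n, TT ρ ν m x N 0 n ∂(poissonMeasure (K * lam * N)) := by
  have hK0 : (0 : ℝ) < K := by exact_mod_cast NeZero.pos K
  have hK1 : 1 ≤ K := NeZero.pos K
  set p : ℝ≥0 := 1 / K with hp
  set q : ℝ≥0 := ((K - 1 : ℕ) : ℝ≥0) / K with hq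
  have hKn : (K : ℝ≥0) ≠ 0 := by exact_mod_cast NeZero.ne K
  have hpq : p + q = 1 := by
    rw [hp, hq, ← add_div, div_eq_one_iff_eq hKn]
    norm_cast
    omega
  have hpr : (p : ℝ) = 1 / K := by rw [hp]; push_cast; rfl
  have hqr : (q : ℝ) = ((K : ℝ) - 1) / K := by
    rw [hq, NNReal.coe_div, NNReal.coe_natCast, NNReal.coe_natCast, Nat.cast_sub hK1,
      Nat.cast_one]
  have hB := TT_growth2 (N := N) h hx
  have h1 : ∀ n, bmix p q (fun k l => TT ρ ν m x N k 0 + l * tV ρ m x N) n 0 0 ≤
      TT ρ ν m x N 0 n := by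
    intro n
    have h2 := binom_iter_ge (fun n k l => TT ρ ν m x N k n + l * tV ρ m x N) p q
      (NNReal.coe_nonneg _) (NNReal.coe_nonneg _) ?_ n 0 0
    · simpa only [ge_iff_le, CharP.cast_eq_zero, zero_mul, add_zero] using h2
    · intro n k l
      have h3 := TT_step (N := N) h hx k n
      rw [hpr, hqr]
      have h4 : 1 / (K : ℝ) * (TT ρ ν m x N (k + 1) n + l * tV ρ m x N) +
          ((K : ℝ) - 1) / K * (TT ρ ν m x N k n + ((l + 1 : ℕ) : ℝ) * tV ρ m x N) =
          1 / K * (TT ρ ν m x N (k + 1) n + ((K : ℝ) - 1) *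
            (TT ρ ν m x N k n + tV ρ m x N)) + l * tV ρ m x N := by
        push_cast
        field_simp
        ring
      rw [h4]
      have h5 : 1 / (K : ℝ) * (TT ρ ν m x N (k + 1) n + ((K : ℝ) - 1) *
            (TT ρ ν m x N k n + tV ρ m x N)) ≤ TT ρ ν m x N k (n + 1) := by
        rw [one_div_mul_eq_div, div_le_iff₀ hK0]
        linarith only [h3]
      linarith only [h5]
  have h2 := pois_mono (bmix_growth hB p q (NNReal.coe_nonneg _) (NNReal.coe_nonneg _)
    (by exact_mod_cast hpq)) (TT_growth_right (N := N) h hx) (K * lam * N) h1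
  rw [pois_bmix hB _ p q hpq] at h2
  have e1 : p * (K * lam * N) = lam * N := by
    rw [hp]; field_simp
  have e2 : ((q * (K * lam * N) : ℝ≥0) : ℝ) = ((K : ℝ) - 1) * lam * N := by
    push_cast
    rw [hqr]
    (clear * - hK1; field_simp)
  have h3 : ∀ k, ∫ l : ℕ, (TT ρ ν m x N k 0 + l * tV ρ m x N)
      ∂(poissonMeasure (q * (K * lam * N))) =
      TT ρ ν m x N k 0 + ((K : ℝ) - 1) * lam * N * tV ρ m x N := by
    intro k
    have g1 : ExpGrowth fun l : ℕ => (l : ℝ) :=
      expGrowth_of_linear (c := 0) (d := 1) (fun n => by simp) le_rfl zero_le_one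
    rw [integral_add (integrable_const _) ((g1.integrable _).mul_const _), integral_const,
      probReal_univ, one_smul, integral_mul_const, pois_mean, e2]
  simp only [h3] at h2
  rw [e1, integral_add ((TT_growth_left (N := N) h hx).integrable _) (integrable_const _),
    integral_const, probReal_univ, one_smul] at h2
  exact h2


theorem TT_zero_right (h : PosClass K ρ ν) {m : Fin r → ℝ} {x : (Fin (r + 1) → U01) → ℝ}
    (hx : IsTrial r m x) :
    TT ρ ν m x N a 0 = ∫ ω : Fin a → Clause K × (Fin K → Fin N), (∫ h : Fin N → ℝ,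
      Real.log (partitionFn ω h) ∂(Measure.pi fun _ => ν))
      ∂(Measure.pi fun _ => ρ.prod (Measure.pi fun _ => unif N)) := by
  have hmp := toPF_mp (K := K) (N := N) (a := a) (ρ := ρ) (ν := ν)
  have hmeas : Measurable fun q : (Fin a → Clause K × (Fin K → Fin N)) × (Fin N → ℝ) =>
      Real.log (partitionFn q.1 q.2) := by
    refine Real.measurable_log.comp ?_
    unfold partitionFn
    refine Finset.measurable_fun_sum _ fun σ _ => Real.measurable_exp.comp ?_
    refine Measurable.add (Finset.measurable_fun_sum _ fun k _ => ?_)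
      (Finset.measurable_fun_sum _ fun s _ => ?_)
    · exact (measurable_clauseE σ).comp ((measurable_pi_apply k).comp measurable_fst)
    · have : Measurable fun q : (Fin a → Clause K × (Fin K → Fin N)) × (Fin N → ℝ) => q.2 s :=
        (measurable_pi_apply s).comp measurable_snd
      exact this.mul_const _
  have e1 : ∀ ω : Om K N a 0, FF m x ω =
      (fun q : (Fin a → Clause K × (Fin K → Fin N)) × (Fin N → ℝ) =>
        Real.log (partitionFn q.1 q.2)) (toPF ω) := fun ω => FF_zero hx ω
  have hint : Integrable (fun q : (Fin a → Clause K × (Fin K → Fin N)) × (Fin N → ℝ) =>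
      Real.log (partitionFn q.1 q.2))
      ((Measure.pi fun _ : Fin a => ρ.prod (Measure.pi fun _ : Fin K => unif N)).prod
      (Measure.pi fun _ : Fin N => ν)) := by
    rw [← hmp.integrable_comp hmeas.aestronglyMeasurable]
    have h2 := integrable_FF (N := N) (a := a) (n := 0) (m := m) (x := x) h hx
    simp only [e1] at h2
    exact h2
  unfold TT
  simp only [e1]
  rw [mp_integral hmp hmeas.aestronglyMeasurable, integral_prod _ hint]

theorem pressure_eq (h : PosClass K ρ ν) {m : Fin r → ℝ} {x : (Fin (r + 1) → U01) → ℝ}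
    (hx : IsTrial r m x) (lam : ℝ≥0) :
    ∫ k, TT ρ ν m x N k 0 ∂(poissonMeasure (lam * N)) = N * pressure lam ρ ν N := by
  unfold pressure
  have hN : (N : ℝ) ≠ 0 := by exact_mod_cast NeZero.ne N
  rw [← mul_assoc, mul_one_div_cancel hN, one_mul]
  refine integral_congr_ae (Filter.Eventually.of_forall fun k => ?_)
  exact TT_zero_right h hx


end Iter

/-- **The upper bound** for every number of sites, every depth and all admissible parameters; `K` may be
odd. -/
theorem pt_upper {ρ : Measure (Clause K)} {ν : Measure ℝ} (h : PosClass K ρ ν) {m : Fin r → ℝ}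
    {x : (Fin (r + 1) → U01) → ℝ} (hx : IsTrial r m x) (lam : ℝ≥0) {N : ℕ} (hN : 1 ≤ N) :
    pressure lam ρ ν N ≤ trialU lam ρ ν r m x - trialV lam ρ r m x := by
  have := h.prob_clause
  have := h.prob_field
  have : NeZero N := ⟨by omega⟩
  have : NeZero K := neZero_of h
  have hN0 : (0 : ℝ) < N := by exact_mod_cast hN
  have hρ : Integrable (maxTheta : Clause K → ℝ) ρ := maxTheta_int h
  have hm : ∀ p, 0 < m p := fun p => (hx.2.1 p).1
  have h1 := TT_iter (N := N) h hx lam
  rw [pressure_eq h hx lam] at h1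
  have hU : ∫ n, TT ρ ν m x N 0 n ∂(poissonMeasure (K * lam * N)) = N * trialU lam ρ ν r m x := by
    rw [TU.trialU_eq hρ h.field_int hm hx.2.2.1 hx.2.2.2,
      TU.TT0_pois' hρ h.field_int hm hx.2.2.1 hx.2.2.2]
  rw [hU] at h1
  have h2 : trialV lam ρ r m x = ((K - 1 : ℕ) : ℝ) * lam * tV ρ m x N := by
    rw [tV_eq_tV0 hρ hx N]
    exact trialV_eq0 hρ hx
  have hK : ((K - 1 : ℕ) : ℝ) = (K : ℝ) - 1 := by
    have := h.one_le
    rw [Nat.cast_sub (by omega), Nat.cast_one]
  rw [hK] at h2
  have h3 : (N : ℝ) * pressure lam ρ ν N ≤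
      N * (trialU lam ρ ν r m x - trialV lam ρ r m x) := by
    rw [h2]
    linarith only [h1]
  exact le_of_mul_le_mul_left h3 hN0

/-- **The Mezard-Parisi formula for nonnegative `f_j`, every `K ≥ 1`.** -/
theorem formula {ρ : Measure (Clause K)} {ν : Measure ℝ} (h : PosClass K ρ ν) (lam : ℝ≥0) :
    ∃ L : ℝ, Filter.Tendsto (fun N : ℕ => pressure lam ρ ν N) Filter.atTop (nhds L) ∧
      mezardParisi lam ρ ν = (L : EReal) := by
  have := h.prob_clause
  have := h.prob_field
  have : NeZero K := neZero_of h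
  exact MP.limit_of_bounds (MP.lower_full ρ (maxTheta_int h) ν h.field_int lam)
    fun N hN r m x hx => pt_upper h hx lam hN

end Vale.Agent.P168.PN

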