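import Vale.Agent.P168.Bdl.B1

/-! Variance bounds for functions with bounded differences on product spaces. -/

set_option autoImplicit false

open MeasureTheory ProbabilityTheory Filter
open scoped NNReal Topology

namespace Vale.Agent.P168.Cc

open Vale.Agent.P168.PT (Bdm cons_mp)

/-- The variance, written with integrals. -/
noncomputable def V {Ω : Type} [MeasurableSpace Ω] (P : Measure Ω) (f : Ω → ℝ) : ℝ :=
  ∫ x, f x ^ 2 ∂P - (∫ x, f x ∂P) ^ 2

section

variable {Ω : Type} [MeasurableSpace Ω] {P : Measure Ω} [IsProbabilityMeasure P] {f : Ω → ℝ}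

theorem V_eq (hf : Bdm f) : V P f = ∫ x, (f x - ∫ y, f y ∂P) ^ 2 ∂P := by
  set m := ∫ y, f y ∂P with hm
  have h2 : Integrable (fun x => f x ^ 2) P := (hf.pow 2).integrable P
  have h1 : Integrable (fun x => 2 * m * f x) P := (hf.smul (2 * m)).integrable P
  have e : ∀ x, (f x - m) ^ 2 = f x ^ 2 - 2 * m * f x + m ^ 2 := fun x => by ring
  have h3 : Integrable (fun x => f x ^ 2 - 2 * m * f x) P := h2.sub h1
  simp_rw [e]
  rw [integral_add h3 (integrable_const _), integral_sub h2 h1, integral_const_mul,
    integral_const, probReal_univ, one_smul, ← hm]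
  unfold V
  ring

theorem V_one (hf : Bdm f) {c : ℝ} (h : ∀ x y, |f x - f y| ≤ c) : V P f ≤ c ^ 2 := by
  rw [V_eq hf]
  obtain ⟨ω⟩ : Nonempty Ω := P.nonempty_of_neZero
  have hc : 0 ≤ c := (abs_nonneg _).trans (h ω ω)
  have h1 : ∀ x, |f x - ∫ y, f y ∂P| ≤ c := by
    intro x
    have e : f x - ∫ y, f y ∂P = ∫ y, (f x - f y) ∂P := by
      rw [integral_sub (integrable_const _) (hf.integrable P), integral_const, probReal_univ,
        one_smul]
    rw [e]
    have := norm_integral_le_of_norm_le_const (μ := P) (f := fun y => f x - f y) (C := c)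
      (Eventually.of_forall fun y => h x y)
    simpa using this
  calc ∫ x, (f x - ∫ y, f y ∂P) ^ 2 ∂P ≤ ∫ _x, c ^ 2 ∂P := by
        refine integral_mono_of_nonneg (Eventually.of_forall fun x => sq_nonneg _)
          (integrable_const _) (Eventually.of_forall fun x => ?_)
        exact sq_le_sq' (abs_le.1 (h1 x)).1 (abs_le.1 (h1 x)).2
    _ = c ^ 2 := by simp

theorem abs_dev_sq_le (hf : Bdm f) : (∫ x, |f x - ∫ y, f y ∂P| ∂P) ^ 2 ≤ V P f := by
  rw [V_eq hf]
  set g : Ω → ℝ := fun x => |f x - ∫ y, f y ∂P| with hg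
  have hgb : Bdm g := by
    obtain ⟨hm, C, hC⟩ := hf.sub (Bdm.const (∫ y, f y ∂P))
    exact ⟨hm.abs, C, fun z => by rw [hg]; simpa using hC z⟩
  have h1 := V_eq (P := P) hgb
  have h2 : 0 ≤ V P g := by
    rw [h1]
    exact integral_nonneg fun x => sq_nonneg _
  unfold V at h2
  have e : ∀ x, g x ^ 2 = (f x - ∫ y, f y ∂P) ^ 2 := fun x => sq_abs _
  simp_rw [e] at h2
  linarith

end

section Prod

variable {A B : Type} [MeasurableSpace A] [MeasurableSpace B] {μ : Measure A}
  [IsProbabilityMeasure μ] {ν : Measure B} [IsProbabilityMeasure ν] {f : A × B → ℝ}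

theorem bdm_avg (hf : Bdm f) : Bdm fun y => ∫ x, f (x, y) ∂μ := by
  obtain ⟨hm, C, hC⟩ := hf
  refine ⟨?_, C, fun y => ?_⟩
  · exact (StronglyMeasurable.integral_prod_right (f := fun (y : B) (x : A) => f (x, y))
      (hm.comp measurable_swap).stronglyMeasurable).measurable
  · have := norm_integral_le_of_norm_le_const (μ := μ) (f := fun x => f (x, y)) (C := C)
      (Eventually.of_forall fun x => hC _)
    simpa using this

theorem V_prod_le (hf : Bdm f) {a b : ℝ} (ha : ∀ y, V μ (fun x => f (x, y)) ≤ a)
    (hb : V ν (fun y => ∫ x, f (x, y) ∂μ) ≤ b) : V (μ.prod ν) f ≤ a + b := by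
  have h2 : Integrable (fun z => f z ^ 2) (μ.prod ν) := (hf.pow 2).integrable _
  have h1 : Integrable f (μ.prod ν) := hf.integrable _
  have hF := bdm_avg (μ := μ) hf
  have hF2 : Bdm fun y => ∫ x, f (x, y) ^ 2 ∂μ := bdm_avg (μ := μ) (hf.pow 2)
  unfold V at ha hb ⊢
  rw [integral_prod_symm _ h2, integral_prod_symm _ h1]
  have h3 : ∫ y, (∫ x, f (x, y) ^ 2 ∂μ) ∂ν ≤ ∫ y, (a + (∫ x, f (x, y) ∂μ) ^ 2) ∂ν := by
    refine integral_mono (hF2.integrable ν) ((Bdm.const a).add (hF.pow 2) |>.integrable ν)
      fun y => ?_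
    have := ha y
    dsimp only at this ⊢
    linarith
  rw [integral_add (integrable_const _) ((hF.pow 2).integrable ν), integral_const, probReal_univ,
    one_smul] at h3
  linarith

end Prod

theorem V_map {A B : Type} [MeasurableSpace A] [MeasurableSpace B] {μ : Measure A} {ν : Measure B}
    {φ : A → B} (h : MeasurePreserving φ μ ν) {f : B → ℝ} (hf : Measurable f) :
    V ν f = V μ fun x => f (φ x) := by
  unfold V
  rw [← h.map_eq, integral_map h.measurable.aemeasurable (hf.pow_const 2).aestronglyMeasurable,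
    integral_map h.measurable.aemeasurable hf.aestronglyMeasurable]

theorem V_pi_le {A : Type} [MeasurableSpace A] (μ : Measure A) [IsProbabilityMeasure μ] {c : ℝ}
    (n : ℕ) : ∀ f : (Fin n → A) → ℝ, Bdm f →
      (∀ x i a, |f (Function.update x i a) - f x| ≤ c) →
      V (Measure.pi fun _ : Fin n => μ) f ≤ n * c ^ 2 := by
  induction n with
  | zero =>
    intro f hf _
    have := V_one (P := Measure.pi fun _ : Fin 0 => μ) hf (c := 0) fun x y => by
      rw [Subsingleton.elim x y, sub_self, abs_zero]
    simpa using this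
  | succ n ih =>
    intro f hf h
    have hcm := cons_mp μ n
    rw [V_map hcm hf.1]
    have hf' : Bdm fun p : A × (Fin n → A) => f (Fin.cons p.1 p.2) := hf.comp hcm.measurable
    have h1 := V_prod_le (μ := μ) (ν := Measure.pi fun _ : Fin n => μ) hf' (a := c ^ 2)
      (b := n * c ^ 2) (fun y => ?_) (ih _ (bdm_avg hf') fun y i a => ?_)
    · refine h1.trans_eq ?_
      push_cast
      ring
    · refine V_one (hf'.comp (f := fun x => (x, y)) measurable_prodMk_right) fun x x' => ?_
      have e : (Fin.cons x y : Fin (n + 1) → A) =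
          Function.update (Fin.cons x' y : Fin (n + 1) → A) 0 x := by
        rw [Fin.update_cons_zero]
      dsimp only
      rw [e]
      exact h _ _ _
    · have e : (∫ x, f (Fin.cons x (Function.update y i a)) ∂μ) - ∫ x, f (Fin.cons x y) ∂μ =
          ∫ x, (f (Fin.cons x (Function.update y i a)) - f (Fin.cons x y)) ∂μ := by
        rw [integral_sub]
        · exact (hf'.comp (f := fun x => (x, Function.update y i a))
            measurable_prodMk_right).integrable μ
        · exact (hf'.comp (f := fun x => (x, y)) measurable_prodMk_right).integrable μ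
      rw [e]
      have := norm_integral_le_of_norm_le_const (μ := μ)
        (f := fun x => f (Fin.cons x (Function.update y i a)) - f (Fin.cons x y)) (C := c)
        (Eventually.of_forall fun x => by
          rw [Fin.cons_update]
          exact h _ _ _)
      simpa using this

end Vale.Agent.P168.Cc
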